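import Vale.Agent.P098.Six.Assembly

/-!
# P098, six dimensions: the certificate of one interval
-/

namespace Vale.Agent.P098.Six

open Vale.Agent.P098.Div

/-- The certificate of interval `i`: its constants bound the residual and its forms are good. -/
def SegCert (i : ℕ) : Prop :=
  ∃ K : SegC, segOK K (segN i) = true ∧ SegGood coefSix K (segN i)

end Vale.Agent.P098.Six
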