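import Vale.Agent.P098.Six.Fields
import Vale.Agent.P098.Div.ProfileSix

/-!
# P098, six dimensions: the entries as integer polynomials in `(w, D, ξ, l)`

The cubic invariant is a line `t = (a + b l) / den` in the eigenvalue `l`. Each entry is an integer
polynomial over a fixed denominator.
-/

namespace Vale.Agent.P098.Six

open Vale.Agent.P098.Div Vale.Agent.P098.Cone

/-- The line `t = (a + b l) / den`. -/
structure TL where
  a : ℤ
  b : ℤ
  den : ℕ

/-- `1 - p`. -/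
def omP (p : P4) : P4 := qa (cst4 1) (qc (-1) p)

/-- `21 G`. -/
def GP : P4 := qa (cst4 7) (qc 10 (qm lV lV))

/-- `den t`. -/
def TL.P (T : TL) : P4 := qa (cst4 T.a) (qc T.b lV)

/-- `den S0 (f₀ + t f₁)`. -/
def valP (T : TL) (f f1 : List IM) : P4 := qa (qc T.den (toP f)) (qm T.P (toP f1))

/-- `den S0` times `w f_w - 2 ξ (1 - ξ) f_ξ`. -/
def radP (T : TL) (f f1 : List IM) : P4 :=
  qa (qm wV (valP T (f.map IM.dw) (f1.map IM.dw)))
    (qc (-2) (qm (qm xV (omP xV)) (valP T (f.map IM.dx) (f1.map IM.dx))))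

/-- `21 den` times `G12 - t G`. -/
def gpP (T : TL) : P4 :=
  qa (qc T.den (qa (qc 10 (qm (qm lV lV) lV)) (qc (-2) lV))) (qc (-10) (qm (qm lV lV) T.P))

/-- `21 den S0` times the coefficient of `p` in a derivative. -/
def agP (T : TL) (f f1 : List IM) : P4 :=
  qa (qm GP (radP T f f1)) (qc 3 (qm (gpP T) (toP f1)))

/-- `den S0` times the coefficient of `π` in a derivative. -/
def ccP (T : TL) (f f1 : List IM) : P4 :=
  qa (valP T (f.map IM.dw) (f1.map IM.dw))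
    (qc (-2) (qm lV (valP T (f.map IM.dD) (f1.map IM.dD))))

/-- `21 den S0` times `G g / 2 + aG g`, doubled. -/
def hgP (T : TL) (C : Coef8) : P4 := qm GP (qa (valP T C.g []) (qc 2 (radP T C.g [])))

def ppP (C : Coef8) (T : TL) : P4 :=
  qa (qc (4 * S0 * T.den) (qa (qm (qm GP (qa (cst4 21) (qc (-1) GP))) (valP T C.b10 C.b11))
      (qm GP (agP T C.b10 C.b11))))
    (qc (-1) (qm (hgP T C) (hgP T C)))

def pnP (C : Coef8) : P4 := qc 3 (qm GP (toP C.b11))

def pzP (C : Coef8) (T : TL) : P4 :=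
  qa (qc (S0 * T.den)
      (qa (qm GP (qa (qa (ccP T C.b10 C.b11) (qc 2 (valP T C.al0 C.al1)))
          (qa (qm lV (valP T C.be0 C.be1)) (valP T C.ga []))))
        (qa (agP T C.al0 C.al1)
          (qa (qm lV (agP T C.be0 C.be1)) (qm (qm lV lV) (agP T C.ga []))))))
    (qc (-1) (qm (hgP T C) (ccP T C.g [])))

def nzP (C : Coef8) : P4 := qc 3 (qa (toP C.al1) (qm lV (toP C.be1)))

def zzP (C : Coef8) (T : TL) : P4 :=
  qa (qc (S0 * T.den) (qa (ccP T C.al0 C.al1)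
      (qa (qm lV (ccP T C.be0 C.be1)) (qm (qm lV lV) (ccP T C.ga [])))))
    (qc (-1) (qm (ccP T C.g []) (ccP T C.g [])))

def zP (C : Coef8) (T : TL) : P4 :=
  qa (qc (C.gd * S0)
      (qa (qm (omP xV) (qa (qc T.den (valP T C.be0 C.be1)) (qm T.P (valP T C.ga []))))
        (qc T.den (qm xV (qa (qc 5 (valP T C.b10 C.b11))
          (qc (-1) (qm wV (qa (qc 5 (valP T C.al0 C.al1)) (valP T C.ga [])))))))))
    (qc (-Int.ofNat C.gn) (qm xV (qm (valP T C.g []) (valP T C.g []))))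

def bP (C : Coef8) (T : TL) : P4 := valP T C.b10 C.b11

/-- The factor of the form. -/
def sP : P4 := qa (qm (omP xV) (omP DV)) (qc (-1) (qm xV (qm wV wV)))

/-- `200` times the slack of the profile. -/
def domP : P4 := qa (qa (qc 144 DV) (qc (-71) (qm DV DV))) (qc (-200) (qm wV wV))

/-- The constant of a certificate. -/
noncomputable def Coef8.gam (C : Coef8) : ℝ := (C.gn : ℝ) / C.gd

noncomputable section

variable (u : Fin 4 → ℝ) (C : Coef8) (T : TL)

/-- The invariant on the line. -/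
def TL.t (l : ℝ) : ℝ := (T.a + T.b * l) / T.den

theorem ev4_valP (hd : T.den ≠ 0) (f f1 : List IM) :
    ev4 u (valP T f f1) = T.den * (ev4 u (toP f) + T.t (u 3) * ev4 u (toP f1)) := by
  have : (T.den : ℝ) ≠ 0 := by exact_mod_cast hd
  simp only [valP, TL.P, ev4_qa, ev4_qc, ev4_qm, ev4_cst, ev4_lV, TL.t]
  push_cast; field_simp

theorem ev4_TP (hd : T.den ≠ 0) : ev4 u T.P = T.den * T.t (u 3) := by
  have : (T.den : ℝ) ≠ 0 := by exact_mod_cast hd
  simp only [TL.P, ev4_qa, ev4_qc, ev4_cst, ev4_lV, TL.t]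
  field_simp

theorem toP_nil : ev4 u (toP ([] : List IM)) = 0 := by simp [toP, ev4, Five.monE]

theorem S0_ne : (S0 : ℝ) ≠ 0 := by norm_num [S0]

theorem ePP_eq (hd : T.den ≠ 0) : ePP C.fields (pt4 u (T.t (u 3))) (u 3) =
    ev4 u (ppP C T) / (1764 * T.den ^ 2 * S0 ^ 2) := by
  have hd' : (T.den : ℝ) ≠ 0 := by exact_mod_cast hd
  have hS := S0_ne
  simp only [ePP, stepP, Coef8.fields, polyFields, pd_w, pd_x, pd_t, pev_monos, g11, g12, ppP, hgP,
    agP, radP, gpP, omP, GP, ev4_qa, ev4_qc, ev4_qm, ev4_cst, ev4_wV, ev4_xV, ev4_lV,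
    ev4_valP _ T hd, ev4_TP _ T hd, toP_nil, List.map_nil]
  simp only [pt4, Matrix.cons_val_zero, Matrix.cons_val]
  push_cast
  field_simp
  ring

theorem ePN_eq (t : ℝ) : ePN C.fields (pt4 u t) (u 3) = ev4 u (pnP C) / (42 * S0) := by
  have hS := S0_ne
  simp only [ePN, Coef8.fields, polyFields, pd_t, g11, pnP, GP, ev4_qa, ev4_qc, ev4_qm, ev4_cst,
    ev4_lV]
  push_cast
  field_simp
  ring

theorem ePZ_eq (hd : T.den ≠ 0) : ePZ C.fields (pt4 u (T.t (u 3))) (u 3) =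
    ev4 u (pzP C T) / (42 * T.den ^ 2 * S0 ^ 2) := by
  have hd' : (T.den : ℝ) ≠ 0 := by exact_mod_cast hd
  have hS := S0_ne
  simp only [ePZ, stepP, stepZ, Coef8.fields, polyFields, pd_w, pd_D, pd_x, pd_t, pev_monos, g11,
    g12, pzP, hgP, agP, ccP, radP, gpP, omP, GP, ev4_qa, ev4_qc, ev4_qm, ev4_cst, ev4_wV, ev4_xV,
    ev4_lV, ev4_valP _ T hd, ev4_TP _ T hd, toP_nil, List.map_nil]
  simp only [pt4, Matrix.cons_val_zero, Matrix.cons_val]
  push_cast
  field_simp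
  ring

theorem eNZ_eq (t : ℝ) : eNZ C.fields (pt4 u t) (u 3) = ev4 u (nzP C) / (2 * S0) := by
  have hS := S0_ne
  simp only [eNZ, Coef8.fields, polyFields, pd_t, nzP, ev4_qa, ev4_qc, ev4_qm, ev4_lV]
  push_cast
  field_simp

theorem eZZ_eq (hd : T.den ≠ 0) : eZZ C.fields (pt4 u (T.t (u 3))) (u 3) =
    ev4 u (zzP C T) / (T.den ^ 2 * S0 ^ 2) := by
  have hd' : (T.den : ℝ) ≠ 0 := by exact_mod_cast hd
  have hS := S0_ne
  simp only [eZZ, stepZ, Coef8.fields, polyFields, pd_w, pd_D, zzP, ccP, ev4_qa, ev4_qc, ev4_qm,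
    ev4_lV, ev4_valP _ T hd, toP_nil, List.map_nil]
  push_cast
  field_simp
  ring

theorem eZ_eq (hd : T.den ≠ 0) (hg : C.gd ≠ 0) :
    eZ C.gam C.fields (pt4 u (T.t (u 3))) = ev4 u (zP C T) / (C.gd * T.den ^ 2 * S0 ^ 2) := by
  have hd' : (T.den : ℝ) ≠ 0 := by exact_mod_cast hd
  have hg' : (C.gd : ℝ) ≠ 0 := by exact_mod_cast hg
  have hS := S0_ne
  simp only [eZ, Coef8.gam, Coef8.fields, polyFields, pev_monos, zP, omP, ev4_qa, ev4_qc, ev4_qm,
    ev4_cst, ev4_wV, ev4_xV, ev4_valP _ T hd, ev4_TP _ T hd, toP_nil]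
  simp only [pt4, Matrix.cons_val_zero, Matrix.cons_val]
  simp only [Int.ofNat_eq_natCast]
  push_cast
  field_simp
  ring

theorem b1_eq (hd : T.den ≠ 0) :
    C.fields.b1 (pt4 u (T.t (u 3))) = ev4 u (bP C T) / (T.den * S0) := by
  have hd' : (T.den : ℝ) ≠ 0 := by exact_mod_cast hd
  have hS := S0_ne
  simp only [Coef8.fields, polyFields, pev_monos, bP, ev4_valP _ T hd]
  field_simp

theorem eS_eq (t : ℝ) : eS (pt4 u t) = ev4 u sP := by
  simp only [eS, pt4, sP, omP, ev4_qa, ev4_qc, ev4_qm, ev4_cst, ev4_wV, ev4_DV, ev4_xV,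
    Matrix.cons_val_zero, Matrix.cons_val_one, Matrix.cons_val]
  push_cast; ring

theorem dom_eq : phiSix (u 1) - u 0 ^ 2 = ev4 u domP / 200 := by
  simp only [phiSix, domP, ev4_qa, ev4_qc, ev4_qm, ev4_wV, ev4_DV]
  push_cast; ring

end

end Vale.Agent.P098.Six
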