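import Vale.Agent.P098.Five.Box
import Vale.Agent.P098.Six.Coeffs
import Vale.Agent.P098.Six.Entries
import Vale.Agent.P098.Six.StripData

/-!
# P098, six dimensions: the side conditions of the certificate

Positivity of `b1` below the profile, positivity of `g`, and the inequality on the free boundary, by
coefficients of binary forms on a few boxes. With the interior inequality they give `CertifiesX`.
-/

namespace Vale.Agent.P098.Six

open Vale.Agent.P098.Div Vale.Agent.P098.Cone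
open Vale.Agent.P098.Five (Mdl IsLin monE homE conv homE_conv homE_nonneg isLin_int)

/-- The interval `den x ∈ [A, A + H]` and a degree. -/
structure Iv where
  n : ℕ
  A : ℤ
  H : ℤ
  den : ℤ

/-- Nonnegativity of a list on an interval, given a test for its entries. -/
def Iv.chk {α : Type} [Mdl α] (I : Iv) (c : α → Bool) (p : List α) : Bool :=
  decide (0 < I.den) && (decide (0 < I.H) && (decide (p.length ≤ I.n + 1) &&
    (conv I.n I.A I.H I.den p).all c))

theorem Iv.chk_sound {α : Type} [Mdl α] {f : α → ℝ} (hf : IsLin f) {I : Iv} {c : α → Bool}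
    (hc : ∀ a, c a = true → 0 ≤ f a) {p : List α} (h : I.chk c p = true) {x : ℝ}
    (h0 : (I.A : ℝ) ≤ I.den * x) (h1 : (I.den : ℝ) * x ≤ I.A + I.H) : 0 ≤ monE f x p := by
  simp only [Iv.chk, Bool.and_eq_true, decide_eq_true_eq, List.all_eq_true] at h
  obtain ⟨hd, hH, hl, hall⟩ := h
  have hd' : (0 : ℝ) < I.den := Int.cast_pos.2 hd
  have hH' : (0 : ℝ) < I.H := Int.cast_pos.2 hH
  obtain ⟨t, ht⟩ : ∃ t, t = ((I.den : ℝ) * x - I.A) / I.H := ⟨_, rfl⟩
  have hx : (I.den : ℝ) * x = I.A + I.H * t := by rw [ht]; field_simp; ring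
  have t0 : 0 ≤ t := by rw [ht]; exact div_nonneg (by linarith) hH'.le
  have t1 : t ≤ 1 := by rw [ht, div_le_one hH']; linarith
  have hn := homE_nonneg (f := f) t0 (show (0 : ℝ) ≤ 1 - t by linarith) I.n
    (conv I.n I.A I.H I.den p) fun a ha => hc a (hall a ha)
  rw [homE_conv hf hd.ne' hx hl] at hn
  exact nonneg_of_mul_nonneg_right hn (pow_pos hd' _)

/-- A box in four coordinates. -/
structure Bx where
  i0 : Iv
  i1 : Iv
  i2 : Iv
  i3 : Iv

/-- The point lies in the interval. -/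
def Iv.Mem (I : Iv) (x : ℝ) : Prop := (I.A : ℝ) ≤ I.den * x ∧ (I.den : ℝ) * x ≤ I.A + I.H

/-- Nonnegativity of a polynomial on a box. -/
def Bx.chk (b : Bx) (p : P4) : Bool :=
  b.i0.chk (b.i1.chk (b.i2.chk (b.i3.chk fun a : ℤ => decide (0 ≤ a)))) p

theorem Bx.chk_sound {b : Bx} {p : P4} (h : b.chk p = true) {u : Fin 4 → ℝ}
    (h0 : b.i0.Mem (u 0)) (h1 : b.i1.Mem (u 1)) (h2 : b.i2.Mem (u 2)) (h3 : b.i3.Mem (u 3)) :
    0 ≤ ev4 u p := by
  have l3 := isLin_int.mon (u 3)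
  have l2 := l3.mon (u 2)
  refine Iv.chk_sound (l2.mon (u 1)) (fun r hr => ?_) h h0.1 h0.2
  refine Iv.chk_sound l2 (fun q hq => ?_) hr h1.1 h1.2
  refine Iv.chk_sound l3 (fun s hs => ?_) hq h2.1 h2.2
  refine Iv.chk_sound isLin_int (fun a ha => ?_) hs h3.1 h3.2
  simp only [decide_eq_true_eq] at ha
  exact_mod_cast ha

/-- The cubic invariant is at most `0.671` in absolute value. -/
theorem abs_cubic_le {l : Fin 5 → ℝ} (h : Spectrum l) :
    -(671 / 1000) ≤ cubic l ∧ cubic l ≤ 671 / 1000 := by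
  have hb : ∀ i, -(1789 / 2000) ≤ l i ∧ l i ≤ 1789 / 2000 := fun i => by
    have hx := (h.range5 i).1
    rw [xres] at hx
    constructor <;> nlinarith
  have e : ∀ σ : ℝ, σ * σ = 1 →
      ∑ i, (σ * l i - 447 / 2000) ^ 2 * (σ * l i + 1789 / 2000)
        = σ * cubic l + 895 / 2000 + 5 * (447 / 2000) ^ 2 * (1789 / 2000) := by
    intro σ hσ
    have : ∀ i, (σ * l i - 447 / 2000) ^ 2 * (σ * l i + 1789 / 2000)
        = σ * l i ^ 3 + 895 / 2000 * l i ^ 2
          + σ * ((447 / 2000) ^ 2 - 2 * (447 / 2000) * (1789 / 2000)) * l i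
          + (447 / 2000) ^ 2 * (1789 / 2000) := by
      intro i
      linear_combination (σ * l i ^ 3 + 895 / 2000 * l i ^ 2) * hσ
    simp only [this, Finset.sum_add_distrib, ← Finset.mul_sum, h.sum, h.sq, Finset.sum_const,
      Finset.card_univ, Fintype.card_fin, nsmul_eq_mul, cubic]
    push_cast
    ring
  constructor
  · have := e 1 (by norm_num)
    have h0 : 0 ≤ ∑ i, (1 * l i - 447 / 2000) ^ 2 * (1 * l i + 1789 / 2000) :=
      Finset.sum_nonneg fun i _ => mul_nonneg (sq_nonneg _) (by linarith [hb i])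
    linarith
  · have := e (-1) (by norm_num)
    have h0 : 0 ≤ ∑ i, (-1 * l i - 447 / 2000) ^ 2 * (-1 * l i + 1789 / 2000) :=
      Finset.sum_nonneg fun i _ => mul_nonneg (sq_nonneg _) (by linarith [hb i])
    linarith

/-! ### `g` and `b1` -/

/-- `1000 S0 (g - 1 / 10)`. -/
def gChk : P4 := qa (qc 10 (toP coefSix.g)) (cst4 (-(S0 : ℤ)))

/-- The box for `g`. -/
def gBox : Bx := ⟨⟨4, 0, 3021, 5000⟩, ⟨4, 0, 1, 1⟩, ⟨4, 0, 1, 1⟩, ⟨0, 0, 1, 1⟩⟩

theorem gBox_ok : gBox.chk gChk = true := by decide +kernel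

/-- `1000 S0 (b10 + σ 671 / 1000 b11)`. -/
def bChk (σ : ℤ) : P4 := qa (qc 1000 (toP coefSix.b10)) (qc (671 * σ) (toP coefSix.b11))

/-- The slice `D ∈ [j / 8, (j + 1) / 8]` in four pieces of `w ≤ W / 1000`. -/
def bBox (j : ℕ) (i : ℕ) (W : ℕ) : Bx :=
  ⟨⟨4, i * W, W, 4000⟩, ⟨4, j, 1, 8⟩, ⟨4, 0, 1, 1⟩, ⟨0, 0, 1, 1⟩⟩

/-- The slices with an upper bound of the profile. -/
def bSlices : List (ℕ × ℕ) :=
  [(0, 291), (1, 398), (2, 470), (3, 521), (4, 559), (5, 584), (6, 599), (7, 605)]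

/-- The check of one slice. -/
def bSlice (s : ℕ × ℕ) : Bool :=
  decide (18/25 * ((s.1 + 1 : ℚ) / 8) - 71/200 * ((s.1 + 1 : ℚ) / 8) ^ 2 ≤ ((s.2 : ℚ) / 1000) ^ 2) &&
    (List.range 4).all fun i => (bBox s.1 i s.2).chk (bChk 1) && (bBox s.1 i s.2).chk (bChk (-1))

theorem bSlices_ok : bSlices.all bSlice = true := by decide +kernel

theorem phiSix_le_of_le {D E : ℝ} (h : D ≤ E) (hE : E ≤ 1) : phiSix D ≤ phiSix E := by
  unfold phiSix
  nlinarith [mul_nonneg (sub_nonneg.2 h) (show (0 : ℝ) ≤ 18 / 25 - 71 / 200 * (E + D) by linarith)]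

theorem b1_nonneg {t w D ξ : ℝ} (ht : -(671 / 1000) ≤ t) (ht' : t ≤ 671 / 1000) (hw : 0 ≤ w)
    (hD : 0 ≤ D) (hD1 : D ≤ 1) (hwD : w ^ 2 ≤ phiSix D) (hξ : 0 ≤ ξ) (hξ' : ξ ≤ 1) :
    0 ≤ coefSix.fields.b1 ![w, D, t, ξ] := by
  obtain ⟨s, hs, hlo, hhi⟩ : ∃ s ∈ bSlices, (s.1 : ℝ) ≤ 8 * D ∧ 8 * D ≤ s.1 + 1 := by
    simp only [bSlices, List.mem_cons, List.not_mem_nil, or_false]
    rcases le_or_gt (8 * D) 1 with h | h1
    · exact ⟨(0, 291), by simp, by simp; linarith, by simp; linarith⟩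
    rcases le_or_gt (8 * D) 2 with h | h2
    · exact ⟨(1, 398), by simp, by simp; linarith, by simp; linarith⟩
    rcases le_or_gt (8 * D) 3 with h | h3
    · exact ⟨(2, 470), by simp, by simp; linarith, by simp; linarith⟩
    rcases le_or_gt (8 * D) 4 with h | h4
    · exact ⟨(3, 521), by simp, by simp; linarith, by simp; linarith⟩
    rcases le_or_gt (8 * D) 5 with h | h5
    · exact ⟨(4, 559), by simp, by simp; linarith, by simp; linarith⟩
    rcases le_or_gt (8 * D) 6 with h | h6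
    · exact ⟨(5, 584), by simp, by simp; linarith, by simp; linarith⟩
    rcases le_or_gt (8 * D) 7 with h | h7
    · exact ⟨(6, 599), by simp, by simp; linarith, by simp; linarith⟩
    · exact ⟨(7, 605), by simp, by simp; linarith, by simp; linarith⟩
  have hok := (List.all_eq_true.1 bSlices_ok) s hs
  simp only [bSlice, Bool.and_eq_true, decide_eq_true_eq, List.all_eq_true, List.mem_range] at hok
  obtain ⟨hphi, hall⟩ := hok
  have hE : ((s.1 : ℝ) + 1) / 8 ≤ 1 := by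
    have : s.1 ≤ 7 := by
      simp only [bSlices, List.mem_cons, List.not_mem_nil, or_false] at hs
      rcases hs with rfl | rfl | rfl | rfl | rfl | rfl | rfl | rfl <;> norm_num
    have : (s.1 : ℝ) ≤ 7 := by exact_mod_cast this
    linarith
  have hW : (1000 : ℝ) * w ≤ s.2 := by
    have h1 := phiSix_le_of_le (show D ≤ ((s.1 : ℝ) + 1) / 8 by linarith) hE
    have h2 : phiSix (((s.1 : ℝ) + 1) / 8) ≤ ((s.2 : ℝ) / 1000) ^ 2 := by
      have := (Rat.cast_le (K := ℝ)).2 hphi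
      push_cast at this
      simpa [phiSix] using this
    have h3 := (abs_le_of_sq_le_sq' (hwD.trans (h1.trans h2)) (by positivity)).2
    linarith
  obtain ⟨i, hi, h4, h5⟩ : ∃ i : ℕ, i < 4 ∧ (i : ℝ) * s.2 ≤ 4000 * w ∧
      4000 * w ≤ i * s.2 + s.2 := by
    rcases le_or_gt (4000 * w) s.2 with h | h1
    · exact ⟨0, by norm_num, by simp; linarith, by simp; linarith⟩
    rcases le_or_gt (4000 * w) (2 * s.2) with h | h2
    · exact ⟨1, by norm_num, by simp; linarith, by simp; linarith⟩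
    rcases le_or_gt (4000 * w) (3 * s.2) with h | h3
    · exact ⟨2, by norm_num, by push_cast; linarith, by push_cast; linarith⟩
    · exact ⟨3, by norm_num, by push_cast; linarith, by push_cast; linarith⟩
  obtain ⟨hp, hm⟩ := hall i hi
  set u : Fin 4 → ℝ := ![w, D, ξ, 0] with hu
  have m0 : (bBox s.1 i s.2).i0.Mem (u 0) := by
    simp only [bBox, Iv.Mem, hu, Matrix.cons_val_zero]
    push_cast
    exact ⟨h4, h5⟩
  have m1 : (bBox s.1 i s.2).i1.Mem (u 1) := by
    simp only [bBox, Iv.Mem, hu, Matrix.cons_val_one, Matrix.cons_val_zero]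
    push_cast
    exact ⟨hlo, hhi⟩
  have m2 : (bBox s.1 i s.2).i2.Mem (u 2) := by
    simp [bBox, Iv.Mem, hu, hξ, hξ']
  have m3 : (bBox s.1 i s.2).i3.Mem (u 3) := by simp [bBox, Iv.Mem, hu]
  have p1 := Bx.chk_sound hp m0 m1 m2 m3
  have p2 := Bx.chk_sound hm m0 m1 m2 m3
  simp only [bChk, ev4_qa, ev4_qc] at p1 p2
  push_cast at p1 p2
  have e : coefSix.fields.b1 ![w, D, t, ξ]
      = (ev4 u (toP coefSix.b10) + t * ev4 u (toP coefSix.b11)) / S0 := by
    rw [show (![w, D, t, ξ] : Fin 4 → ℝ) = pt4 u t by simp [pt4, hu]]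
    exact pev_monos u t _ _
  rw [e]
  refine div_nonneg ?_ (Nat.cast_nonneg _)
  rcases le_or_gt 0 (ev4 u (toP coefSix.b11)) with hb | hb
  · linarith [mul_le_mul_of_nonneg_right ht hb]
  · linarith [mul_le_mul_of_nonpos_right ht' hb.le]

theorem g_pos {t w D ξ : ℝ} (hw : 0 ≤ w) (hw' : 5000 * w ≤ 3021) (hD : 0 ≤ D) (hD1 : D ≤ 1)
    (hξ : 0 ≤ ξ) (hξ' : ξ ≤ 1) : 0 < coefSix.fields.g ![w, D, t, ξ] := by
  set u : Fin 4 → ℝ := ![w, D, ξ, 0] with hu
  have p := Bx.chk_sound gBox_ok (u := u)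
    (by simp only [gBox, Iv.Mem, hu, Matrix.cons_val_zero]; push_cast; constructor <;> linarith)
    (by simp [gBox, Iv.Mem, hu, hD, hD1]) (by simp [gBox, Iv.Mem, hu, hξ, hξ'])
    (by simp [gBox, Iv.Mem, hu])
  simp only [gChk, ev4_qa, ev4_qc, ev4_cst] at p
  push_cast at p
  have e : coefSix.fields.g ![w, D, t, ξ] = (ev4 u (toP coefSix.g) + t * ev4 u (toP [])) / S0 := by
    rw [show (![w, D, t, ξ] : Fin 4 → ℝ) = pt4 u t by simp [pt4, hu]]
    exact pev_monos u t _ _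
  rw [e, toP_nil, mul_zero, add_zero]
  have : (0 : ℝ) < S0 := by norm_num [S0]
  exact div_pos (by linarith) this

/-! ### The free boundary -/

/-- The part of a list at `w = D = 0`. -/
def restrict0 (L : List IM) : List IM := L.filter fun p => decide (p.i = 0) && decide (p.j = 0)

/-- `t = (1 - θ) e0 + θ e1` times a denominator; `θ` stands in the place of `w`. -/
def tHat (a0 a1 b0 b1 : ℤ) : P4 :=
  qa (qa (cst4 a0) (qc a1 lV)) (qm wV (qa (cst4 (b0 - a0)) (qc (b1 - a1) lV)))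

/-- The boundary expression times `(den S0) ^ 2`. -/
def bdryP (C : Coef8) (den : ℤ) (T : P4) : P4 :=
  let v := fun f f1 : List IM => qa (qc den (toP (restrict0 f))) (qm T (toP (restrict0 f1)))
  qa (qc S0 (qa (qm (qa (qc (2 * den) lV) (qc (-1) T)) (v C.b10 C.b11))
      (qa (qc den (qa (v C.al0 C.al1) (qm lV (v C.be0 C.be1))))
        (qc (den * den) (qm (qm lV lV) (toP (restrict0 C.ga)))))))
    (qc (-(den * den)) (qm lV (qm (toP (restrict0 C.g)) (toP (restrict0 C.g)))))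

/-- The product of the four denominators. -/
def commonDen (a0 a1 b0 b1 : ℚ) : ℕ := a0.den * a1.den * b0.den * b1.den

/-- Intervals `8 ξ ∈ [k, k + h]` covering `[0, 1]`. -/
def bdryParts : List (ℕ × ℕ) := [(0, 1), (1, 3), (4, 2), (6, 2)]

/-- The box `θ ∈ [0, 1]`, `8 ξ ∈ [k, k + h]`, `l ∈ [u, min v 0]`. -/
def bdryBox (u v : ℚ) (k : ℕ × ℕ) : Bx :=
  ⟨⟨2, 0, 1, 1⟩, ⟨0, 0, 1, 1⟩, ⟨4, k.1, k.2, 8⟩,
    ⟨2, u.num * (min v 0).den, (min v 0).num * u.den - u.num * (min v 0).den,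
      u.den * (min v 0).den⟩⟩

/-- The check of one segment. -/
def bdrySeg (u v : ℚ) : Pol → Pol → Bool
  | [a0, a1], [b0, b1] =>
    let d := commonDen a0 a1 b0 b1
    decide ((((a0 * d).num : ℚ) = a0 * d) ∧ (((a1 * d).num : ℚ) = a1 * d) ∧
        (((b0 * d).num : ℚ) = b0 * d) ∧ (((b1 * d).num : ℚ) = b1 * d) ∧ 0 < d) &&
      bdryParts.all fun k => (bdryBox u v k).chk
        (bdryP coefSix d (tHat (a0 * d).num (a1 * d).num (b0 * d).num (b1 * d).num))
  | _, _ => false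

/-- The check of all segments at nonpositive `l`. -/
def bdryAll (L : List SSeg) : Bool :=
  L.all fun S => decide (0 ≤ S.u) || bdrySeg S.u S.v S.lo S.hi

theorem bdryAll_ok : bdryAll strips = true := by decide +kernel

theorem filter_ev (u : Fin 4 → ℝ) (h0 : u 0 = 0) (h1 : u 1 = 0) :
    ∀ L : List IM, ev4 u (toP L) = ev4 u (toP (restrict0 L))
  | [] => rfl
  | p :: L => by
    have ih := filter_ev u h0 h1 L
    by_cases hp : p.i = 0 ∧ p.j = 0
    · have : restrict0 (p :: L) = p :: restrict0 L := by simp [restrict0, hp.1, hp.2]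
      rw [this]
      simp only [toP, ev4_qa, ih]
    · have hd : (decide (p.i = 0) && decide (p.j = 0)) = false := by
        simp only [Bool.and_eq_false_iff, decide_eq_false_iff_not]
        tauto
      have : restrict0 (p :: L) = restrict0 L := by simp [restrict0, hd]
      rw [this]
      simp only [toP, ev4_qa, ev4_p4, h0, h1, ih]
      rcases not_and_or.1 hp with e | e <;> simp [zero_pow e]

theorem ev4_congr01 (L : List IM) {u u' : Fin 4 → ℝ} (h2 : u 2 = u' 2) :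
    ev4 u (toP (restrict0 L)) = ev4 u' (toP (restrict0 L)) := by
  induction L with
  | nil => simp [restrict0, toP, ev4, Five.monE]
  | cons p L ih =>
    by_cases hp : (decide (p.i = 0) && decide (p.j = 0)) = true
    · have : restrict0 (p :: L) = p :: restrict0 L := List.filter_cons_of_pos hp
      simp only [Bool.and_eq_true, decide_eq_true_eq] at hp
      rw [this]
      simp only [toP, ev4_qa, ev4_p4, ih, hp.1, hp.2, pow_zero, h2]
    · have : restrict0 (p :: L) = restrict0 L := List.filter_cons_of_neg hp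
      rw [this, ih]

theorem exists_part {ξ : ℝ} (h : 0 ≤ ξ) (h' : ξ ≤ 1) :
    ∃ k ∈ bdryParts, (k.1 : ℝ) ≤ 8 * ξ ∧ 8 * ξ ≤ k.1 + k.2 := by
  rcases le_or_gt (8 * ξ) 1 with h0 | h1
  · exact ⟨(0, 1), by simp [bdryParts], by simp; linarith, by simp; linarith⟩
  rcases le_or_gt (8 * ξ) 4 with h0 | h2
  · exact ⟨(1, 3), by simp [bdryParts], by simp; linarith, by simp; linarith⟩
  rcases le_or_gt (8 * ξ) 6 with h0 | h3
  · exact ⟨(4, 2), by simp [bdryParts], by simp; linarith, by simp; linarith⟩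
  · exact ⟨(6, 2), by simp [bdryParts], by simp; linarith, by simp; linarith⟩

theorem exists_theta {A B t : ℝ} (h0 : A ≤ t) (h1 : t ≤ B) :
    ∃ θ, 0 ≤ θ ∧ θ ≤ 1 ∧ t = (1 - θ) * A + θ * B := by
  rcases eq_or_lt_of_le (h0.trans h1) with e | e
  · exact ⟨0, le_rfl, zero_le_one, by linarith⟩
  · have : B - A ≠ 0 := by linarith
    refine ⟨(t - A) / (B - A), div_nonneg (by linarith) (by linarith),
      (div_le_one (by linarith)).2 (by linarith), ?_⟩
    field_simp
    ring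

theorem bdryBox_mem {u v : ℚ} (k : ℕ × ℕ) {a : ℝ} (hu : (u : ℝ) ≤ a) (hv : a ≤ v) (ha : a ≤ 0) :
    (bdryBox u v k).i3.Mem a := by
  have hm : a ≤ ((min v 0 : ℚ) : ℝ) := by
    rw [Rat.cast_min]; exact le_min hv (by simpa using ha)
  simp only [bdryBox, Iv.Mem]
  push_cast
  rw [Rat.cast_def] at hu hm
  rw [div_le_iff₀ (by exact_mod_cast Rat.den_pos u)] at hu
  rw [le_div_iff₀ (by exact_mod_cast Rat.den_pos (min v 0))] at hm
  have du : (0 : ℝ) ≤ (u.den : ℝ) := Nat.cast_nonneg _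
  have dv : (0 : ℝ) ≤ ((min v 0).den : ℝ) := Nat.cast_nonneg _
  constructor
  · linear_combination mul_le_mul_of_nonneg_right hu dv
  · linear_combination mul_le_mul_of_nonneg_right hm du

theorem ev4_tHat (p : Fin 4 → ℝ) {d : ℝ} {a0 a1 b0 b1 : ℝ} {A0 A1 B0 B1 : ℤ}
    (f0 : (A0 : ℝ) = a0 * d) (f1 : (A1 : ℝ) = a1 * d) (g0 : (B0 : ℝ) = b0 * d)
    (g1 : (B1 : ℝ) = b1 * d) :
    ev4 p (tHat A0 A1 B0 B1) =
      d * ((1 - p 0) * (a0 + p 3 * a1) + p 0 * (b0 + p 3 * b1)) := by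
  simp only [tHat, ev4_qa, ev4_qc, ev4_qm, ev4_cst, ev4_lV, ev4_wV]
  push_cast
  rw [f0, f1, g0, g1]
  ring

theorem ev4_bdryP (p : Fin 4 → ℝ) (C : Coef8) (d : ℤ) (T : P4) :
    ev4 p (bdryP C d T) =
      S0 * ((2 * d * p 3 - ev4 p T)
          * (d * ev4 p (toP (restrict0 C.b10)) + ev4 p T * ev4 p (toP (restrict0 C.b11)))
        + (d * (d * ev4 p (toP (restrict0 C.al0)) + ev4 p T * ev4 p (toP (restrict0 C.al1))
            + p 3 * (d * ev4 p (toP (restrict0 C.be0)) + ev4 p T * ev4 p (toP (restrict0 C.be1))))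
          + d * d * (p 3 * p 3 * ev4 p (toP (restrict0 C.ga)))))
      - d * d * (p 3 * (ev4 p (toP (restrict0 C.g)) * ev4 p (toP (restrict0 C.g)))) := by
  simp only [bdryP, ev4_qa, ev4_qc, ev4_qm, ev4_lV]
  push_cast
  ring

theorem bdry_value (C : Coef8) (z : Fin 4 → ℝ) (t a d : ℝ) (hd : 0 < d) {q : ℝ} (hq : 0 ≤ q)
    (e : q = S0 * ((2 * d * a - d * t)
          * (d * ev4 z (toP C.b10) + d * t * ev4 z (toP C.b11))
        + (d * (d * ev4 z (toP C.al0) + d * t * ev4 z (toP C.al1)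
            + a * (d * ev4 z (toP C.be0) + d * t * ev4 z (toP C.be1)))
          + d * d * (a * a * ev4 z (toP C.ga))))
      - d * d * (a * (ev4 z (toP C.g) * ev4 z (toP C.g)))) :
    0 ≤ (2 * a - t) * C.fields.b1 (pt4 z t) + C.fields.al (pt4 z t)
      + a * C.fields.be (pt4 z t) + a ^ 2 * C.fields.ga (pt4 z t)
      - a * C.fields.g (pt4 z t) ^ 2 := by
  have hS : (0 : ℝ) < S0 := by norm_num [S0]
  refine nonneg_of_mul_nonneg_right (?_ : (0 : ℝ) ≤ (d * S0) ^ 2 * _) (by positivity)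
  refine hq.trans_eq (e.trans ?_)
  simp only [Coef8.fields, polyFields, pev_monos, toP_nil]
  field_simp
  ring

theorem rat_num_mul {q : ℚ} {d : ℕ} (h : ((q * d).num : ℚ) = q * d) :
    (((q * d).num : ℤ) : ℝ) = (q : ℝ) * d := by
  rw [← Rat.cast_intCast, h]
  push_cast
  rfl

theorem bdrySeg_sound {u v : ℚ} {e0 e1 : Pol} (h : bdrySeg u v e0 e1 = true) {a t ξ : ℝ}
    (hu : (u : ℝ) ≤ a) (hv : a ≤ v) (ha : a ≤ 0) (hξ : 0 ≤ ξ) (hξ' : ξ ≤ 1) (h0 : ev e0 a ≤ t)
    (h1 : t ≤ ev e1 a) :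
    0 ≤ (2 * a - t) * coefSix.fields.b1 ![0, 0, t, ξ] + coefSix.fields.al ![0, 0, t, ξ]
      + a * coefSix.fields.be ![0, 0, t, ξ] + a ^ 2 * coefSix.fields.ga ![0, 0, t, ξ]
      - a * coefSix.fields.g ![0, 0, t, ξ] ^ 2 := by
  match e0, e1, h with
  | [a0, a1], [b0, b1], h =>
    simp only [bdrySeg, Bool.and_eq_true, decide_eq_true_eq] at h
    obtain ⟨⟨f0, f1, g0, g1, hd⟩, hbs⟩ := h
    obtain ⟨k, hk, hk0, hk1⟩ := exists_part hξ hξ'
    have hb := (List.all_eq_true.1 hbs) k hk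
    clear hbs
    simp only [ev, mul_zero, add_zero] at h0 h1
    obtain ⟨θ, hθ, hθ', hθt⟩ := exists_theta h0 h1
    have q := Bx.chk_sound hb (u := ![θ, 0, ξ, a]) (by simp [bdryBox, Iv.Mem, hθ, hθ'])
      (by simp [bdryBox, Iv.Mem])
      (by simp only [bdryBox, Iv.Mem, Matrix.cons_val]; push_cast; exact ⟨hk0, hk1⟩)
      (by simpa using bdryBox_mem k hu hv ha)
    rw [ev4_bdryP, ev4_tHat _ (rat_num_mul f0) (rat_num_mul f1) (rat_num_mul g0) (rat_num_mul g1)]
      at q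
    have hr : ∀ L : List IM, ev4 ![θ, 0, ξ, a] (toP (restrict0 L)) = ev4 ![0, 0, ξ, a] (toP L) :=
      fun L => by
        rw [filter_ev ![0, 0, ξ, a] rfl rfl, ev4_congr01 L (u := ![θ, 0, ξ, a])
          (u' := ![0, 0, ξ, a]) (by simp)]
    simp only [hr, Matrix.cons_val_zero, Matrix.cons_val, ← hθt, Int.cast_natCast] at q
    have hpt : (![0, 0, t, ξ] : Fin 4 → ℝ) = pt4 ![0, 0, ξ, a] t := by simp [pt4]
    rw [hpt]
    exact bdry_value coefSix _ t a _ (by exact_mod_cast hd) q rfl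

theorem bdryX_six : BdryX 5 coefSix.fields := by
  refine bdryX_of (fields_reduced _) fun l h ξ h0 h1 k hk => ?_
  have hx := (h.range5 k).1
  rw [xres] at hx
  have hu : ((-1789 / 2000 : ℚ) : ℝ) < l k := by push_cast; nlinarith
  have hv : l k < 1789 / 2000 := by nlinarith
  obtain ⟨S, hS, hc, a, b⟩ := setOK_sound strips_ok hu hv
  simp only [SSeg.ok, Bool.and_eq_true] at hc
  obtain ⟨c0, c1⟩ := cubic_range hc.1 h k a.le b
  have hall := (List.all_eq_true.1 bdryAll_ok) S hS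
  simp only [Bool.or_eq_true, decide_eq_true_eq] at hall
  rcases hall with hp | hall
  · exfalso
    have : (0 : ℝ) ≤ (S.u : ℝ) := by exact_mod_cast hp
    linarith
  · exact bdrySeg_sound hall a.le b hk h0.le h1.le c0 c1

theorem dom_facts {w D ξ : ℝ} (hd : InDom phiSix w D) :
    0 ≤ w ∧ 5000 * w ≤ 3021 ∧ 0 ≤ D ∧ D ≤ 1 := by
  obtain ⟨hw, hD, hD1, hwD⟩ := hd
  have h : w ^ 2 ≤ (3021 / 5000 : ℝ) ^ 2 :=
    hwD.trans ((phiSix_le_of_le hD1.le le_rfl).trans (by norm_num [phiSix]))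
  exact ⟨hw.le, by linarith [(abs_le_of_sq_le_sq' h (by norm_num)).2], hD, hD1.le⟩

/-- The interior inequality completes the certificate. -/
theorem certifiesX_of_quad (h : QuadX 5 coefSix.gam coefSix.fields phiSix) :
    CertifiesX 5 coefSix.gam coefSix.fields phiSix where
  smooth := smooth_polyFields _ _ _ _ _ _
  hardy := by norm_num [Coef8.gam, coefSix]
  quad := h
  triple := tripleX_of_pos (fields_reduced _) fun l hl w D hd ξ hx => by
    obtain ⟨a, b, c, e⟩ := dom_facts (ξ := ξ) hd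
    exact b1_nonneg (abs_cubic_le hl).1 (abs_cubic_le hl).2 a c e hd.2.2.2 hx.1.le hx.2.1.le
  bdry := bdryX_six
  nonzero l _ w D hd ξ hx := by
    obtain ⟨a, b, c, e⟩ := dom_facts (ξ := ξ) hd
    exact (g_pos a b c e hx.1.le hx.2.1.le).ne'

end Vale.Agent.P098.Six
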