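import Vale.Agent.P098.Six.Final
import Vale.Agent.P098.Six.Positive
import Vale.Agent.P098.Six.Side

/-!
# P098: rigidity up to dimension six from the 24 checked intervals
-/

namespace Vale.Agent.P098.Six

open Vale.Agent.P098.Cone Vale.Agent.P098.Div Set

/-- The rigidity in dimensions two to six once the intervals are certified. -/
theorem answer_of_segs (h : ∀ i < segCount, SegCert i) :
    ∀ d : ℕ, 2 ≤ d → d ≤ 6 →
      (∀ (u w : (Fin d → ℝ) → ℝ) (O : Set (Fin d → ℝ)),
        RegularCone u O w → IsMinimizer u → u ≠ 0 →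
        ∃ e : Fin d → ℝ, ∑ i, e i ^ 2 = 1 ∧ ∀ x, u x = max (∑ i, e i * x i) 0) ∧
      (∀ e : Fin d → ℝ, ∑ i, e i ^ 2 = 1 →
        RegularCone (fun x => max (∑ i, e i * x i) 0) univ (fun x => ∑ i, e i * x i) ∧
          IsMinimizer (fun x => max (∑ i, e i * x i) 0)) :=
  flat_le_six <| certifiesX_of_quad <| quadX_six fun i hi =>
    let ⟨_, hS, hG⟩ := h i hi
    segQuad_six hS hG

end Vale.Agent.P098.Six
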