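import Vale.Agent.P098.Six.SegQuad
import Vale.Agent.P098.Six.StripData
import Vale.Agent.P098.Six.Coeffs

/-!
# P098, six dimensions: the interior inequality from the 24 intervals

A module of an interval proves `SegQuad coefSix (segN i)` by `segQuad_six`.
-/

namespace Vale.Agent.P098.Six

open Vale.Agent.P098.Div

/-- The number of intervals. -/
def segCount : ℕ := 24

/-- The interval number `i`. -/
def segN (i : ℕ) : SSeg := strips.getD i ⟨0, 0, [], [], []⟩

theorem strips_length : strips.length = segCount := rfl

theorem coefSix_gd : coefSix.gd ≠ 0 := by decide +kernel

noncomputable section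

/-- The interior inequality on interval `i` from its certificate. -/
theorem segQuad_six {i : ℕ} {K : SegC} (hS : segOK K (segN i) = true)
    (hG : SegGood coefSix K (segN i)) : SegQuad coefSix (segN i) :=
  segQuad_of_good coefSix_gd hS hG

/-- The interior inequality from all intervals of the data. -/
theorem quadX_six (h : ∀ i < segCount, SegQuad coefSix (segN i)) :
    QuadX 5 coefSix.gam coefSix.fields phiSix := by
  refine quadX_of_segs strips_ok fun S hS => ?_
  obtain ⟨i, hi, rfl⟩ := List.getElem_of_mem hS
  have := h i (strips_length ▸ hi)
  rwa [segN, List.getD_eq_getElem _ _ hi] at this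

end

end Vale.Agent.P098.Six
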