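import Vale.Agent.P098.Six.RootF
import Vale.Agent.P098.Six.RootData
import Vale.Agent.P098.Six.Coeffs

/-!
# P098, six dimensions: the roots from literal parts

The entries are affine in the cubic invariant, so on a line they are combinations of their values
at `t = 0` and `t = 1`; these are stored as literals and compared once with the formulas.
-/

namespace Vale.Agent.P098.Six

open Vale.Agent.P098.Div

/-- The line `t = 0`. -/
def line0 : TL := ⟨0, 0, 1⟩

/-- The line `t = 1`. -/
def line1 : TL := ⟨1, 0, 1⟩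

/-- A wide layout for comparisons. -/
def cmpLay : Lay := ⟨200, 9, 8, 8, 8⟩

/-- Two lists have equal coefficients. -/
def sameP (p q : P4) : Bool :=
  match monP cmpLay (2 ^ 150) p, monP cmpLay (2 ^ 150) q with
  | some P, some Q => P == Q
  | _, _ => false

theorem sameP_sound {p q : P4} (h : sameP p q = true) (x : Fin 4 → ℝ) : ev4 x p = ev4 x q := by
  simp only [sameP] at h
  split at h
  case h_2 => simp at h
  rename_i P Q hP hQ
  obtain rfl : P = Q := beq_iff_eq.1 h
  have hB : 0 < cmpLay.B := by decide +kernel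
  have hM : 2 ^ 150 < 2 ^ (cmpLay.B - 1) := by decide +kernel
  obtain ⟨c, hc, vc⟩ := monP_rep hB hM hP
  obtain ⟨d, hd, vd⟩ := monP_rep hB hM hQ
  rw [← vc, ← vd]
  exact Finset.sum_congr rfl fun j hj => by rw [pack_inj hB hM hc hd j (Finset.mem_range.1 hj)]

theorem ppA_ok : sameP ppA (ppP coefSix line0) = true := by decide +kernel

theorem ppB_ok : sameP ppB (qa (ppP coefSix line1) (qc (-1) (ppP coefSix line0))) = true := by decide +kernel

theorem sppA_ok : sameP sppA (qm sP (ppP coefSix line0)) = true := by decide +kernel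

theorem sppB_ok : sameP sppB (qm sP (qa (ppP coefSix line1) (qc (-1) (ppP coefSix line0)))) = true := by decide +kernel

theorem pzA_ok : sameP pzA (pzP coefSix line0) = true := by decide +kernel

theorem pzB_ok : sameP pzB (qa (pzP coefSix line1) (qc (-1) (pzP coefSix line0))) = true := by decide +kernel

theorem spzA_ok : sameP spzA (qm sP (pzP coefSix line0)) = true := by decide +kernel

theorem spzB_ok : sameP spzB (qm sP (qa (pzP coefSix line1) (qc (-1) (pzP coefSix line0)))) = true := by decide +kernel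

theorem zA_ok : sameP zA (zP coefSix line0) = true := by decide +kernel

theorem zB_ok : sameP zB (qa (zP coefSix line1) (qc (-1) (zP coefSix line0))) = true := by decide +kernel

theorem szzA_ok : sameP szzA (qm sP (zzP coefSix line0)) = true := by decide +kernel

theorem szzB_ok : sameP szzB (qm sP (qa (zzP coefSix line1) (qc (-1) (zzP coefSix line0)))) = true := by decide +kernel

theorem pnL_ok : sameP pnL (pnP coefSix) = true := by decide +kernel

theorem nzL_ok : sameP nzL (nzP coefSix) = true := by decide +kernel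

theorem spnL_ok : sameP spnL (qm sP (pnP coefSix)) = true := by decide +kernel

theorem snzL_ok : sameP snzL (qm sP (nzP coefSix)) = true := by decide +kernel

/-- The value on a line from the values at `t = 0` and `t = 1`. -/
def combT (T : TL) (A B : P4) : P4 := qa (qc ((T.den : ℤ) * T.den) A) (qc T.den (qm T.P B))

/-- The twenty polynomials from the literal parts. -/
def rootsL (T₀ T₁ : TL) : List Ent :=
  let pp := fun T : TL => (⟨combT T ppA ppB, 1764 * T.den ^ 2 * S0 ^ 2⟩ : Ent)
  let pz := fun T : TL => (⟨combT T pzA pzB, 42 * T.den ^ 2 * S0 ^ 2⟩ : Ent)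
  let z := fun T : TL => (⟨combT T zA zB, coefSix.gd * T.den ^ 2 * S0 ^ 2⟩ : Ent)
  let spp := fun T : TL => (⟨combT T sppA sppB, 1764 * T.den ^ 2 * S0 ^ 2⟩ : Ent)
  let spz := fun T : TL => (⟨combT T spzA spzB, 42 * T.den ^ 2 * S0 ^ 2⟩ : Ent)
  let szz := fun T : TL => (⟨combT T szzA szzB, T.den ^ 2 * S0 ^ 2⟩ : Ent)
  [⟨sP, 1⟩, ⟨domP, 200⟩, pp T₀, pp T₁, pz T₀, pz T₁, z T₀, z T₁, bE1 coefSix T₀,
    bE1 coefSix T₁, ⟨pnL, 42 * S0⟩, ⟨nzL, 2 * S0⟩, spp T₀, spp T₁, spz T₀, spz T₁, szz T₀, szz T₁,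
    ⟨spnL, 42 * S0⟩, ⟨snzL, 2 * S0⟩]

/-- The roots of an interval from the literal parts. -/
def SSeg.rootsL (S : SSeg) : List Ent := Six.rootsL (lineOf S.lo) (lineOf S.hi)

noncomputable section

variable (u : Fin 4 → ℝ) (C : Coef8) (T : TL)

theorem ev4_combT (A B : P4) : ev4 u (combT T A B) =
    (T.den : ℝ) ^ 2 * ev4 u A + T.den * ev4 u T.P * ev4 u B := by
  simp only [combT, ev4_qa, ev4_qc, ev4_qm]; push_cast; ring

theorem ppP_affine : ev4 u (ppP C T) = (T.den : ℝ) ^ 2 * ev4 u (ppP C line0)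
    + T.den * ev4 u T.P * (ev4 u (ppP C line1) - ev4 u (ppP C line0)) := by
  simp only [ppP, hgP, agP, radP, gpP, omP, GP, valP, TL.P, line0, line1, ev4_qa, ev4_qc, ev4_qm,
    ev4_cst, ev4_lV, ev4_wV, ev4_xV, toP_nil, List.map_nil]
  push_cast
  ring

theorem pzP_affine : ev4 u (pzP C T) = (T.den : ℝ) ^ 2 * ev4 u (pzP C line0)
    + T.den * ev4 u T.P * (ev4 u (pzP C line1) - ev4 u (pzP C line0)) := by
  simp only [pzP, hgP, agP, ccP, radP, gpP, omP, GP, valP, TL.P, line0, line1, ev4_qa, ev4_qc,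
    ev4_qm, ev4_cst, ev4_lV, ev4_wV, ev4_xV, toP_nil, List.map_nil]
  push_cast
  ring

theorem zzP_affine : ev4 u (zzP C T) = (T.den : ℝ) ^ 2 * ev4 u (zzP C line0)
    + T.den * ev4 u T.P * (ev4 u (zzP C line1) - ev4 u (zzP C line0)) := by
  simp only [zzP, ccP, valP, TL.P, line0, line1, ev4_qa, ev4_qc, ev4_qm, ev4_cst, ev4_lV,
    toP_nil, List.map_nil]
  push_cast
  ring

theorem zP_affine : ev4 u (zP C T) = (T.den : ℝ) ^ 2 * ev4 u (zP C line0)
    + T.den * ev4 u T.P * (ev4 u (zP C line1) - ev4 u (zP C line0)) := by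
  simp only [zP, omP, valP, TL.P, line0, line1, ev4_qa, ev4_qc, ev4_qm, ev4_cst, ev4_lV, ev4_wV,
    ev4_xV, toP_nil, List.map_nil, Int.ofNat_eq_natCast]
  push_cast
  ring

theorem rootsL_fn (T₀ T₁ : TL) (K : ℕ) (X : Box) :
    ((rootsL T₀ T₁).map fun e => e.fn K X) = (roots coefSix T₀ T₁).map fun e => e.fn K X := by
  have e_ppA := fun x => sameP_sound ppA_ok x
  have e_ppB := fun x => sameP_sound ppB_ok x
  have e_sppA := fun x => sameP_sound sppA_ok x
  have e_sppB := fun x => sameP_sound sppB_ok x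
  have e_pzA := fun x => sameP_sound pzA_ok x
  have e_pzB := fun x => sameP_sound pzB_ok x
  have e_spzA := fun x => sameP_sound spzA_ok x
  have e_spzB := fun x => sameP_sound spzB_ok x
  have e_zA := fun x => sameP_sound zA_ok x
  have e_zB := fun x => sameP_sound zB_ok x
  have e_szzA := fun x => sameP_sound szzA_ok x
  have e_szzB := fun x => sameP_sound szzB_ok x
  have e_pnL := fun x => sameP_sound pnL_ok x
  have e_nzL := fun x => sameP_sound nzL_ok x
  have e_spnL := fun x => sameP_sound spnL_ok x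
  have e_snzL := fun x => sameP_sound snzL_ok x
  simp only [rootsL, roots, ppE, pzE, zzE, zE, Ent.timesS, List.map_cons, List.map_nil,
    List.cons.injEq, and_true]
  refine ⟨?_, ?_, ?_, ?_, ?_, ?_, ?_, ?_, ?_, ?_, ?_, ?_, ?_, ?_, ?_, ?_, ?_, ?_, ?_, ?_⟩
  all_goals
    first
    | exact True.intro
    | (funext u
       simp only [Ent.fn, ev4_combT, ev4_qm, ev4_qa, ev4_qc, e_ppA, e_ppB, e_sppA, e_sppB, e_pzA,
         e_pzB, e_spzA, e_spzB, e_zA, e_zB, e_szzA, e_szzB, e_pnL, e_nzL, e_spnL, e_snzL,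
         ppP_affine _ _ T₀, ppP_affine _ _ T₁, pzP_affine _ _ T₀, pzP_affine _ _ T₁,
         zzP_affine _ _ T₀, zzP_affine _ _ T₁, zP_affine _ _ T₀, zP_affine _ _ T₁]
       all_goals (push_cast; ring))

/-- A checked tree over roots checked from the literal parts. -/
theorem segGood_of_runL {K : SegC} {S : SSeg} {L : Lay} {M B2 Mv : ℕ} {Qs : List ℕ}
    (hK : 0 < K.K) (hL : layOK L M = true)
    (hR : rootsF L M K.K S.box B2 Mv S.rootsL Qs = true)
    (hT : ∃ T, run (L.con M 1) (chkL K) T 0 0 0 (unbias (biasC L.B L.size) Qs) = true) :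
    SegGood coefSix K S := by
  have h := rootsF_reps (box_ok S).1 (box_ok S).2 hR
  rw [SSeg.rootsL, rootsL_fn] at h
  exact segGood_of_reps hK hL h hT

end

end Vale.Agent.P098.Six
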