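import Vale.Agent.P098.Six.S0.Cert
import Vale.Agent.P098.Six.S1.Cert
import Vale.Agent.P098.Six.S2.Cert
import Vale.Agent.P098.Six.S3.Cert
import Vale.Agent.P098.Six.S4.Cert
import Vale.Agent.P098.Six.S5.Cert
import Vale.Agent.P098.Six.S6.Cert
import Vale.Agent.P098.Six.S7.Cert
import Vale.Agent.P098.Six.S8.Cert
import Vale.Agent.P098.Six.S9.Cert
import Vale.Agent.P098.Six.S10.Cert
import Vale.Agent.P098.Six.S11.Cert
import Vale.Agent.P098.Six.S12.Cert
import Vale.Agent.P098.Six.S13.Cert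
import Vale.Agent.P098.Six.S14.Cert
import Vale.Agent.P098.Six.S15.Cert
import Vale.Agent.P098.Six.S16.Cert
import Vale.Agent.P098.Six.S17.Cert
import Vale.Agent.P098.Six.S18.Cert
import Vale.Agent.P098.Six.S19.Cert
import Vale.Agent.P098.Six.S20.Cert
import Vale.Agent.P098.Six.S21.Cert
import Vale.Agent.P098.Six.S22.Cert
import Vale.Agent.P098.Six.S23.Cert

/-!
# P098, six dimensions: the 24 certificates together
-/

namespace Vale.Agent.P098.Six

theorem segs_cert : ∀ i < segCount, SegCert i := fun i hi =>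
  match i, hi with
  | 0, _ => S0.cert
  | 1, _ => S1.cert
  | 2, _ => S2.cert
  | 3, _ => S3.cert
  | 4, _ => S4.cert
  | 5, _ => S5.cert
  | 6, _ => S6.cert
  | 7, _ => S7.cert
  | 8, _ => S8.cert
  | 9, _ => S9.cert
  | 10, _ => S10.cert
  | 11, _ => S11.cert
  | 12, _ => S12.cert
  | 13, _ => S13.cert
  | 14, _ => S14.cert
  | 15, _ => S15.cert
  | 16, _ => S16.cert
  | 17, _ => S17.cert
  | 18, _ => S18.cert
  | 19, _ => S19.cert
  | 20, _ => S20.cert
  | 21, _ => S21.cert
  | 22, _ => S22.cert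
  | 23, _ => S23.cert
  | n + 24, h => absurd h (by simp [segCount])

end Vale.Agent.P098.Six
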