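import Mathlib

/-!
# P098, six dimensions: Bernstein coefficient lists and their halvings

`bE n u v p` is the value at `(u, v)`, `u + v = 1`, of the polynomial of degree `n` whose Bernstein
coefficients are the first `n + 1` entries of `p`, computed by de Casteljau's recursion.
-/

namespace Vale.Agent.P098.Six

open Finset

variable {α : Type} [AddCommMonoid α]

/-- The value by de Casteljau's recursion. -/
def bE (f : α → ℝ) : ℕ → ℝ → ℝ → List α → ℝ
  | _, _, _, [] => 0
  | 0, _, _, a :: _ => f a
  | n + 1, u, v, a :: p => v * bE f n u v (a :: p) + u * bE f n u v p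

/-- The Bernstein weights. -/
def wB : ℕ → ℝ → ℝ → ℕ → ℝ
  | 0, _, _, i => if i = 0 then 1 else 0
  | n + 1, u, v, i => v * wB n u v i + if i = 0 then 0 else u * wB n u v (i - 1)

theorem wB_nonneg {u v : ℝ} (hu : 0 ≤ u) (hv : 0 ≤ v) : ∀ n i, 0 ≤ wB n u v i
  | 0, i => by rw [wB]; split <;> norm_num
  | n + 1, i => by
    have h1 := wB_nonneg hu hv n i
    have h2 := wB_nonneg hu hv n (i - 1)
    rw [wB]; split <;> positivity

theorem wB_eq_zero (u v : ℝ) : ∀ n i, n < i → wB n u v i = 0
  | 0, i, h => by rw [wB, if_neg (by omega)]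
  | n + 1, i, h => by
    rw [wB, if_neg (by omega), wB_eq_zero u v n i (by omega), wB_eq_zero u v n (i - 1) (by omega)]
    ring

theorem sum_wB_succ (u v : ℝ) (n : ℕ) (c : ℕ → ℝ) :
    ∑ i ∈ range (n + 2), wB (n + 1) u v i * c i = v * (∑ i ∈ range (n + 1), wB n u v i * c i) +
      u * ∑ i ∈ range (n + 1), wB n u v i * c (i + 1) := by
  have h : ∀ i, wB (n + 1) u v (i + 1) * c (i + 1) =
      v * (wB n u v (i + 1) * c (i + 1)) + u * (wB n u v i * c (i + 1)) := fun i => by
    rw [wB, if_neg (by omega), Nat.add_sub_cancel]; ring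
  rw [sum_range_succ', sum_congr rfl fun i _ => h i, sum_add_distrib, ← mul_sum, ← mul_sum]
  have e := sum_range_succ' (fun i => wB n u v i * c i) (n + 1)
  rw [sum_range_succ, wB_eq_zero u v n (n + 1) (by omega), zero_mul, add_zero] at e
  rw [e, wB, if_pos rfl]; ring

theorem sum_wB (u v : ℝ) : ∀ n, ∑ i ∈ range (n + 1), wB n u v i = (u + v) ^ n
  | 0 => by simp [wB]
  | n + 1 => by
    have := sum_wB_succ u v n fun _ => 1
    simp only [mul_one] at this
    rw [this, sum_wB u v n]; ring

omit [AddCommMonoid α] in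
theorem bE_nil (f : α → ℝ) (n : ℕ) (u v : ℝ) : bE f n u v [] = 0 := by cases n <;> rfl

theorem bE_eq_sum {f : α → ℝ} (hf : f 0 = 0) (u v : ℝ) : ∀ n (p : List α),
    bE f n u v p = ∑ i ∈ range (n + 1), wB n u v i * f (p.getD i 0)
  | 0, [] => by simp [bE, hf]
  | 0, a :: p => by simp [bE, wB]
  | n + 1, [] => by simp [bE, hf]
  | n + 1, a :: p => by
    rw [bE, bE_eq_sum hf u v n (a :: p), bE_eq_sum hf u v n p, sum_wB_succ u v n]
    simp

theorem bE_add {f : α → ℝ} (hf : f 0 = 0) (hadd : ∀ a b, f (a + b) = f a + f b) (u v : ℝ) (n : ℕ)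
    (p q : List α) (h : p.length = n + 1) (h' : q.length = n + 1) :
    bE f n u v (List.zipWith (· + ·) p q) = bE f n u v p + bE f n u v q := by
  simp only [bE_eq_sum hf, ← sum_add_distrib, ← mul_add]
  refine sum_congr rfl fun i hi => ?_
  have hi' := mem_range.1 hi
  simp [List.getD_eq_getElem?_getD, List.getElem?_zipWith, List.getElem?_eq_getElem (show i < p.length by omega),
    List.getElem?_eq_getElem (show i < q.length by omega), hadd]

/-- The sums of neighbours. -/
def adj : List α → List α
  | a :: b :: p => (a + b) :: adj (b :: p)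
  | _ => []

theorem adj_eq_zip : ∀ p : List α, adj p = List.zipWith (· + ·) p p.tail
  | [] => rfl
  | [a] => rfl
  | a :: b :: p => by rw [adj, adj_eq_zip (b :: p)]; rfl

theorem length_adj (p : List α) : (adj p).length = p.length - 1 := by
  rw [adj_eq_zip, List.length_zipWith, List.length_tail]; omega

/-- Left halving, with `dbl k a` meaning `2 ^ k` times `a`. -/
def dL (dbl : ℕ → α → α) : ℕ → List α → List α
  | _, [] => []
  | 0, a :: _ => [a]
  | n + 1, a :: p => dbl (n + 1) a :: dL dbl n (adj (a :: p))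

theorem length_dL (dbl : ℕ → α → α) : ∀ n (p : List α), p.length = n + 1 → (dL dbl n p).length = n + 1
  | 0, [a], _ => rfl
  | n + 1, a :: p, h => by
    rw [dL, List.length_cons, length_dL dbl n _ (by rw [length_adj, h]; omega)]

theorem bE_congr {f : α → ℝ} (hf : f 0 = 0) {u v : ℝ} {n : ℕ} {p q : List α}
    (h : ∀ i ≤ n, f (p.getD i 0) = f (q.getD i 0)) : bE f n u v p = bE f n u v q := by
  rw [bE_eq_sum hf, bE_eq_sum hf]
  exact sum_congr rfl fun i hi => by rw [h i (by simpa [Nat.lt_succ_iff] using hi)]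

theorem adj_take : ∀ (p : List α) (k : ℕ), adj (p.take (k + 1)) = (adj p).take k
  | [], k => by simp [adj]
  | [a], k => by simp [adj]
  | a :: b :: p, 0 => by simp [adj]
  | a :: b :: p, k + 1 => by
    have := adj_take (b :: p) k
    rw [List.take_succ_cons] at this
    simp only [List.take_succ_cons, adj, this]

theorem getD_dL {f : α → ℝ} {dbl : ℕ → α → α} (hd : ∀ k a, f (dbl k a) = 2 ^ k * f a) :
    ∀ (n : ℕ) (p : List α) (i : ℕ), p.length = n + 2 → i ≤ n →
      f ((dL dbl (n + 1) p).getD i 0) = 2 * f ((dL dbl n (p.take (n + 1))).getD i 0)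
  | n, [], i, h, _ => by simp at h
  | 0, a :: p, i, h, hi => by
    obtain rfl : i = 0 := by omega
    simp [dL, hd]
  | n + 1, a :: p, 0, h, _ => by simp [dL, hd, pow_succ]; ring
  | n + 1, a :: p, i + 1, h, hi => by
    have hl : (adj (a :: p)).length = n + 2 := by rw [length_adj, h]; omega
    have := getD_dL hd n (adj (a :: p)) i hl (by omega)
    rw [← adj_take, List.take_succ_cons] at this
    simpa [dL] using this

theorem bE_dL {f : α → ℝ} (hf : f 0 = 0) (hadd : ∀ a b, f (a + b) = f a + f b)
    {dbl : ℕ → α → α} (hd : ∀ k a, f (dbl k a) = 2 ^ k * f a) (u v : ℝ) :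
    ∀ n (p : List α), p.length = n + 1 →
      bE f n u v (dL dbl n p) = 2 ^ n * bE f n (u / 2) (v + u / 2) p
  | 0, [a], _ => by simp [dL, bE]
  | n + 1, a :: p, h => by
    have hp : p.length = n + 1 := by simpa using h
    have hl : (adj (a :: p)).length = n + 1 := by rw [length_adj, h]; omega
    have e1 : bE f n u v (dL dbl (n + 1) (a :: p)) = 2 * bE f n u v (dL dbl n ((a :: p).take (n + 1))) := by
      rw [bE_eq_sum hf, bE_eq_sum hf, mul_sum]
      refine sum_congr rfl fun i hi => ?_
      rw [getD_dL hd n (a :: p) i h (by simpa [Nat.lt_succ_iff] using hi)]; ring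
    have e2 : bE f n u v (dL dbl n ((a :: p).take (n + 1))) =
        2 ^ n * bE f n (u / 2) (v + u / 2) (a :: p) := by
      rw [bE_dL hf hadd hd u v n _ (by simp [hp]), bE_congr hf (q := a :: p) fun i hi => ?_]
      rw [List.getD_eq_getElem?_getD, List.getD_eq_getElem?_getD, List.getElem?_take_of_lt (by omega)]
    have e3 : bE f n (u / 2) (v + u / 2) (adj (a :: p)) =
        bE f n (u / 2) (v + u / 2) (a :: p) + bE f n (u / 2) (v + u / 2) p := by
      have q : bE f n (u / 2) (v + u / 2) (a :: p) =
          bE f n (u / 2) (v + u / 2) ((a :: p).take (n + 1)) := bE_congr hf fun i hi => by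
        rw [List.getD_eq_getElem?_getD, List.getD_eq_getElem?_getD, List.getElem?_take_of_lt (by omega)]
      rw [q, ← bE_add hf hadd _ _ n _ p (by simp [hp]) hp]
      refine bE_congr hf fun i hi => ?_
      rw [adj_eq_zip, List.getD_eq_getElem?_getD, List.getD_eq_getElem?_getD,
        List.getElem?_zipWith, List.getElem?_zipWith, List.getElem?_take_of_lt (by omega)]
      simp
    conv_lhs => rw [dL, bE]
    rw [show dbl (n + 1) a :: dL dbl n (adj (a :: p)) = dL dbl (n + 1) (a :: p) from rfl, e1, e2,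
      bE_dL hf hadd hd u v n _ hl, e3]
    conv_rhs => rw [bE]
    rw [pow_succ]; ring

theorem bE_reverse {f : α → ℝ} (hf : f 0 = 0) (u v : ℝ) :
    ∀ n (p : List α), p.length = n + 1 → bE f n u v p.reverse = bE f n v u p
  | 0, [a], _ => by simp [bE]
  | n + 1, a :: p, h => by
    have hp : p.length = n + 1 := by simpa using h
    obtain ⟨q, b, rfl⟩ : ∃ q b, p = q ++ [b] :=
      ⟨p.dropLast, p.getLast (by intro e; simp [e] at hp), (List.dropLast_concat_getLast _).symm⟩
    have hq : q.length = n := by simpa using hp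
    have e : (a :: (q ++ [b])).reverse = b :: (q.reverse ++ [a]) := by simp
    rw [e]
    conv_lhs => rw [bE]
    conv_rhs => rw [bE]
    have h1 : bE f n v u (a :: (q ++ [b])) = bE f n v u (a :: q) := bE_congr hf fun i hi => by
      rw [← List.cons_append, List.getD_eq_getElem?_getD, List.getD_eq_getElem?_getD,
        List.getElem?_append_left (by simp; omega)]
    have h2 : bE f n u v (b :: (q.reverse ++ [a])) = bE f n u v ((q ++ [b]).reverse) := by
      refine bE_congr hf fun i hi => ?_
      rw [List.reverse_append, ← List.cons_append, List.getD_eq_getElem?_getD,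
        List.getD_eq_getElem?_getD, List.getElem?_append_left (by simp; omega)]
      simp
    have h3 : bE f n u v (q.reverse ++ [a]) = bE f n v u (a :: q) := by
      rw [← List.reverse_cons, bE_reverse hf u v n (a :: q) (by simp [hq])]
    rw [h1, h2, h3, bE_reverse hf u v n (q ++ [b]) hp]
    ring

/-- Right halving. -/
def dR (dbl : ℕ → α → α) (n : ℕ) (p : List α) : List α := (dL dbl n p.reverse).reverse

theorem bE_dR {f : α → ℝ} (hf : f 0 = 0) (hadd : ∀ a b, f (a + b) = f a + f b)
    {dbl : ℕ → α → α} (hd : ∀ k a, f (dbl k a) = 2 ^ k * f a) (u v : ℝ) (n : ℕ) (p : List α)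
    (h : p.length = n + 1) :
    bE f n u v (dR dbl n p) = 2 ^ n * bE f n (u + v / 2) (v / 2) p := by
  rw [dR, bE_reverse hf _ _ n _ (length_dL dbl n _ (by simpa)), bE_dL hf hadd hd _ _ n _ (by simpa),
    bE_reverse hf _ _ n p h]

end Vale.Agent.P098.Six
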