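import Vale.Agent.P098.Six.Digits
import Vale.Agent.P098.Six.Bern

/-!
# P098, six dimensions: packed coefficient arrays, their signs and their halvings along one axis
-/

namespace Vale.Agent.P098.Six

open Finset

/-- `P` packs `c`, whose entries are bounded by `M`. -/
structure Packs (B J M : ℕ) (P : ℤ) (c : ℕ → ℤ) : Prop where
  eq : P = pack B J c
  bound : ∀ j < J, |c j| ≤ (M : ℤ)

theorem Packs.add {B J M N : ℕ} {P Q : ℤ} {c d : ℕ → ℤ} (h : Packs B J M P c) (h' : Packs B J N Q d) :
    Packs B J (M + N) (P + Q) (c + d) :=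
  ⟨by rw [pack_add, h.eq, h'.eq], fun j hj => by
    push_cast
    exact (abs_add_le _ _).trans (add_le_add (h.bound j hj) (h'.bound j hj))⟩

theorem Packs.smul {B J M : ℕ} {P : ℤ} {c : ℕ → ℤ} (a : ℤ) (h : Packs B J M P c) :
    Packs B J (a.natAbs * M) (a * P) (a • c) :=
  ⟨by rw [pack_smul, h.eq], fun j hj => by
    simp only [Pi.smul_apply, smul_eq_mul, abs_mul, Nat.cast_mul, Int.natCast_natAbs]
    exact mul_le_mul_of_nonneg_left (h.bound j hj) (abs_nonneg a)⟩

theorem packN_rep {B : ℕ} (hB : 0 < B) (J : ℕ) : rep B 1 J = packN B J fun _ => 1 := by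
  rw [rep_eq (by omega), packN]; simp

/-- The bias: half a block in every block. -/
def biasC (B J : ℕ) : ℕ := 2 ^ (B - 1) * rep B 1 J

/-- The biased value, as a natural number; `H` is the bias. -/
def biased (H : ℕ) (P : ℤ) : ℕ := (P + Int.ofNat H).toNat

/-- The biased digits. -/
def dig (B J : ℕ) (c : ℕ → ℤ) (j : ℕ) : ℕ := if j < J then (c j + 2 ^ (B - 1)).toNat else 0

variable {B J M : ℕ} {P : ℤ} {c : ℕ → ℤ}

theorem two_pow_B (hB : 0 < B) : 2 ^ B = 2 * 2 ^ (B - 1) := by
  rw [← pow_succ', Nat.sub_add_cancel hB]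

theorem dig_spec (h : Packs B J M P c) (hM : M < 2 ^ (B - 1)) {j : ℕ} (hj : j < J) :
    (dig B J c j : ℤ) = c j + 2 ^ (B - 1) := by
  have := abs_le.1 (h.bound j hj)
  have h2 : (M : ℤ) < 2 ^ (B - 1) := by exact_mod_cast hM
  rw [dig, if_pos hj, Int.toNat_of_nonneg (by linarith)]

theorem dig_lt (h : Packs B J M P c) (hB : 0 < B) (hM : M < 2 ^ (B - 1)) :
    ∀ j < J, dig B J c j < 2 ^ B := by
  intro j hj
  have := abs_le.1 (h.bound j hj)
  have h2 : (M : ℤ) < 2 ^ (B - 1) := by exact_mod_cast hM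
  have h3 : (dig B J c j : ℤ) < 2 ^ B := by
    rw [dig_spec h hM hj, ← Nat.sub_add_cancel hB, pow_succ', Nat.sub_add_cancel hB]; linarith
  exact_mod_cast h3

theorem biased_eq (h : Packs B J M P c) (hB : 0 < B) (hM : M < 2 ^ (B - 1)) :
    biased (biasC B J) P = packN B J (dig B J c) := by
  have e : P + ((2 ^ (B - 1) * rep B 1 J : ℕ) : ℤ) = (packN B J (dig B J c) : ℤ) := by
    rw [← pack_cast, h.eq, packN_rep hB, Nat.cast_mul, ← pack_cast, Nat.cast_pow, ← pack_smul,
      ← pack_add]
    exact pack_congr fun j hj => by simp [dig_spec h hM hj]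
  rw [biased, biasC, Int.ofNat_eq_natCast, e, Int.toNat_natCast]

/-! ### The sign of all entries -/

/-- All entries are nonnegative. -/
def nonnegP (H : ℕ) (P : ℤ) : Bool := Nat.beq (biased H P &&& H) H

theorem packN_inj {B : ℕ} : ∀ (J : ℕ) (c d : ℕ → ℕ), (∀ j < J, c j < 2 ^ B) → (∀ j < J, d j < 2 ^ B) →
    packN B J c = packN B J d → ∀ j < J, c j = d j
  | 0, _, _, _, _, _ => by simp
  | J + 1, c, d, hc, hd, he => by
    rw [packN_succ, packN_succ] at he
    have h0 := congrArg (· % 2 ^ B) he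
    simp only [Nat.add_mul_mod_self_left, Nat.mod_eq_of_lt (hc 0 (by omega)),
      Nat.mod_eq_of_lt (hd 0 (by omega))] at h0
    intro j hj
    rcases j with _ | j
    · exact h0
    · rw [h0] at he
      exact packN_inj J _ _ (fun i hi => hc _ (by omega)) (fun i hi => hd _ (by omega))
        (Nat.eq_of_mul_eq_mul_left (by positivity) (Nat.add_left_cancel he)) j (by omega)

theorem nonnegP_sound (h : Packs B J M P c) (hB : 0 < B) (hM : M < 2 ^ (B - 1))
    (ht : nonnegP (biasC B J) P = true) : ∀ j < J, 0 ≤ c j := by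
  have hH : ∀ j < J, (fun _ => 2 ^ (B - 1)) j < 2 ^ B := fun j _ =>
    Nat.pow_lt_pow_right (by norm_num) (by omega)
  have hm : 2 ^ (B - 1) * rep B 1 J = packN B J fun _ => 2 ^ (B - 1) := by
    rw [packN_rep hB, packN, packN, mul_sum]
    exact sum_congr rfl fun j _ => by ring
  have he := Nat.eq_of_beq_eq_true ht
  rw [biased_eq h hB hM, biasC, hm, and_packN J _ _ (dig_lt h hB hM) hH] at he
  intro j hj
  have := packN_inj J _ _ (fun i hi => lt_of_le_of_lt Nat.and_le_right (hH i hi)) hH he j hj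
  have h1 : 2 ^ (B - 1) ≤ dig B J c j := by
    rw [← this]; exact Nat.and_le_left
  have h2 : (2 : ℤ) ^ (B - 1) ≤ (dig B J c j : ℤ) := by exact_mod_cast h1
  rw [dig_spec h hM hj] at h2
  linarith

/-! ### An axis of `m` values and stride `S`, in `O` repetitions -/

/-- The index of a position. -/
def ix (m S o i r : ℕ) : ℕ := (o * m + i) * S + r

/-- The blocks at the position `0` of the axis. -/
def onesA (B O m S : ℕ) : ℕ := rep B (m * S) O * rep B 1 S

/-- The selecting mask of the position `0`. -/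
def maskC (B O m S : ℕ) : ℕ := (2 ^ B - 1) * onesA B O m S

/-- The bias of the position `0`. -/
def biasA (B O m S : ℕ) : ℕ := 2 ^ (B - 1) * onesA B O m S

/-- The entries at position `i` of the axis, moved to position `0`; `X` and `H` are its constants. -/
def sliceP (X H Q BS i : ℕ) : ℤ := Int.subNatNat (Q >>> (i * BS) &&& X) H

/-- A function of the other indices, packed at the position `0` of the axis. -/
def pk (B O m S : ℕ) (a : ℕ → ℕ → ℤ) : ℤ :=
  ∑ o ∈ range O, ∑ r ∈ range S, a o r * 2 ^ (B * ix m S o 0 r)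

theorem ix_lt {O m S o i r : ℕ} (ho : o < O) (hi : i < m) (hr : r < S) :
    ix m S o i r < O * m * S := by
  have h1 : (o + 1) * m ≤ O * m := Nat.mul_le_mul_right _ ho
  have h3 : (o + 1) * m * S ≤ O * m * S := Nat.mul_le_mul_right _ h1
  have h2 : (o * m + i + 1) * S ≤ (o + 1) * m * S := Nat.mul_le_mul_right _ (by linarith)
  simp only [ix, add_mul, one_mul] at *
  omega

theorem ix_digit {m S o i r : ℕ} (hi : i < m) (hr : r < S) :
    ix m S o i r / S % m = i ∧ ix m S o i r / S / m = o ∧ ix m S o i r % S = r := by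
  have h1 : ix m S o i r / S = o * m + i := by
    rw [ix, Nat.mul_comm, Nat.mul_add_div (by omega), Nat.div_eq_of_lt hr, Nat.add_zero]
  refine ⟨?_, ?_, ?_⟩
  · rw [h1, Nat.mul_comm o, Nat.mul_add_mod, Nat.mod_eq_of_lt hi]
  · rw [h1, Nat.mul_comm o, Nat.mul_add_div (by omega), Nat.div_eq_of_lt hi, Nat.add_zero]
  · rw [ix, Nat.mul_comm, Nat.mul_add_mod, Nat.mod_eq_of_lt hr]

theorem pack_axis (B O m S : ℕ) (c : ℕ → ℤ) :
    pack B (O * m * S) c =
      ∑ i ∈ range m, 2 ^ (B * (i * S)) * pk B O m S fun o r => c (ix m S o i r) := by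
  rw [pack, sum_axis]
  refine sum_congr rfl fun i _ => ?_
  rw [pk, mul_sum]
  refine sum_congr rfl fun o _ => ?_
  rw [mul_sum]
  refine sum_congr rfl fun r _ => ?_
  simp only [ix, Nat.add_zero, mul_add, add_mul, pow_add]
  ring

theorem packN_first {B O m S : ℕ} (hm : 0 < m) (f : ℕ → ℕ) :
    packN B (O * m * S) (fun j => if j / S % m = 0 then f j else 0) =
      ∑ o ∈ range O, ∑ r ∈ range S, f (ix m S o 0 r) * 2 ^ (B * ix m S o 0 r) := by
  rw [packN, sum_axis, sum_eq_single_of_mem 0 (mem_range.2 hm)]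
  · refine sum_congr rfl fun o _ => sum_congr rfl fun r hr => ?_
    have := ix_digit (o := o) hm (mem_range.1 hr)
    simp only [ix] at this ⊢
    rw [if_pos this.1]
  · intro i hi h0
    refine sum_eq_zero fun o _ => sum_eq_zero fun r hr => ?_
    have := ix_digit (o := o) (mem_range.1 hi) (mem_range.1 hr)
    simp only [ix] at this
    rw [if_neg (by rw [this.1]; exact h0), zero_mul]

theorem mask_eq {B O m S : ℕ} (hB : 0 < B) (hm : 0 < m) (hS : 0 < S) (a : ℕ) :
    a * onesA B O m S = packN B (O * m * S) (fun j => if j / S % m = 0 then a else 0) := by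
  rw [packN_first hm, onesA, rep_eq (by positivity), rep_eq (by omega), sum_mul_sum, mul_sum]
  refine sum_congr rfl fun o _ => ?_
  rw [mul_sum]
  refine sum_congr rfl fun r _ => ?_
  rw [← pow_add]
  congr 2
  simp only [ix, Nat.add_zero]
  ring

theorem slice_eq {B O m S M : ℕ} {P : ℤ} {c : ℕ → ℤ} (h : Packs B (O * m * S) M P c) (hB : 0 < B)
    (hS : 0 < S) (hM : M < 2 ^ (B - 1)) {i : ℕ} (hi : i < m) :
    sliceP (maskC B O m S) (biasA B O m S) (biased (biasC B (O * m * S)) P) (B * S) i =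
      pk B O m S fun o r => c (ix m S o i r) := by
  have hm : 0 < m := by omega
  set d := dig B (O * m * S) c
  have hd := dig_lt h hB hM
  have h0 : ∀ j, O * m * S ≤ j → d j = 0 := fun j hj => if_neg (by omega)
  have hd' : ∀ j < O * m * S, d (j + i * S) < 2 ^ B := fun j _ => by
    by_cases hj : j + i * S < O * m * S
    · exact hd _ hj
    · rw [h0 _ (by omega)]; positivity
  rw [sliceP, biased_eq h hB hM, maskC, biasA, Int.subNatNat_eq_coe,
    show i * (B * S) = B * (i * S) by ring, packN_shift _ _ _ hd h0, mask_eq hB hm hS, mask_eq hB hm hS,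
    and_packN _ _ _ hd' (fun j _ => by
      have := Nat.two_pow_pos B
      split <;> omega),
    packN_congr (d := fun j => if j / S % m = 0 then d (j + i * S) else 0) (fun j hj => by
      split
      · rw [Nat.and_two_pow_sub_one_eq_mod, Nat.mod_eq_of_lt (hd' j hj)]
      · exact Nat.and_zero _),
    packN_first hm, packN_first hm, pk]
  push_cast
  simp only [← sum_sub_distrib]
  refine sum_congr rfl fun o ho => sum_congr rfl fun r hr => ?_
  have e : ix m S o 0 r + i * S = ix m S o i r := by simp only [ix]; ring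
  rw [e, dig_spec h hM (ix_lt (mem_range.1 ho) hi (mem_range.1 hr))]
  ring

end Vale.Agent.P098.Six
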