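import Vale.Agent.P098.Six.Sub

/-!
# P098, six dimensions: a change of basis along one axis of a packed array

The substitution `x = (A + H t) / d` and the passage to Bernstein coefficients are built from sums
and integer multiples of slices, so they act on whole packed slices at once. The same operations
on upper bounds give a bound for the new entries.
-/

namespace Vale.Agent.P098.Six

open Finset
open Vale.Agent.P098.Five (Mdl IsLin monE zadd affine pad length_affine monE_map monE_congr)

/-- An upper bound of absolute values. -/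
structure Bd where
  v : ℕ

instance : Mdl Bd := ⟨⟨0⟩, fun a b => ⟨a.v + b.v⟩, fun c a => ⟨c.natAbs * a.v⟩⟩

instance : Mdl Ghost := ⟨0, (· + ·), fun c a => c • a⟩

/-- Substitution, then Bernstein coefficients times `n!`. -/
def trans {α : Type} [Mdl α] (n : ℕ) (A H : ℤ) (d : ℕ) (p : List α) : List α :=
  bern n (affine A H (Int.ofNat d) (pad n p))

/-! ### Relations kept by sums and multiples -/

/-- A relation kept by zero, sums and multiples. -/
structure Pres {α β : Type} [Mdl α] [Mdl β] (R : α → β → Prop) : Prop where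
  zero : R Mdl.zero Mdl.zero
  add : ∀ {a b a' b'}, R a b → R a' b' → R (Mdl.add a a') (Mdl.add b b')
  smul : ∀ (c : ℤ) {a b}, R a b → R (Mdl.smul c a) (Mdl.smul c b)

section
variable {α β : Type} [Mdl α] [Mdl β] {R : α → β → Prop}

theorem Pres.zadd (h : Pres R) : ∀ {p q p' q'}, List.Forall₂ R p q → List.Forall₂ R p' q' →
    List.Forall₂ R (Five.zadd p p') (Five.zadd q q')
  | [], [], p', q', .nil, h' => by simpa [Five.zadd] using h'
  | a :: p, b :: q, [], [], h₁, .nil => by simpa [Five.zadd] using h₁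
  | a :: p, b :: q, a' :: p', b' :: q', .cons ha hp, .cons ha' hp' => by
    simp only [Five.zadd]
    exact .cons (h.add ha ha') (h.zadd hp hp')

theorem Pres.map (h : Pres R) (c : ℤ) : ∀ {p q}, List.Forall₂ R p q →
    List.Forall₂ R (p.map (Mdl.smul c)) (q.map (Mdl.smul c))
  | [], [], .nil => .nil
  | _ :: _, _ :: _, .cons ha hp => .cons (h.smul c ha) (h.map c hp)

theorem forall₂_replicate {a : α} {b : β} (h : R a b) :
    ∀ k, List.Forall₂ R (List.replicate k a) (List.replicate k b)
  | 0 => .nil
  | k + 1 => .cons h (forall₂_replicate h k)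

theorem Pres.idxMul (h : Pres R) : ∀ (k : ℕ) {p q}, List.Forall₂ R p q →
    List.Forall₂ R (Six.idxMul k p) (Six.idxMul k q)
  | _, [], [], .nil => .nil
  | k, _ :: _, _ :: _, .cons ha hp => .cons (h.smul _ ha) (h.idxMul (k + 1) hp)

theorem Pres.bern (h : Pres R) : ∀ (n : ℕ) {p q}, List.Forall₂ R p q →
    List.Forall₂ R (Six.bern n p) (Six.bern n q)
  | 0, [], [], .nil => .cons h.zero .nil
  | 0, _ :: _, _ :: _, .cons ha _ => .cons (h.smul 1 ha) .nil
  | n + 1, [], [], .nil => by simp only [Six.bern]; exact forall₂_replicate h.zero _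
  | n + 1, _ :: _, _ :: _, .cons ha hp => by
    simp only [Six.bern]
    exact h.zadd (forall₂_replicate (h.smul _ ha) _) (.cons h.zero (h.idxMul 1 (h.bern n hp)))

theorem Pres.affine (h : Pres R) (A H den : ℤ) : ∀ {p q}, List.Forall₂ R p q →
    List.Forall₂ R (Five.affine A H den p) (Five.affine A H den q)
  | [], [], .nil => .nil
  | a :: p, b :: q, .cons ha hp => by
    have hv := h.affine A H den hp
    simp only [Five.affine]
    rw [hp.length_eq]
    exact h.zadd (.cons (h.smul _ ha) .nil) (h.zadd (h.map A hv) (.cons h.zero (h.map H hv)))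

theorem Pres.pad (h : Pres R) (n : ℕ) {p q} (hp : List.Forall₂ R p q) :
    List.Forall₂ R (Five.pad n p) (Five.pad n q) := by
  simp only [Five.pad]
  rw [hp.length_eq]
  exact List.rel_append hp (forall₂_replicate h.zero _)

theorem Pres.trans (h : Pres R) (n : ℕ) (A H : ℤ) (d : ℕ) {p q} (hp : List.Forall₂ R p q) :
    List.Forall₂ R (Six.trans n A H d p) (Six.trans n A H d q) :=
  h.bern n (h.affine A H _ (h.pad n hp))

theorem forall₂_map (g : α → β) (h : ∀ a, R a (g a)) : ∀ p, List.Forall₂ R p (p.map g)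
  | [] => .nil
  | a :: p => .cons (h a) (forall₂_map g h p)

theorem getD_rel (h : Pres R) : ∀ {p q}, List.Forall₂ R p q → ∀ i,
    R (p.getD i Mdl.zero) (q.getD i Mdl.zero)
  | [], [], .nil, i => by simpa using h.zero
  | _ :: _, _ :: _, .cons ha _, 0 => by simpa using ha
  | _ :: _, _ :: _, .cons _ hp, i + 1 => by simpa using getD_rel h hp i

end

theorem monE_eq_sum {α : Type} [Mdl α] {f : α → ℝ} (hf : IsLin f) (x : ℝ) :
    ∀ (p : List α) (k : ℕ), p.length ≤ k →
      monE f x p = ∑ i ∈ range k, x ^ i * f (p.getD i Mdl.zero)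
  | [], k, _ => by simp [monE, hf.zero]
  | a :: p, 0, h => by simp at h
  | a :: p, k + 1, h => by
    rw [sum_range_succ', monE, monE_eq_sum hf x p k (by simpa using h), mul_sum, add_comm]
    simp only [pow_succ, pow_zero, List.getD_cons_zero, List.getD_cons_succ, one_mul]
    refine congrArg₂ _ (sum_congr rfl fun i _ => ?_) rfl
    ring

theorem monE_affine_sum {α : Type} [Mdl α] {f : α → ℝ} (hf : IsLin f) {n : ℕ} {A H : ℤ} {d : ℕ}
    (hd : d ≠ 0) (t : ℝ) {p : List α} (hp : p.length ≤ n + 1) :
    sumW f n t (trans n A H d p) =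
      (n.factorial : ℝ) * (d : ℝ) ^ n *
        ∑ i ∈ range (n + 1), ((A + H * t) / d) ^ i * f (p.getD i Mdl.zero) := by
  rw [trans, sumW_bern hf t n _ (by rw [length_affine]; simp [pad]; omega),
    monE_affine_pad hf hd t hp, monE_eq_sum hf _ p _ hp]
  ring

/-! ### The packed transform -/

/-- The transform along an axis of `n + 1` values and stride `S` in `O` repetitions. -/
def axT (B O n S : ℕ) (A H : ℤ) (d : ℕ) (P : ℤ) : ℤ :=
  joinP (B * S) (trans n A H d (slices (axC B O n S) P))

/-- A bound for the new entries. -/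
def boundT (n : ℕ) (A H : ℤ) (d M : ℕ) : ℕ :=
  (trans n A H d (List.replicate (n + 1) (⟨M⟩ : Bd))).foldr (fun b m => max b.v m) 0

theorem le_foldr_max : ∀ (l : List Bd) (i : ℕ),
    (l.getD i Mdl.zero).v ≤ l.foldr (fun b m => max b.v m) 0
  | [], i => by simp [Mdl.zero]
  | b :: l, 0 => by simp
  | b :: l, i + 1 => by simpa using (le_foldr_max l i).trans (le_max_right _ _)

theorem pk_smul (B O m S : ℕ) (c : ℤ) (a : Ghost) : pk B O m S (c • a) = c * pk B O m S a := by
  simp only [pk, Pi.smul_apply, smul_eq_mul, mul_sum, mul_assoc]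

theorem length_trans {α : Type} [Mdl α] (n : ℕ) (A H : ℤ) (d : ℕ) (p : List α) :
    (trans n A H d p).length = n + 1 := length_bern _ _

/-- One axis changes from powers of `x` to Bernstein weights. -/
theorem axT_sound {B O n S M : ℕ} {P : ℤ} {c : ℕ → ℤ} (hB : 0 < B) (hS : 0 < S)
    (h : Packs B (O * (n + 1) * S) M P c) (hM : M < 2 ^ (B - 1)) (A H : ℤ) {d : ℕ} (hd : d ≠ 0) :
    ∃ c', Packs B (O * (n + 1) * S) (boundT n A H d M) (axT B O n S A H d P) c' ∧
      ∀ o < O, ∀ r < S, ∀ t : ℝ,
        ∑ i ∈ range (n + 1), wB n t (1 - t) i * (c' (ix (n + 1) S o i r) : ℝ) =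
          (n.factorial : ℝ) * (d : ℝ) ^ n *
            ∑ i ∈ range (n + 1), ((A + H * t) / d) ^ i * (c (ix (n + 1) S o i r) : ℝ) := by
  set m := n + 1 with hm
  set gs : List Ghost := (List.range m).map fun i o r => c (ix m S o i r)
  set tg := trans n A H d gs
  have hl : tg.length = m := length_trans _ _ _ _ _
  have hgd : ∀ i < m, gs.getD i Mdl.zero = fun o r => c (ix m S o i r) := fun i hi => by
    simp [gs, List.getD_eq_getElem, hi]
  have eP : slices (axC B O n S) P = gs.map (pk B O m S) := by
    simp only [slices, axC, gs, List.map_map]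
    exact List.map_congr_left fun i hi => slice_eq h hB hS hM (List.mem_range.1 hi)
  have pp : Pres fun (a : Ghost) (b : ℤ) => b = pk B O m S a :=
    ⟨by simp [pk, Mdl.zero], fun {a b a' b'} e e' => by subst e e'; exact (pk_add a a').symm,
      fun c {a b} e => by subst e; exact (pk_smul B O m S c a).symm⟩
  have hP := pp.trans n A H d
    (forall₂_map (R := fun (a : Ghost) (b : ℤ) => b = pk B O m S a) (pk B O m S) (fun _ => rfl) gs)
  have pb : Pres fun (a : Ghost) (b : Bd) => ∀ o < O, ∀ r < S, |a o r| ≤ (b.v : ℤ) := by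
    refine ⟨fun o _ r _ => by simp [Mdl.zero], fun e e' o ho r hr => ?_, fun k _ _ e o ho r hr => ?_⟩
    · simp only [Mdl.add, Pi.add_apply]; push_cast
      exact (abs_add_le _ _).trans (add_le_add (e o ho r hr) (e' o ho r hr))
    · simp only [Mdl.smul, Pi.smul_apply, smul_eq_mul, abs_mul]; push_cast
      exact mul_le_mul_of_nonneg_left (e o ho r hr) (abs_nonneg _)
  have hgb : List.Forall₂ (fun (a : Ghost) (b : Bd) => ∀ o < O, ∀ r < S, |a o r| ≤ (b.v : ℤ))
      gs (List.replicate m ⟨M⟩) := by
    rw [List.forall₂_iff_get]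
    refine ⟨by simp [gs], fun i h1 h2 o ho r hr => ?_⟩
    simp only [gs, List.length_map, List.length_range] at h1
    simp only [gs, List.get_eq_getElem, List.getElem_map, List.getElem_range, List.getElem_replicate]
    exact h.bound _ (ix_lt ho h1 hr)
  have hb := pb.trans n A H d hgb
  refine ⟨fun j => tg.getD (j / S % m) Mdl.zero (j / S / m) (j % S), ⟨?_, fun j hj => ?_⟩,
    fun o _ r hr t => ?_⟩
  · rw [axT, joinP_eq, eP, length_trans, pack_axis]
    refine sum_congr rfl fun i hi => congrArg _ ?_
    rw [show (trans n A H d (gs.map (pk B O m S))).getD i 0 =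
        pk B O m S (tg.getD i Mdl.zero) from getD_rel pp hP i]
    refine sum_congr rfl fun o' _ => sum_congr rfl fun r' hr' => ?_
    have e := ix_digit (o := o') (mem_range.1 hi) (mem_range.1 hr')
    simp only [e.1, e.2.1, e.2.2]
  · have h1 : j / S / m < O := by
      rw [Nat.div_div_eq_div_mul]
      exact Nat.div_lt_of_lt_mul (by linarith)
    exact (getD_rel pb hb _ _ h1 _ (Nat.mod_lt _ hS)).trans (by exact_mod_cast le_foldr_max _ _)
  · have hf : IsLin fun a : Ghost => ((a o r : ℤ) : ℝ) :=
      ⟨by simp [Mdl.zero], fun a b => by simp [Mdl.add], fun k a => by simp [Mdl.smul]⟩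
    have := monE_affine_sum hf hd t (n := n) (A := A) (H := H) (p := gs) (by simp [gs, hm])
    simp only [sumW] at this
    refine Eq.trans (sum_congr rfl fun i hi => ?_) (this.trans (congrArg _ (sum_congr rfl fun i hi => ?_)))
    · have e := ix_digit (o := o) (mem_range.1 hi) hr
      simp only [e.1, e.2.1, e.2.2]; rfl
    · rw [hgd i (mem_range.1 hi)]

end Vale.Agent.P098.Six
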