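import Mathlib
import Vale.Agent.P098.Div.SpecX
import Vale.Agent.P098.Div.Elim
import Vale.Agent.P098.Cone.Calculus

/-!
# P098, five tangential eigenvalues: the pointwise conditions as a form in three variables

For certificates with `F = b2 = 0` and `g`, `ga` free of the cubic invariant, the elimination of the
third derivatives leaves a form in `(p, ν, π)` whose entries are affine in the invariant. A bound
affine in the invariant of `resid / b1` keeps the nonnegativity between two nodes.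
-/

namespace Vale.Agent.P098.Six

open Vale.Agent.P098.Div Vale.Agent.P098.Cone

noncomputable section

/-- The restricted class of certificates. -/
structure Reduced (c : FieldsX) : Prop where
  F : c.F = fun _ => 0
  b2 : c.b2 = fun _ => 0
  g : ∀ v, pd c.g 2 v = 0
  ga : ∀ v, pd c.ga 2 v = 0

/-- The coefficient of `p` in the derivative of `f` along a step. -/
def stepP (f : (Fin 4 → ℝ) → ℝ) (v : Fin 4 → ℝ) (a : ℝ) : ℝ :=
  g11 a * (v 0 * pd f 0 v - 2 * v 3 * (1 - v 3) * pd f 3 v)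
    + 3 * pd f 2 v * (g12 a (v 2) - v 2 * g11 a)

/-- The coefficient of `π` in the derivative of `f` along a step. -/
def stepZ (f : (Fin 4 → ℝ) → ℝ) (v : Fin 4 → ℝ) (a : ℝ) : ℝ := pd f 0 v - 2 * a * pd f 1 v

/-- Entry `p p`. -/
def ePP (c : FieldsX) (v : Fin 4 → ℝ) (a : ℝ) : ℝ :=
  c.b1 v * (g11 a - g11 a ^ 2) + g11 a * stepP c.b1 v a
    - (g11 a * c.g v / 2 + stepP c.g v a) ^ 2

/-- Entry `p ν`. -/
def ePN (c : FieldsX) (v : Fin 4 → ℝ) (a : ℝ) : ℝ := 3 / 2 * g11 a * pd c.b1 2 v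

/-- Entry `p π`. -/
def ePZ (c : FieldsX) (v : Fin 4 → ℝ) (a : ℝ) : ℝ :=
  (g11 a * (stepZ c.b1 v a + 2 * c.al v + a * c.be v + c.ga v)
      + stepP c.al v a + a * stepP c.be v a + a ^ 2 * stepP c.ga v a) / 2
    - (g11 a * c.g v / 2 + stepP c.g v a) * stepZ c.g v a

/-- Entry `ν π`. -/
def eNZ (c : FieldsX) (v : Fin 4 → ℝ) (a : ℝ) : ℝ :=
  3 / 2 * (pd c.al 2 v + a * pd c.be 2 v)

/-- Entry `π π`. -/
def eZZ (c : FieldsX) (v : Fin 4 → ℝ) (a : ℝ) : ℝ :=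
  stepZ c.al v a + a * stepZ c.be v a + a ^ 2 * stepZ c.ga v a - stepZ c.g v a ^ 2

/-- The form, with `om` as the entry `ν ν`. -/
def form (c : FieldsX) (v : Fin 4 → ℝ) (a om p ν π : ℝ) : ℝ :=
  ePP c v a * p ^ 2 + 2 * ePN c v a * p * ν + 2 * ePZ c v a * p * π + om * ν ^ 2
    + 2 * eNZ c v a * ν * π + eZZ c v a * π ^ 2

/-- The coefficient of `π ^ 2` outside the form. -/
def eZ (γ : ℝ) (c : FieldsX) (v : Fin 4 → ℝ) : ℝ :=
  (1 - v 3) * (c.be v + v 2 * c.ga v)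
    + v 3 * (5 * c.b1 v - γ * c.g v ^ 2 - 5 * v 0 * c.al v - v 0 * c.ga v)

/-- The factor of the form. -/
def eS (v : Fin 4 → ℝ) : ℝ := (1 - v 3) * (1 - v 1) - v 3 * v 0 ^ 2

/-- The quadratic part bounds the form. -/
theorem quadX_ge {c : FieldsX} (hc : Reduced c) {l : Fin 5 → ℝ} (h : Spectrum l) (k : Fin 5)
    {x : Fin 5 → ℝ} (hx : ∑ i, x i = 0) (w D ξ π : ℝ) {σ om : ℝ} (hσ : 0 < σ)
    (hS : resid (l k) (cubic l) (sumFour l k) ≤ σ) (hb : 0 ≤ c.b1 (ptX l w D ξ))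
    (hom : om * σ ≤ c.b1 (ptX l w D ξ)) :
    ∃ p ν : ℝ, form c (ptX l w D ξ) (l k) om p ν π ≤ quadX c l w D ξ k x π := by
  set v := ptX l w D ξ with hv
  set G := g11 (l k) with hG'
  have hG : 0 < G := g11_pos _
  obtain ⟨P, hn⟩ : ∃ P, nu l x = G * P := ⟨nu l x / G, (mul_div_cancel₀ _ hG.ne').symm⟩
  obtain ⟨R, hmu⟩ : ∃ R, mu l x = R + g12 (l k) (cubic l) * P :=
    ⟨mu l x - g12 (l k) (cubic l) * P, by ring⟩
  refine ⟨P, R, ?_⟩
  have hK := mul_le_mul_of_nonneg_left (Spectrum.normK_ge h k hx hσ hS) hb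
  have e1 : (G * P) ^ 2 / G = G * P ^ 2 := by field_simp
  have e2 : R + g12 (l k) (cubic l) * P - g12 (l k) (cubic l) / G * (G * P) = R := by field_simp; ring
  rw [← hG', hn, hmu, e1, e2, mul_add] at hK
  have hB : om * R ^ 2 ≤ c.b1 v * (R ^ 2 / σ) := by
    have := mul_le_mul_of_nonneg_right hom (div_nonneg (sq_nonneg R) hσ.le)
    rwa [mul_assoc, mul_div_cancel₀ _ hσ.ne'] at this
  have h0 : v 0 = w := rfl
  have h2 : v 2 = cubic l := rfl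
  have h3 : v 3 = ξ := rfl
  have hF : ∀ i, pd c.F i v = 0 := fun i => by rw [hc.F, pd_const]
  have hb2 : ∀ i, pd c.b2 i v = 0 := fun i => by rw [hc.b2, pd_const]
  have hF2 : ∀ i j, hess c.F i j v = 0 := fun i j => by
    have : pd c.F j = fun _ => (0 : ℝ) := funext fun y => by rw [hc.F, pd_const]
    simp [hess, hc.F, pd_const]
  simp only [quadX, form, ePP, ePN, ePZ, eNZ, eZZ, stepP, stepZ, along, along₂, stepX,
    Fin.sum_univ_four, ← hv, hn, hF, hb2, hF2, hc.g, hc.ga, congrFun hc.F v, congrFun hc.b2 v,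
    Matrix.cons_val_zero, Matrix.cons_val_one, Matrix.cons_val, h0, h2, h3, hmu, ← hG']
  linear_combination hK + hB

/-- The interior inequality follows from that of the form. -/
theorem quadX_of_form {c : FieldsX} (hc : Reduced c) {γ : ℝ} {l : Fin 5 → ℝ} (h : Spectrum l)
    (k : Fin 5) {x : Fin 5 → ℝ} (hx : ∑ i, x i = 0) {w D ξ : ℝ} (hξ : InX w D ξ) (π : ℝ)
    {σ om : ℝ} (hσ : 0 < σ) (hS : resid (l k) (cubic l) (sumFour l k) ≤ σ)
    (hb : 0 ≤ c.b1 (ptX l w D ξ)) (hom : om * σ ≤ c.b1 (ptX l w D ξ))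
    (hq : ∀ p ν, 0 ≤ eS (ptX l w D ξ) * form c (ptX l w D ξ) (l k) om p ν π
      + eZ γ c (ptX l w D ξ) * π ^ 2) :
    0 ≤ ((1 - ξ) * (1 - D) - ξ * w ^ 2) * quadX c l w D ξ k x π
      + ((1 - ξ) * constX c l w D ξ + ξ * endX γ c l w D ξ) * π ^ 2 := by
  obtain ⟨p, ν, hpn⟩ := quadX_ge hc h k hx w D ξ π hσ hS hb hom
  have hs : eS (ptX l w D ξ) = (1 - ξ) * (1 - D) - ξ * w ^ 2 := rfl
  have hz : (1 - ξ) * constX c l w D ξ + ξ * endX γ c l w D ξ = eZ γ c (ptX l w D ξ) := by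
    simp only [constX, endX, eZ, hc.F, hc.b2, pd_const, ptX, Matrix.cons_val_zero, Matrix.cons_val, Nat.cast_ofNat]
    ring
  rw [hz, ← hs]
  have hs0 : 0 ≤ eS (ptX l w D ξ) := by rw [hs]; linarith [hξ.2.2]
  linarith [hq p ν, mul_le_mul_of_nonneg_left hpn hs0]

/-- Between two nodes: the entries are affine and `kap` bounds the inverse of the entry `ν ν`. -/
theorem node_convex {s z a b kap₀ kap₁ th A₀ A₁ B₀ B₁ C₀ C₁ : ℝ} (hth : 0 ≤ th) (hth' : th ≤ 1)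
    (hs : 0 ≤ s) (hk₀ : 0 < kap₀) (hk₁ : 0 < kap₁)
    (h₀ : ∀ p ν π, 0 ≤ s * (A₀ * p ^ 2 + 2 * a * p * ν + 2 * B₀ * p * π + ν ^ 2 / kap₀
      + 2 * b * ν * π + C₀ * π ^ 2) + z * π ^ 2)
    {z' : ℝ} (h₁ : ∀ p ν π, 0 ≤ s * (A₁ * p ^ 2 + 2 * a * p * ν + 2 * B₁ * p * π + ν ^ 2 / kap₁
      + 2 * b * ν * π + C₁ * π ^ 2) + z' * π ^ 2) (p ν π : ℝ) :
    0 ≤ s * (((1 - th) * A₀ + th * A₁) * p ^ 2 + 2 * a * p * ν
      + 2 * ((1 - th) * B₀ + th * B₁) * p * π + ν ^ 2 / ((1 - th) * kap₀ + th * kap₁)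
      + 2 * b * ν * π + ((1 - th) * C₀ + th * C₁) * π ^ 2) + ((1 - th) * z + th * z') * π ^ 2 := by
  set kap := (1 - th) * kap₀ + th * kap₁ with hkap
  have hk : 0 < kap := by
    rcases eq_or_lt_of_le hth with e | e
    · rw [hkap, ← e]; linarith
    · exact add_pos_of_nonneg_of_pos (mul_nonneg (by linarith) hk₀.le) (mul_pos e hk₁)
  set u := a * p + b * π with hu
  have e₀ : (-(kap₀ * u)) ^ 2 / kap₀ = kap₀ * u ^ 2 := by field_simp
  have e₁ : (-(kap₁ * u)) ^ 2 / kap₁ = kap₁ * u ^ 2 := by field_simp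
  have g₀ := h₀ p (-(kap₀ * u)) π
  have g₁ := h₁ p (-(kap₁ * u)) π
  rw [e₀] at g₀
  rw [e₁] at g₁
  have hsq : (ν + kap * u) ^ 2 / kap = ν ^ 2 / kap + 2 * ν * u + kap * u ^ 2 := by field_simp; ring
  have m0 : 0 ≤ s * ((ν + kap * u) ^ 2 / kap) := mul_nonneg hs (div_nonneg (sq_nonneg _) hk.le)
  rw [hsq] at m0
  simp only [hu, hkap] at *
  linear_combination mul_nonneg (sub_nonneg.2 hth') g₀ + mul_nonneg hth g₁ + m0

/-- The two linear conditions at the nodes give the bound between them. -/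
theorem kap_piece {th kap₀ kap₁ b₀ b₁ σ₀ σ₁ : ℝ} (hth : 0 ≤ th) (hth' : th ≤ 1)
    (h₀ : σ₀ ≤ kap₀ * b₀) (h₁ : σ₁ ≤ kap₁ * b₁) (h : σ₀ + σ₁ ≤ kap₀ * b₁ + kap₁ * b₀) :
    (1 - th) * σ₀ + th * σ₁ ≤ ((1 - th) * kap₀ + th * kap₁) * ((1 - th) * b₀ + th * b₁) := by
  have hu := sub_nonneg.2 hth'
  linear_combination mul_nonneg (mul_nonneg hu hu) (sub_nonneg.2 h₀)
    + mul_nonneg (mul_nonneg hu hth) (sub_nonneg.2 h)
    + mul_nonneg (mul_nonneg hth hth) (sub_nonneg.2 h₁)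

/-- The coefficient of three distinct indices. -/
theorem tripleX_of_pos {c : FieldsX} (hc : Reduced c) {φ : ℝ → ℝ}
    (hb : ∀ l : Fin 5 → ℝ, Spectrum l → ∀ w D, InDom φ w D → ∀ ξ, InX w D ξ →
      0 ≤ c.b1 (ptX l w D ξ)) : TripleX 5 c φ := by
  intro l h w D hd ξ hx i j k _ _ _
  have hg : ∀ v, pd c.F 2 v = 0 := fun v => by rw [hc.F, pd_const]
  simpa [hc.F, hc.b2, pd_const, hg] using hb l h w D hd ξ hx

/-- The boundary inequality in the restricted class. -/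
theorem bdryX_of {c : FieldsX} (hc : Reduced c)
    (hb : ∀ l : Fin 5 → ℝ, Spectrum l → ∀ ξ, 0 < ξ → ξ < 1 → ∀ k : Fin 5, l k ≤ 0 →
      0 ≤ (2 * l k - cubic l) * c.b1 (ptX l 0 0 ξ) + c.al (ptX l 0 0 ξ)
        + l k * c.be (ptX l 0 0 ξ) + l k ^ 2 * c.ga (ptX l 0 0 ξ)
        - l k * c.g (ptX l 0 0 ξ) ^ 2) : BdryX 5 c := by
  intro l h ξ h0 h1 k hk
  simpa [hc.F, hc.b2, pd_const] using hb l h ξ h0 h1 k hk

end

end Vale.Agent.P098.Six
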