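import Vale.Agent.P098.Six.Values
import Vale.Agent.P098.Six.Reduce

/-!
# P098, six dimensions: between the ends of a strip

The entries of a certificate are affine in the cubic invariant, so the forms at the two ends of a
strip give the interior inequality at every point between them.
-/

namespace Vale.Agent.P098.Six

open Vale.Agent.P098.Div Vale.Agent.P098.Cone

noncomputable section

variable (C : Coef8) (u : Fin 4 → ℝ)

/-- The function of the invariant is affine. -/
def AffT (f : (Fin 4 → ℝ) → ℝ) : Prop :=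
  ∀ t, f (pt4 u t) = (1 - t) * f (pt4 u 0) + t * f (pt4 u 1)

theorem affT_b1 : AffT u C.fields.b1 := by
  intro t
  simp only [Coef8.fields, polyFields, pev_monos]
  ring

theorem affT_pp : AffT u fun v => ePP C.fields v (u 3) := by
  intro t
  simp only [ePP, stepP, Coef8.fields, polyFields, pd_w, pd_x, pd_t, pev_monos, g11, g12, toP_nil,
    List.map_nil]
  simp only [pt4, Matrix.cons_val_zero, Matrix.cons_val]
  ring

theorem affT_pz : AffT u fun v => ePZ C.fields v (u 3) := by
  intro t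
  simp only [ePZ, stepP, stepZ, Coef8.fields, polyFields, pd_w, pd_D, pd_x, pd_t, pev_monos, g11,
    g12, toP_nil, List.map_nil]
  simp only [pt4, Matrix.cons_val_zero, Matrix.cons_val]
  ring

theorem affT_zz : AffT u fun v => eZZ C.fields v (u 3) := by
  intro t
  simp only [eZZ, stepZ, Coef8.fields, polyFields, pd_w, pd_D, toP_nil, List.map_nil]
  ring

theorem affT_z : AffT u fun v => eZ C.gam C.fields v := by
  intro t
  simp only [eZ, Coef8.fields, polyFields, pev_monos, toP_nil]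
  simp only [pt4, Matrix.cons_val_zero, Matrix.cons_val]
  ring

variable {u} in
/-- An affine function at a point between two ends with weights in thirds. -/
theorem AffT.mix_eq {f : (Fin 4 → ℝ) → ℝ} (hf : AffT u f) (th q t₀ t₁ : ℝ) :
    f (pt4 u ((1 - th) * mix q (t₀, t₁) + th * mix (q + 1) (t₀, t₁))) =
      (1 - th) * mix q (ends u t₀ t₁ f) + th * mix (q + 1) (ends u t₀ t₁ f) := by
  rw [hf, ends, hf t₀, hf t₁]
  simp only [mix]
  ring

theorem eS_const (s t : ℝ) : eS (pt4 u s) = eS (pt4 u t) := by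
  simp [eS, pt4]

theorem ePN_const (a s t : ℝ) : ePN C.fields (pt4 u s) a = ePN C.fields (pt4 u t) a := by
  simp only [ePN, Coef8.fields, polyFields, pd_t]

theorem eNZ_const (a s t : ℝ) : eNZ C.fields (pt4 u s) a = eNZ C.fields (pt4 u t) a := by
  simp only [eNZ, Coef8.fields, polyFields, pd_t]

/-- The interior inequality between the two ends of a strip. -/
theorem quad_between (C : Coef8) {l : Fin 5 → ℝ} (h : Spectrum l) (k : Fin 5) {x : Fin 5 → ℝ}
    (hx : ∑ i, x i = 0) {w D ξ : ℝ} (hξ : InX w D ξ) (π : ℝ) {q t₀ t₁ σ₀ σ₁ th : ℝ} (hth : 0 ≤ th)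
    (hth1 : th ≤ 1) (ht : cubic l = (1 - th) * mix q (t₀, t₁) + th * mix (q + 1) (t₀, t₁))
    (hr : resid (l k) (cubic l) (sumFour l k) ≤ (1 - th) * σ₀ + th * σ₁) (p₀ : 0 < σ₀) (p₁ : 0 < σ₁)
    (hS : StripOK (valsAt C ![w, D, ξ, l k] t₀ t₁) q σ₀ σ₁) :
    0 ≤ ((1 - ξ) * (1 - D) - ξ * w ^ 2) * quadX C.fields l w D ξ k x π
      + ((1 - ξ) * constX C.fields l w D ξ + ξ * endX C.gam C.fields l w D ξ) * π ^ 2 := by
  obtain ⟨k₀, k₁, hk₀, hk₁, e₀, e₁, e₂, n₀, n₁⟩ := hS
  set u : Fin 4 → ℝ := ![w, D, ξ, l k] with hu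
  have hpt : pt4 u (cubic l) = ptX l w D ξ := rfl
  have hu3 : u 3 = l k := rfl
  have cb := (affT_b1 C u).mix_eq th q t₀ t₁
  have cA := (affT_pp C u).mix_eq th q t₀ t₁
  have cB := (affT_pz C u).mix_eq th q t₀ t₁
  have cC := (affT_zz C u).mix_eq th q t₀ t₁
  have cz := (affT_z C u).mix_eq th q t₀ t₁
  rw [← ht, hpt] at cb cA cB cC cz
  simp only [hu3] at cA cB cC
  have hs : 0 ≤ eS (pt4 u t₀) := by
    rw [eS_const u t₀ (cubic l), hpt]
    have := hξ.2.2
    simp only [eS, ptX, Matrix.cons_val_zero, Matrix.cons_val_one, Matrix.cons_val]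
    linarith
  set kap := (1 - th) * k₀ + th * k₁ with hkap
  have hk : 0 < kap := by
    rcases eq_or_lt_of_le hth with e | e
    · rw [hkap, ← e]; linarith
    · exact add_pos_of_nonneg_of_pos (mul_nonneg (by linarith) hk₀.le) (mul_pos e hk₁)
  have hσ : 0 < (1 - th) * σ₀ + th * σ₁ := by
    rcases eq_or_lt_of_le hth with e | e
    · rw [← e]; linarith
    · exact add_pos_of_nonneg_of_pos (mul_nonneg (by linarith) p₀.le) (mul_pos e p₁)
  have hle := kap_piece hth hth1 e₀ e₁ e₂
  simp only [NodeOK, valsAt, hu3] at hle n₀ n₁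
  rw [← cb, ← hkap] at hle
  have hb : 0 < C.fields.b1 (ptX l w D ξ) := pos_of_mul_pos_right (hσ.trans_le hle) hk.le
  refine quadX_of_form (fields_reduced C) h k hx hξ π (σ := kap * C.fields.b1 (ptX l w D ξ))
    (om := 1 / kap) (mul_pos hk hb) (hr.trans hle) hb.le (le_of_eq (by field_simp)) fun p ν => ?_
  have g := node_convex hth hth1 hs hk₀ hk₁ n₀ n₁ p ν π
  rw [← cA, ← cB, ← cC, ← cz, eS_const u t₀ (cubic l), ePN_const C u _ t₀ (cubic l),
    eNZ_const C u _ t₀ (cubic l), hpt, ← hkap] at g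
  convert g using 1
  simp only [form]
  ring

end

end Vale.Agent.P098.Six
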