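import Mathlib

/-!
# P098, six dimensions: arrays of integers packed into one integer

An array of integers of absolute value below `2 ^ (B - 1)` is packed into the value of the polynomial
with these coefficients at `2 ^ B`. After a shift by `2 ^ (B - 1)` in every block the blocks are the
digits, so that selections and sign tests are single bitwise operations.
-/

namespace Vale.Agent.P098.Six

open Finset

/-- The value of the first `J` entries at `2 ^ B`. -/
def pack (B J : ℕ) (c : ℕ → ℤ) : ℤ := ∑ j ∈ range J, c j * 2 ^ (B * j)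

/-- The same for natural entries. -/
def packN (B J : ℕ) (c : ℕ → ℕ) : ℕ := ∑ j ∈ range J, c j * 2 ^ (B * j)

/-- The sum of `2 ^ (B * S * i)` over `i < k`. -/
def rep (B S k : ℕ) : ℕ := (2 ^ (B * S * k) - 1) / (2 ^ (B * S) - 1)

theorem pack_succ (B J : ℕ) (c : ℕ → ℤ) :
    pack B (J + 1) c = c 0 + 2 ^ B * pack B J (fun j => c (j + 1)) := by
  rw [pack, pack, sum_range_succ', mul_sum, Nat.mul_zero, pow_zero, mul_one, add_comm]
  refine congrArg _ (sum_congr rfl fun j _ => ?_)
  rw [Nat.mul_add, Nat.mul_one, pow_add]; ring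

theorem packN_succ (B J : ℕ) (c : ℕ → ℕ) :
    packN B (J + 1) c = c 0 + 2 ^ B * packN B J (fun j => c (j + 1)) := by
  rw [packN, packN, sum_range_succ', mul_sum, Nat.mul_zero, pow_zero, mul_one, add_comm]
  refine congrArg _ (sum_congr rfl fun j _ => ?_)
  rw [Nat.mul_add, Nat.mul_one, pow_add]; ring

theorem pack_add (B J : ℕ) (c d : ℕ → ℤ) : pack B J (c + d) = pack B J c + pack B J d := by
  simp [pack, sum_add_distrib, add_mul]

theorem pack_smul (B J : ℕ) (a : ℤ) (c : ℕ → ℤ) : pack B J (a • c) = a * pack B J c := by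
  simp [pack, mul_sum, mul_assoc]

theorem pack_cast (B J : ℕ) (c : ℕ → ℕ) : pack B J (fun j => (c j : ℤ)) = (packN B J c : ℤ) := by
  simp [pack, packN]

theorem packN_congr {B J : ℕ} {c d : ℕ → ℕ} (h : ∀ j < J, c j = d j) : packN B J c = packN B J d :=
  sum_congr rfl fun j hj => by rw [h j (mem_range.1 hj)]

theorem pack_congr {B J : ℕ} {c d : ℕ → ℤ} (h : ∀ j < J, c j = d j) : pack B J c = pack B J d :=
  sum_congr rfl fun j hj => by rw [h j (mem_range.1 hj)]

/-- Blocks are digits: a conjunction acts blockwise. -/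
theorem and_packN {B : ℕ} : ∀ (J : ℕ) (d e : ℕ → ℕ), (∀ j < J, d j < 2 ^ B) → (∀ j < J, e j < 2 ^ B) →
    packN B J d &&& packN B J e = packN B J fun j => d j &&& e j
  | 0, _, _, _, _ => by simp [packN]
  | J + 1, d, e, hd, he => by
    have hX : 0 < 2 ^ B := by positivity
    have ih := and_packN J (fun j => d (j + 1)) (fun j => e (j + 1)) (fun j hj => hd _ (by omega))
      fun j hj => he _ (by omega)
    rw [packN_succ, packN_succ, packN_succ, ← Nat.mod_add_div (_ &&& _) (2 ^ B), Nat.and_mod_two_pow,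
      Nat.and_div_two_pow]
    simp only [Nat.add_mul_mod_self_left, Nat.add_mul_div_left _ _ hX, Nat.mod_eq_of_lt (hd 0 (by omega)),
      Nat.mod_eq_of_lt (he 0 (by omega)), Nat.div_eq_of_lt (hd 0 (by omega)),
      Nat.div_eq_of_lt (he 0 (by omega)), Nat.zero_add, ih]

/-- A shift drops the first blocks. -/
theorem packN_shift {B : ℕ} : ∀ (m J : ℕ) (d : ℕ → ℕ), (∀ j < J, d j < 2 ^ B) →
    (∀ j, J ≤ j → d j = 0) → packN B J d >>> (B * m) = packN B J fun j => d (j + m)
  | 0, _, _, _, _ => by simp
  | m + 1, J, d, hd, h0 => by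
    have hX : 0 < 2 ^ B := by positivity
    have step : packN B J d >>> B = packN B J fun j => d (j + 1) := by
      rcases J with _ | J
      · simp [packN]
      · rw [Nat.shiftRight_eq_div_pow, packN_succ, Nat.add_mul_div_left _ _ hX,
          Nat.div_eq_of_lt (hd 0 (by omega)), Nat.zero_add, packN, packN, sum_range_succ,
          h0 (J + 1) le_rfl]
        simp
    rw [Nat.mul_add, Nat.mul_one, Nat.add_comm (B * m), Nat.shiftRight_add, step,
      packN_shift m J (fun j => d (j + 1))
        (fun j _ => if hj : j + 1 < J then hd _ hj else by rw [h0 _ (by omega)]; positivity)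
        fun j hj => h0 _ (by omega)]
    simp only [Nat.add_assoc]

theorem rep_eq {B S : ℕ} (h : 0 < B * S) (k : ℕ) : rep B S k = ∑ i ∈ range k, 2 ^ (B * (S * i)) := by
  have hX : 2 ≤ 2 ^ (B * S) := Nat.le_self_pow h.ne' 2
  rw [rep, pow_mul, ← Nat.geomSum_eq hX]
  exact sum_congr rfl fun i _ => by rw [← pow_mul, mul_assoc]

/-- Sums over an index range split at an axis of `m` values and stride `S`. -/
theorem sum_axis {M : Type} [AddCommMonoid M] (O m S : ℕ) (f : ℕ → M) :
    ∑ j ∈ range (O * m * S), f j =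
      ∑ i ∈ range m, ∑ o ∈ range O, ∑ r ∈ range S, f ((o * m + i) * S + r) := by
  have blk : ∀ (a : ℕ) (g : ℕ → M),
      ∀ n, ∑ j ∈ range (n * a), g j = ∑ i ∈ range n, ∑ r ∈ range a, g (i * a + r) := by
    intro a g n
    induction n with
    | zero => simp
    | succ n ih => rw [Nat.succ_mul, sum_range_add, ih, sum_range_succ]
  rw [blk S f (O * m), blk m (fun q => ∑ r ∈ range S, f (q * S + r)) O, sum_comm]

end Vale.Agent.P098.Six
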