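import Vale.Agent.P098.Six.FastTest

/-!
# P098, six dimensions: constants and literals of the checked trees

The constants of a layout are given by a formula, and a long literal is given by short chunks.
-/

namespace Vale.Agent.P098.Six

/-- The number with the given chunks of `w` bits, lowest first. -/
def cat (w : ℕ) : List ℕ → ℕ
  | [] => 0
  | a :: l => Nat.add a (Nat.shiftLeft (cat w l) w)

/-- The constants of an axis. -/
def mkAx (B O n S : ℕ) : AxQ :=
  ⟨n, B * S, lowC B (O * (n + 1) * S) n,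
    biasC B (O * (n + 1) * S) - biasR B (O * (n + 1) * S) n,
    masks (fun r => maskFast B O (n + 1) S fun i => decide (r ≤ i)) n,
    masks (fun r => maskFast B O (n + 1) S fun i => decide (i + r < n + 1)) n⟩

/-- The constants of a run on a layout. -/
def mkCon (L : Lay) (M E : ℕ) : ConQ :=
  ⟨M, E, 2 ^ (L.B - 1), biasC L.B L.size, rep L.B 1 L.size,
    mkAx L.B (L.outer 0) L.n₀ (L.stride 0), mkAx L.B (L.outer 1) L.n₁ (L.stride 1),
    mkAx L.B (L.outer 2) L.n₂ (L.stride 2), mkAx L.B (L.outer 3) L.n₃ (L.stride 3)⟩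

/-- The constants of a packed run of `k + 1` blocks. -/
def mkSup (L : Lay) (k : ℕ) : SupQ :=
  ⟨mkAx L.B ((k + 1) * L.outer 0) L.n₀ (L.stride 0), mkAx L.B ((k + 1) * L.outer 1) L.n₁ (L.stride 1),
    mkAx L.B ((k + 1) * L.outer 2) L.n₂ (L.stride 2), mkAx L.B ((k + 1) * L.outer 3) L.n₃ (L.stride 3),
    k, L.B * L.size, maskC L.B 1 (k + 1) L.size⟩

theorem exists_right_of_forall₂ {α β : Type*} {R : α → β → Prop} {l : List α} {m : List β}
    (h : List.Forall₂ R l m) {x : α} (hx : x ∈ l) : ∃ y ∈ m, R x y := by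
  induction h with
  | nil => simp at hx
  | @cons a b l m hab _ ih =>
    rcases List.mem_cons.1 hx with rfl | h'
    · exact ⟨b, List.mem_cons_self, hab⟩
    · obtain ⟨y, hy, hr⟩ := ih h'
      exact ⟨y, List.mem_cons_of_mem _ hy, hr⟩

/-- Packed roots from their meaning. -/
theorem packed_of_reps {L : Lay} {M E : ℕ} {Ps : List ℤ} {F : List ((Fin 4 → ℝ) → ℝ)}
    (h : Reps L M E Ps F) : Packed L M Ps := fun x hx => by
  obtain ⟨_, -, c, hc, -⟩ := exists_right_of_forall₂ h hx
  exact ⟨c, hc⟩

end Vale.Agent.P098.Six
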