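import Vale.Agent.P098.Six.Run

/-!
# P098, six dimensions: runs along a path, for checking a tree in pieces

`runPath` halves only along the given path and then runs the tree that hangs there; two checked
children give the checked node, so the pieces of a tree may be checked in separate files.
-/

namespace Vale.Agent.P098.Six

variable {α : Type}

/-- A step of a path: the axis and the choice of the upper half. -/
inductive Dir where
  | d0 (b : Bool)
  | d1 (b : Bool)
  | d2 (b : Bool)
  | d3 (b : Bool)

/-- The constants of the axis of a step. -/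
def Dir.axK (K : Con) : Dir → AxK
  | .d0 _ => K.k0
  | .d1 _ => K.k1
  | .d2 _ => K.k2
  | .d3 _ => K.k3

/-- The halving of a step. -/
def Dir.half (K : Con) : Dir → ℤ → ℤ
  | .d0 false => K.k0.lo
  | .d0 true => K.k0.hi
  | .d1 false => K.k1.lo
  | .d1 true => K.k1.hi
  | .d2 false => K.k2.lo
  | .d2 true => K.k2.hi
  | .d3 false => K.k3.lo
  | .d3 true => K.k3.hi

/-- The position along the last axis after a step. -/
def Dir.pos : Dir → ℕ → ℕ → ℕ × ℕ
  | .d3 false, i, d => (2 * i, d + 1)
  | .d3 true, i, d => (2 * i + 1, d + 1)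
  | _, i, d => (i, d)

/-- The run of a tree hanging at the end of a path. -/
def runPath (K : Con) (chk : (List ℤ → Bool) → ℕ → ℕ → α → Bool) :
    List Dir → Tree α → ℕ → ℕ → ℕ → List ℤ → Bool
  | [], T, n, i, d, Ps => run K chk T n i d Ps
  | s :: p, T, n, i, d, Ps => halveOK K (s.axK K) n &&
      mapF (s.half K) Ps (runPath K chk p T (n + 1) (s.pos i d).1 (s.pos i d).2)

/-- The two children of a step with the given axis make the node. -/
def Dir.node : Dir → Tree α → Tree α → Tree α
  | .d0 _, l, r => .s0 l r
  | .d1 _, l, r => .s1 l r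
  | .d2 _, l, r => .s2 l r
  | .d3 _, l, r => .s3 l r

/-- The step along the same axis to the given half. -/
def Dir.side : Dir → Bool → Dir
  | .d0 _, b => .d0 b
  | .d1 _, b => .d1 b
  | .d2 _, b => .d2 b
  | .d3 _, b => .d3 b

variable {K : Con} {chk : (List ℤ → Bool) → ℕ → ℕ → α → Bool}

theorem runPath_node (s : Dir) : ∀ (p : List Dir) (l r : Tree α) (n i d : ℕ) (Ps : List ℤ),
    runPath K chk (p ++ [s.side false]) l n i d Ps = true →
      runPath K chk (p ++ [s.side true]) r n i d Ps = true →
        runPath K chk p (s.node l r) n i d Ps = true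
  | [], l, r, n, i, d, Ps, hl, hr => by
    cases s <;>
      simp_all [runPath, run, Dir.side, Dir.node, Dir.half, Dir.axK, Dir.pos, mapF_eq]
  | a :: p, l, r, n, i, d, Ps, hl, hr => by
    simp only [List.cons_append, runPath, Bool.and_eq_true, mapF_eq] at hl hr ⊢
    exact ⟨hl.1, runPath_node s p l r _ _ _ _ hl.2 hr.2⟩

theorem run_of_runPath {T : Tree α} {n i d : ℕ} {Ps : List ℤ}
    (h : runPath K chk [] T n i d Ps = true) : run K chk T n i d Ps = true := h

end Vale.Agent.P098.Six
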