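import Vale.Agent.P098.Six.Node
import Vale.Agent.P098.Six.Path

/-!
# P098, six dimensions: the same run on biased natural numbers

A packed polynomial is kept as its biased value, a natural number. A half along an axis comes from
`n` rounds, each adding a selection of the shifted and of the present value, and a test adds the
positive and the negative part separately. An accepted run here is an accepted run of `run`.
-/

namespace Vale.Agent.P098.Six

open Finset

/-- Constants of an axis: degree, shift, low mask, bias change and the masks of the rounds. -/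
structure AxQ where
  n : ℕ
  BS : ℕ
  low : ℕ
  D : ℕ
  left : List (ℕ × ℕ)
  right : List (ℕ × ℕ)

/-- Constants of a run. -/
structure ConQ where
  M : ℕ
  E : ℕ
  cap : ℕ
  H : ℕ
  one : ℕ
  k0 : AxQ
  k1 : AxQ
  k2 : AxQ
  k3 : AxQ

/-- Evaluate the successor of the argument first and pass its predecessor, a numeral. -/
def forceS (k : ℕ → Bool) (a : ℕ) : Bool :=
  match a + 1 with
  | 0 => k 0
  | n + 1 => k n

theorem forceS_eq (k : ℕ → Bool) (a : ℕ) : forceS k a = k a := rfl

/-- Rounds of selected sums with the value shifted up. The operands of the conjunctions keep a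
varying lowest block, as the kernel hashes a literal by its lowest 64 bits. -/
def stepsL (BS : ℕ) : List (ℕ × ℕ) → ℕ → ℕ
  | [], Q => Q
  | (Y, Z) :: m, Q => stepsL BS m (((Q <<< BS + Q) &&& Y) + ((Q + Q) &&& Z))

/-- Rounds of selected sums with the value shifted down. -/
def stepsR (BS : ℕ) : List (ℕ × ℕ) → ℕ → ℕ
  | [], Q => Q
  | (Y, Z) :: m, Q => stepsR BS m (Q + ((Q >>> BS &&& Y) + (Q &&& Z)))

/-- Division by `2 ^ n`, rounded down, biased again. -/
def roundQ (A : AxQ) (J : ℕ) : ℕ := (J >>> A.n &&& A.low) + A.D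

/-- A half of one polynomial. -/
def halfF (A : AxQ) (up : Bool) (Q : ℕ) (k : ℕ → Bool) : Bool :=
  forceS k (roundQ A (bif up then stepsR A.BS A.right (Q - A.D) else stepsL A.BS A.left (Q - A.D)))

/-- A half of all polynomials. -/
def mapH (A : AxQ) (up : Bool) : List ℕ → (List ℕ → Bool) → Bool
  | [], k => k []
  | Q :: Qs, k => halfF A up Q fun x => mapH A up Qs fun l => k (x :: l)

/-- The sums of a combination: positive part, negative part, positive and negative coefficients. -/
def sumsQ : List ℤ → List ℕ → ℕ → ℕ → ℕ → ℕ → (ℕ → ℕ → ℕ → ℕ → Bool) → Bool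
  | Int.ofNat (c + 1) :: cs, Q :: Qs, P, N, a, b, k =>
      forceS (fun P' => sumsQ cs Qs P' N (a + (c + 1)) b k) (P + (c + 1) * Q)
  | Int.negSucc c :: cs, Q :: Qs, P, N, a, b, k =>
      forceS (fun N' => sumsQ cs Qs P N' a (b + (c + 1)) k) (N + (c + 1) * Q)
  | _ :: cs, _ :: Qs, P, N, a, b, k => sumsQ cs Qs P N a b k
  | _, _, P, N, a, b, k => k P N a b

/-- The test of a combination. -/
def testQ (K : ConQ) (n : ℕ) (Qs : List ℕ) : List ℤ → Bool
  | [] => true
  | c :: cs => forceN (fun A => Nat.blt (c.natAbs + A * (K.M + n + (K.E + n))) K.cap &&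
      sumsQ cs Qs 0 0 0 0 fun P N a b =>
        forceN (fun V => Nat.beq (V &&& K.H) K.H)
          ((P + c.toNat * K.one + (b + 1) * K.H) -
            (N + ((-c).toNat + A * (K.E + n)) * K.one + a * K.H))) (sumAbs cs)

/-- Bounds allow one more halving. -/
def halveQ (K : ConQ) (A : AxQ) (n : ℕ) : Bool := Nat.blt (2 ^ A.n * (K.M + n)) K.cap

variable {α : Type}

/-- The run on biased values. -/
def runQ (K : ConQ) (chk : (List ℤ → Bool) → ℕ → ℕ → α → Bool) :
    Tree α → ℕ → ℕ → ℕ → List ℕ → Bool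
  | .leaf x, n, i, d, Qs => chk (testQ K n Qs) i d x
  | .s0 l r, n, i, d, Qs => halveQ K K.k0 n && (mapH K.k0 false Qs (runQ K chk l (n + 1) i d) &&
      mapH K.k0 true Qs (runQ K chk r (n + 1) i d))
  | .s1 l r, n, i, d, Qs => halveQ K K.k1 n && (mapH K.k1 false Qs (runQ K chk l (n + 1) i d) &&
      mapH K.k1 true Qs (runQ K chk r (n + 1) i d))
  | .s2 l r, n, i, d, Qs => halveQ K K.k2 n && (mapH K.k2 false Qs (runQ K chk l (n + 1) i d) &&
      mapH K.k2 true Qs (runQ K chk r (n + 1) i d))
  | .s3 l r, n, i, d, Qs => halveQ K K.k3 n &&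
      (mapH K.k3 false Qs (runQ K chk l (n + 1) (2 * i) (d + 1)) &&
        mapH K.k3 true Qs (runQ K chk r (n + 1) (2 * i + 1) (d + 1)))

/-- The axis of a step. -/
def Dir.axQ (K : ConQ) : Dir → AxQ
  | .d0 _ => K.k0
  | .d1 _ => K.k1
  | .d2 _ => K.k2
  | .d3 _ => K.k3

/-- The half of a step. -/
def Dir.up : Dir → Bool
  | .d0 b => b
  | .d1 b => b
  | .d2 b => b
  | .d3 b => b

/-- The run of a tree at the end of a path. -/
def runPathQ (K : ConQ) (chk : (List ℤ → Bool) → ℕ → ℕ → α → Bool) :
    List Dir → Tree α → ℕ → ℕ → ℕ → List ℕ → Bool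
  | [], T, n, i, d, Qs => runQ K chk T n i d Qs
  | s :: p, T, n, i, d, Qs => halveQ K (s.axQ K) n &&
      mapH (s.axQ K) s.up Qs (runPathQ K chk p T (n + 1) (s.pos i d).1 (s.pos i d).2)

/-! ### Rounds along one fibre -/

/-- One round: the entries from `r` on get their left neighbour, those before it are doubled. -/
def stp (r : ℕ) (f : ℕ → ℤ) (i : ℕ) : ℤ := f i + if r ≤ i then f (i - 1) else f i

/-- The rounds `r, r + 1, .., r + k - 1`. -/
def itS : ℕ → ℕ → (ℕ → ℤ) → ℕ → ℤ
  | 0, _, f => f
  | k + 1, r, f => itS k (r + 1) (stp r f)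

theorem itS_succ : ∀ (k r : ℕ) (f : ℕ → ℤ) (i : ℕ), 1 ≤ r →
    itS k (r + 1) f (i + 1) = itS k r (fun j => f (j + 1)) i
  | 0, _, _, _, _ => rfl
  | k + 1, r, f, i, hr => by
    rw [itS, itS, itS_succ k (r + 1) _ i (by omega)]
    congr 1
    funext j
    simp only [stp, Nat.add_le_add_iff_right, Nat.add_sub_cancel]
    by_cases h : r ≤ j
    · simp only [if_pos h]; rw [show j - 1 + 1 = j by omega]
    · simp only [if_neg h]

theorem itS_zero : ∀ (k r : ℕ) (f : ℕ → ℤ), 1 ≤ r → itS k r f 0 = 2 ^ k * f 0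
  | 0, _, _, _ => by simp [itS]
  | k + 1, r, f, hr => by
    rw [itS, itS_zero k (r + 1) _ (by omega), stp, if_neg (by omega), pow_succ]; ring

theorem itS_congr : ∀ (k r m : ℕ) (f g : ℕ → ℤ), (∀ i ≤ m, f i = g i) →
    ∀ i ≤ m, itS k r f i = itS k r g i
  | 0, _, _, _, _, h, i, hi => h i hi
  | k + 1, r, m, f, g, h, i, hi => itS_congr k (r + 1) m _ _ (fun j hj => by
      simp only [stp, h j hj]; split
      · rw [h (j - 1) (by omega)]
      · rfl) i hi

theorem getD_dL_itS : ∀ (n : ℕ) (p : List ℤ) (i : ℕ), p.length = n + 1 → i ≤ n →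
    (dL dblZ n p).getD i 0 = itS n 1 (fun j => p.getD j 0) i
  | 0, [a], i, _, hi => by obtain rfl : i = 0 := (by omega); rfl
  | n + 1, a :: p, 0, _, _ => by simp [dL, itS_zero _ _ _ le_rfl, dblZ, shlZ_eq]
  | n + 1, a :: p, i + 1, h, hi => by
    have hl : (adj (a :: p)).length = n + 1 := by rw [length_adj, h]; omega
    rw [dL, List.getD_cons_succ, getD_dL_itS n _ i hl (by omega), itS, itS_succ n 1 _ i le_rfl]
    refine itS_congr _ _ n _ _ (fun j hj => ?_) i (by omega)
    simp only [stp, if_pos (Nat.le_add_left 1 j), Nat.add_sub_cancel, adj_eq_zip, List.tail_cons]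
    rw [List.getD_eq_getElem _ _ (by simp at h ⊢; omega), List.getElem_zipWith,
      List.getD_eq_getElem _ _ (by simp at h ⊢; omega), List.getD_eq_getElem _ _ (by simp at h ⊢; omega),
      List.getElem_cons_succ, add_comm]

/-! ### Rounds on digits -/

/-- The position along the axis. -/
def posA (m S j : ℕ) : ℕ := j / S % m

/-- The masks of round `r` of the left half. -/
def maskL (B O m S r : ℕ) : ℕ × ℕ :=
  (packN B (O * m * S) fun j => if r ≤ posA m S j then 2 ^ B - 1 else 0,
    packN B (O * m * S) fun j => if r ≤ posA m S j then 0 else 2 ^ B - 1)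

/-- The masks of round `r` of the right half. -/
def maskR (B O m S r : ℕ) : ℕ × ℕ :=
  (packN B (O * m * S) fun j => if posA m S j + r < m then 2 ^ B - 1 else 0,
    packN B (O * m * S) fun j => if posA m S j + r < m then 0 else 2 ^ B - 1)

/-- The masks of all rounds. -/
def masks (f : ℕ → ℕ × ℕ) (n : ℕ) : List (ℕ × ℕ) := (List.range' 1 n).map f

/-- The same masks, quick to evaluate. -/
def maskFast (B O m S : ℕ) (sel : ℕ → Bool) : ℕ × ℕ :=
  let pick := fun b => ((List.range m).filter fun i => sel i == b).map fun i =>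
    maskC B O m S <<< (B * (i * S))
  ((pick true).sum, (pick false).sum)

theorem sum_filter_map {m : ℕ} (p : ℕ → Bool) (g : ℕ → ℕ) :
    (((List.range m).filter p).map g).sum = ∑ i ∈ range m, if p i then g i else 0 := by
  induction m with
  | zero => simp
  | succ m ih =>
    rw [List.range_succ, List.filter_append, List.map_append, List.sum_append, ih, sum_range_succ]
    cases h : p m <;> simp [h]

theorem maskFast_eq {B O m S : ℕ} (hB : 0 < B) (hm : 0 < m) (hS : 0 < S) (sel : ℕ → Bool) :
    maskFast B O m S sel = (packN B (O * m * S) fun j => if sel (posA m S j) then 2 ^ B - 1 else 0,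
      packN B (O * m * S) fun j => if sel (posA m S j) then 0 else 2 ^ B - 1) := by
  have key : ∀ b : Bool, ((((List.range m).filter fun i => sel i == b).map fun i =>
      maskC B O m S <<< (B * (i * S))).sum) =
      packN B (O * m * S) fun j => if (sel (posA m S j) == b) then 2 ^ B - 1 else 0 := fun b => by
    rw [sum_filter_map (fun i => sel i == b) (fun i => maskC B O m S <<< (B * (i * S))), packN, sum_axis]
    refine sum_congr rfl fun i hi => ?_
    split
    · next h =>
      rw [Nat.shiftLeft_eq, maskC, mask_eq hB hm hS, packN_first hm, sum_mul]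
      refine sum_congr rfl fun o _ => ?_
      rw [sum_mul]
      refine sum_congr rfl fun r hr => ?_
      have hp : posA m S ((o * m + i) * S + r) = i :=
        (ix_digit (o := o) (mem_range.1 hi) (mem_range.1 hr)).1
      simp only [ix]
      rw [hp, if_pos h, mul_assoc, ← pow_add]
      congr 2; ring
    · next h =>
      refine (sum_eq_zero fun o _ => sum_eq_zero fun r hr => ?_).symm
      have hp : posA m S ((o * m + i) * S + r) = i :=
        (ix_digit (o := o) (mem_range.1 hi) (mem_range.1 hr)).1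
      rw [hp, if_neg h, zero_mul]
  simp only [maskFast, key]
  congr 1 <;> refine packN_congr fun j _ => ?_ <;> cases sel (posA m S j) <;> rfl

theorem packN_pad {B : ℕ} {J K : ℕ} {d : ℕ → ℕ} (h : ∀ j, J ≤ j → d j = 0) :
    packN B (J + K) d = packN B J d := by
  rw [packN, packN, sum_range_add, Nat.add_eq_left]
  exact sum_eq_zero fun j _ => by rw [h _ (by omega), zero_mul]

theorem packN_add (B J : ℕ) (d e : ℕ → ℕ) :
    packN B J d + packN B J e = packN B J fun j => d j + e j := by
  simp only [packN, ← sum_add_distrib, add_mul]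

theorem and_mask {B J : ℕ} {d : ℕ → ℕ} (hd : ∀ j < J, d j < 2 ^ B) (sel : ℕ → Prop)
    [DecidablePred sel] :
    (packN B J d &&& packN B J fun j => if sel j then 2 ^ B - 1 else 0) =
      packN B J fun j => if sel j then d j else 0 := by
  rw [and_packN _ _ _ hd fun j _ => by have := Nat.two_pow_pos B; split <;> omega]
  refine packN_congr fun j hj => ?_
  split
  · rw [Nat.and_two_pow_sub_one_eq_mod, Nat.mod_eq_of_lt (hd j hj)]
  · exact Nat.and_zero _

/-- The digits after a round. -/
def rndD (up : Bool) (m S r : ℕ) (d : ℕ → ℕ) (j : ℕ) : ℕ :=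
  d j + bif up then (if posA m S j + r < m then d (j + S) else d j)
    else if r ≤ posA m S j then d (j - S) else d j

theorem posA_bounds {O m S j : ℕ} (hS : 0 < S) (hj : j < O * m * S) :
    (1 ≤ posA m S j → S ≤ j) ∧ (posA m S j + 1 < m → j + S < O * m * S) := by
  constructor
  · intro h
    by_contra hlt
    simp [posA, Nat.div_eq_of_lt (not_le.1 hlt)] at h
  · intro h
    have hm : 0 < m := by omega
    have h1 : j / S < O * m := by rw [Nat.div_lt_iff_lt_mul hS]; exact hj
    have hq := Nat.div_add_mod (j / S) m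
    have h2 : j / S / m < O := by rw [Nat.div_lt_iff_lt_mul hm]; exact h1
    have h4 : (j / S / m + 1) * m ≤ O * m := Nat.mul_le_mul_right _ h2
    have h3 : j / S + 2 ≤ O * m := by
      simp only [posA] at h
      calc j / S + 2 = m * (j / S / m) + (j / S % m + 2) := by omega
        _ ≤ (j / S / m + 1) * m := by rw [add_mul, one_mul, mul_comm]; omega
        _ ≤ O * m := h4
    have h5 : (j / S + 2) * S ≤ O * m * S := Nat.mul_le_mul_right _ h3
    have h6 := Nat.lt_mul_div_succ j hS
    nlinarith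

theorem round_packN {B O m S r : ℕ} (hS : 0 < S) (hr : 1 ≤ r) {d : ℕ → ℕ}
    (hd : ∀ j < O * m * S, d j < 2 ^ B) (h0 : ∀ j, O * m * S ≤ j → d j = 0)
    (h2 : ∀ j < O * m * S, 2 * d j < 2 ^ B)
    (h3 : ∀ j < O * m * S, S ≤ j → d j + d (j - S) < 2 ^ B) :
    let Q := packN B (O * m * S) d
    ((Q <<< (B * S) + Q) &&& (maskL B O m S r).1) + ((Q + Q) &&& (maskL B O m S r).2) =
        packN B (O * m * S) (rndD false m S r d) ∧
      Q + ((Q >>> (B * S) &&& (maskR B O m S r).1) + (Q &&& (maskR B O m S r).2)) =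
        packN B (O * m * S) (rndD true m S r d) := by
  set J := O * m * S with hJ
  intro Q
  have flip : ∀ (p : Prop) [Decidable p], (if p then 0 else 2 ^ B - 1) = if ¬p then 2 ^ B - 1 else 0 := by
    intro p _; by_cases h : p <;> simp [h]
  constructor
  · have hsh : Q <<< (B * S) = packN B (J + S) fun j => if j < S then 0 else d (j - S) := by
      show packN B J d <<< (B * S) = _
      have z : ∑ x ∈ range S, (if x < S then 0 else d (x - S)) * 2 ^ (B * x) = 0 :=
        sum_eq_zero fun j hj => by rw [if_pos (mem_range.1 hj), zero_mul]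
      rw [Nat.shiftLeft_eq, add_comm J S, packN, packN, sum_range_add, z, zero_add, sum_mul]
      refine sum_congr rfl fun j _ => ?_
      rw [if_neg (by omega), Nat.add_sub_cancel_left, Nat.mul_add, pow_add]; ring
    have hY : (maskL B O m S r).1 =
        packN B (J + S) fun j => if j < J ∧ r ≤ posA m S j then 2 ^ B - 1 else 0 := by
      rw [packN_pad fun j hj => by rw [if_neg]; omega, maskL, ← hJ]
      exact packN_congr fun j hj => by simp [hj]
    have hQ : Q = packN B (J + S) d := (packN_pad fun j hj => h0 j hj).symm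
    rw [hsh, show packN B (J + S) (fun j => if j < S then 0 else d (j - S)) + Q = packN B (J + S)
        fun j => (if j < S then 0 else d (j - S)) + d j by rw [hQ, packN_add],
      hY, and_mask (fun j hj => by
        by_cases hjS : j < S
        · rw [if_pos hjS, zero_add]
          by_cases hjJ : j < J
          · exact hd _ hjJ
          · rw [h0 _ (by omega)]; exact Nat.two_pow_pos B
        · rw [if_neg hjS]
          by_cases hjJ : j < J
          · have := h3 j hjJ (by omega); omega
          · rw [h0 j (by omega), add_zero]; exact hd _ (by omega)) fun j => j < J ∧ r ≤ posA m S j,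
      packN_pad (fun j hj => by rw [if_neg]; omega), maskL, ← hJ, packN_add]
    simp only [flip]
    rw [and_mask (fun j hj => by have := h2 j hj; omega) fun j => ¬r ≤ posA m S j, packN_add]
    refine packN_congr fun j hj => ?_
    simp only [rndD, cond_false]
    by_cases h : r ≤ posA m S j
    · have := (posA_bounds hS (hJ ▸ hj)).1 (by omega)
      rw [if_pos ⟨hj, h⟩, if_neg (not_not.2 h), if_pos h, if_neg (by omega), add_zero, add_comm]
    · rw [if_neg (fun e => h e.2), if_pos h, if_neg h, zero_add]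
  · rw [packN_shift S J d hd h0, maskR, ← hJ]
    simp only [flip]
    rw [and_mask (fun j hj => by
        by_cases hh : j + S < J
        · exact hd _ hh
        · rw [h0 _ (by omega)]; exact Nat.two_pow_pos B) fun j => posA m S j + r < m,
      and_mask hd fun j => ¬posA m S j + r < m, packN_add, packN_add]
    refine packN_congr fun j _ => ?_
    simp only [rndD, cond_true]
    by_cases h : posA m S j + r < m <;> simp [h]

/-- Digits after the rounds `r, .., r + k - 1`, zero outside. -/
def itD (up : Bool) (J m S : ℕ) : ℕ → ℕ → (ℕ → ℕ) → ℕ → ℕ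
  | 0, _, d => d
  | k + 1, r, d => itD up J m S k (r + 1) fun j => if j < J then rndD up m S r d j else 0

theorem rounds_packN {B O m S : ℕ} (hS : 0 < S) (up : Bool) :
    ∀ (k r c : ℕ) (d : ℕ → ℕ), 1 ≤ r → c + k ≤ B →
      (∀ j < O * m * S, d j < 2 ^ c) → (∀ j, O * m * S ≤ j → d j = 0) →
      (bif up then stepsR (B * S) ((List.range' r k).map (maskR B O m S)) (packN B (O * m * S) d)
        else stepsL (B * S) ((List.range' r k).map (maskL B O m S)) (packN B (O * m * S) d)) =
        packN B (O * m * S) (itD up (O * m * S) m S k r d)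
  | 0, r, c, d, _, _, _, _ => by cases up <;> rfl
  | k + 1, r, c, d, hr, hk, hd, h0 => by
    have hd' : ∀ j < O * m * S, d j < 2 ^ B := fun j hj =>
      (hd j hj).trans_le (Nat.pow_le_pow_right (by norm_num) (by omega))
    have hc : 2 ^ (c + 1) ≤ 2 ^ B := Nat.pow_le_pow_right (by norm_num) (by omega)
    rw [pow_succ] at hc
    obtain ⟨e1, e2⟩ := round_packN (B := B) hS hr hd' h0
      (fun j hj => by have := hd j hj; omega)
      (fun j hj hS' => by have := hd j hj; have := hd (j - S) (by omega); omega)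
    set d1 := fun j => if j < O * m * S then rndD up m S r d j else 0 with hd1
    have hb : ∀ j < O * m * S, d1 j < 2 ^ (c + 1) := fun j hj => by
      obtain ⟨b1, b2⟩ := posA_bounds hS hj
      have hx := hd j hj
      have hy : (bif up then (if posA m S j + r < m then d (j + S) else d j)
          else if r ≤ posA m S j then d (j - S) else d j) < 2 ^ c := by
        cases up
        · simp only [cond_false]
          split
          · exact hd (j - S) (by omega)
          · exact hx
        · simp only [cond_true]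
          split
          · exact hd _ (b2 (by omega))
          · exact hx
      simp only [hd1, if_pos hj, rndD, pow_succ]
      omega
    have h1 : packN B (O * m * S) (rndD up m S r d) = packN B (O * m * S) d1 :=
      packN_congr fun j hj => by simp [hd1, hj]
    have ih := rounds_packN (B := B) (O := O) (m := m) hS up k (r + 1) (c + 1) d1 (by omega) (by omega) hb
      fun j hj => if_neg (by omega)
    cases up
    · simp only [cond_false] at ih ⊢
      rw [List.range'_succ, List.map_cons, stepsL, e1, h1, itD]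
      exact ih
    · simp only [cond_true] at ih ⊢
      rw [List.range'_succ, List.map_cons, stepsR, e2, h1, itD]
      exact ih

theorem itD_fibre {O n S : ℕ} (hS : 0 < S) (up : Bool) {o t : ℕ} (ho : o < O) (ht : t < S) :
    ∀ (k r : ℕ), 1 ≤ r → ∀ (d : ℕ → ℕ) (i : ℕ), i ≤ n →
      (itD up (O * (n + 1) * S) (n + 1) S k r d
        (ix (n + 1) S o (bif up then n - i else i) t) : ℤ) =
        itS k r (fun j => (d (ix (n + 1) S o (bif up then n - j else j) t) : ℤ)) i
  | 0, r, _, d, i, _ => rfl
  | k + 1, r, hr, d, i, hi => by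
    rw [itD, itD_fibre hS up ho ht k (r + 1) (by omega) _ i hi, itS]
    refine itS_congr _ _ n _ _ (fun j hj => ?_) i hi
    set p := bif up then n - j else j with hp
    have hpn : p < n + 1 := by cases up <;> simp [hp] <;> omega
    have hd := (ix_digit (o := o) hpn ht).1
    rw [if_pos (ix_lt ho hpn ht), rndD, stp]
    push_cast
    congr 1
    cases up
    · simp only [hp, cond_false] at hd ⊢
      simp only [posA, hd]
      by_cases h : r ≤ j
      · rw [if_pos h, if_pos h]
        obtain ⟨q, rfl⟩ : ∃ q, j = q + 1 := ⟨j - 1, by omega⟩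
        congr 2
        simp only [ix, add_mul, one_mul, ← Nat.add_assoc, Nat.add_sub_cancel]
        omega
      · rw [if_neg h, if_neg h]
    · simp only [hp, cond_true] at hd ⊢
      simp only [posA, hd]
      by_cases h : r ≤ j
      · rw [if_pos (show n - j + r < n + 1 by omega), if_pos h,
          show n - (j - 1) = n - j + 1 by omega]
        congr 2
        simp only [ix, ← Nat.add_assoc, add_mul, one_mul]
        omega
      · rw [if_neg (show ¬n - j + r < n + 1 by omega), if_neg h]

theorem itS_shift : ∀ (k r : ℕ) (f : ℕ → ℤ) (h : ℤ) (i : ℕ),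
    itS k r (fun j => f j + h) i = itS k r f i + 2 ^ k * h
  | 0, _, f, h, i => by simp [itS]
  | k + 1, r, f, h, i => by
    rw [itS, itS, show stp r (fun j => f j + h) = fun j => stp r f j + 2 * h from funext fun j => by
      simp only [stp]; split <;> ring, itS_shift k (r + 1) _ _ i, pow_succ]
    ring

theorem biased_subNatNat (a R H : ℕ) (h : R ≤ H) : biased H (Int.subNatNat a R) = a + (H - R) := by
  rw [biased, Int.subNatNat_eq_coe, Int.ofNat_eq_natCast]; omega

theorem biased_nonneg {L : Lay} {M E : ℕ} {P : ℤ} {f : (Fin 4 → ℝ) → ℝ} (h : Rep L M E P f)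
    (hB : 0 < L.B) (hM : M < 2 ^ (L.B - 1)) : 0 ≤ P + ((biasC L.B L.size : ℕ) : ℤ) := by
  obtain ⟨c, hc, -⟩ := h
  have e : P + ((biasC L.B L.size : ℕ) : ℤ) = (packN L.B L.size (dig L.B L.size c) : ℤ) := by
    rw [← pack_cast, hc.eq, biasC, packN_rep hB, Nat.cast_mul, ← pack_cast, Nat.cast_pow, ← pack_smul,
      ← pack_add]
    exact pack_congr fun j hj => by simp [dig_spec hc hM hj]
  rw [e]; exact Int.natCast_nonneg _

/-- The constants of an axis agree with those of a layout. -/
def AxQ.good (A : AxQ) (B O n S : ℕ) : Bool :=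
  A.n == n && A.BS == B * S && A.low == lowC B (O * (n + 1) * S) n
    && A.D + biasR B (O * (n + 1) * S) n == biasC B (O * (n + 1) * S)
    && A.left == masks (fun r => maskFast B O (n + 1) S fun i => decide (r ≤ i)) n
    && A.right == masks (fun r => maskFast B O (n + 1) S fun i => decide (i + r < n + 1)) n

/-- The digits of a half are those of the biased half. -/
theorem halfF_eq {A : AxQ} {B O n S M : ℕ} {P : ℤ} {c : ℕ → ℤ} (hg : A.good B O n S = true)
    (h : Packs B (O * (n + 1) * S) M P c) (hS : 0 < S) (hn : n < B) (hM : 2 ^ n * M < 2 ^ (B - 1))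
    (up : Bool) (g : ℕ → Bool) :
    halfF A up (biased (biasC B (O * (n + 1) * S)) P) g =
      g (biased (biasC B (O * (n + 1) * S))
        (roundP n (biasC B (O * (n + 1) * S)) (lowC B (O * (n + 1) * S) n)
          (biasR B (O * (n + 1) * S) n)
          (bif up then halfHi (axC B O n S) P else halfLo (axC B O n S) P))) := by
  set J := O * (n + 1) * S with hJ
  have hB : 0 < B := by omega
  simp only [AxQ.good, Bool.and_eq_true, beq_iff_eq] at hg
  obtain ⟨⟨⟨⟨⟨gn, gBS⟩, glow⟩, gD⟩, gl⟩, gr⟩ := hg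
  rw [← hJ] at glow gD
  have hM1 : M < 2 ^ (B - 1 - n) := by
    by_contra hle
    have hp : 2 ^ n * 2 ^ (B - 1 - n) = 2 ^ (B - 1) := by rw [← pow_add]; congr 1; omega
    have := Nat.mul_le_mul_left (2 ^ n) (not_lt.1 hle)
    omega
  have hM0 : M < 2 ^ (B - 1) :=
    hM1.trans_le (Nat.pow_le_pow_right (by norm_num) (by omega))
  set d := fun j => if j < J then (c j + 2 ^ (B - 1 - n)).toNat else 0 with hd
  have hdc : ∀ j < J, (d j : ℤ) = c j + 2 ^ (B - 1 - n) := fun j hj => by
    have := abs_le.1 (h.bound j hj)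
    have h2 : (M : ℤ) < 2 ^ (B - 1 - n) := by exact_mod_cast hM1
    simp only [hd, if_pos hj]
    rw [Int.toNat_of_nonneg (by linarith)]
  have hdlt : ∀ j < J, d j < 2 ^ (B - n) := fun j hj => by
    have := abs_le.1 (h.bound j hj)
    have h2 : (M : ℤ) < 2 ^ (B - 1 - n) := by exact_mod_cast hM1
    have h3 : (d j : ℤ) < 2 ^ (B - n) := by
      rw [hdc j hj, show B - n = B - 1 - n + 1 by omega, pow_succ]; linarith
    exact_mod_cast h3
  have hQ : biased (biasC B J) P - A.D = packN B J d := by
    have e0 : ((packN B J d : ℕ) : ℤ) = P + ((biasR B J n : ℕ) : ℤ) := by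
      rw [← pack_cast, biasR, rep_mul_eq hB, ← pack_cast, h.eq, ← pack_add]
      exact pack_congr fun j hj => by rw [Pi.add_apply, hdc j hj]; push_cast; rfl
    have := biased_eq h hB hM0
    have e1 : P + ((biasC B J : ℕ) : ℤ) = ((packN B J (dig B J c) : ℕ) : ℤ) := by
      rw [← this, biased, Int.ofNat_eq_natCast, Int.toNat_of_nonneg]
      have : (0 : ℤ) ≤ ((packN B J d : ℕ) : ℤ) := Int.natCast_nonneg _
      omega
    rw [this]
    omega
  have hl : A.left = masks (maskL B O (n + 1) S) n := by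
    rw [gl, masks, masks]
    exact List.map_congr_left fun r _ => by
      rw [maskFast_eq hB (by omega) hS, maskL]; simp
  have hr : A.right = masks (maskR B O (n + 1) S) n := by
    rw [gr, masks, masks]
    exact List.map_congr_left fun r _ => by
      rw [maskFast_eq hB (by omega) hS, maskR]; simp
  rw [halfF, forceS_eq, hQ, gBS, hl, hr, masks, masks, hJ,
    rounds_packN hS up n 1 (B - n) d le_rfl (by omega) hdlt (fun j hj => if_neg (by omega)), ← hJ]
  set g0 := gslices (n + 1) S c
  have hb : ∀ a ∈ g0, ∀ o < O, ∀ r < S, |a o r| ≤ (M : ℤ) := gslices_bound h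
  have hl0 : g0.length = n + 1 := by simp [g0, gslices]
  set q := bif up then dR dblG n g0 else dL dblG n g0 with hq
  have hql : q.length = n + 1 := by
    cases up
    · exact length_dL _ _ _ hl0
    · simp [hq, dR, length_dL _ _ _ (show g0.reverse.length = n + 1 by simpa)]
  have hP : Packs B J (2 ^ n * M)
      (bif up then halfHi (axC B O n S) P else halfLo (axC B O n S) P) (glue (n + 1) S q) := by
    cases up
    · simp only [cond_false, halfLo, slices_eq h hB hS hM0]
      simp only [axC, hq, cond_false]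
      rw [← map_dL pk_add pk_dblG]
      exact packs_glue (by simpa [hq] using hql) fun a ha o ho r hr => by
        push_cast; exact dL_bound n g0 hb a ha o ho r hr
    · simp only [cond_true, halfHi, slices_eq h hB hS hM0]
      simp only [axC, hq, cond_true]
      rw [← map_dR pk_add pk_dblG]
      exact packs_glue (by simpa [hq] using hql) fun a ha o ho r hr => by
        push_cast
        exact dL_bound n g0.reverse (fun a ha => hb a (List.mem_reverse.1 ha)) a
          (List.mem_reverse.1 ha) o ho r hr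
  congr 1
  have hR : biasR B J n ≤ biasC B J := by omega
  rw [roundP, biased_subNatNat _ _ _ hR, biased_eq hP hB hM, roundQ, gn, glow,
    show A.D = biasC B J - biasR B J n by omega]
  refine congrArg (fun x => (x >>> n &&& lowC B J n) + (biasC B J - biasR B J n))
    (packN_congr fun j hj => ?_)
  have hm : posA (n + 1) S j < n + 1 := Nat.mod_lt _ (by omega)
  have ho : j / S / (n + 1) < O := by
    rw [Nat.div_lt_iff_lt_mul (by omega), Nat.div_lt_iff_lt_mul hS]; exact hj
  have ht : j % S < S := Nat.mod_lt _ hS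
  have hix : ix (n + 1) S (j / S / (n + 1)) (posA (n + 1) S j) (j % S) = j := by
    simp only [ix, posA]
    rw [Nat.mul_comm (j / S / (n + 1)), Nat.div_add_mod, Nat.mul_comm, Nat.div_add_mod]
  set i := bif up then n - posA (n + 1) S j else posA (n + 1) S j with hi
  have hin : i ≤ n := by cases up <;> simp [hi] <;> omega
  have hii : (bif up then n - i else i) = posA (n + 1) S j := by
    cases up <;> simp [hi]; omega
  set o := j / S / (n + 1)
  set t := j % S
  have fib := itD_fibre hS up ho ht n 1 le_rfl d i hin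
  rw [hii, hix] at fib
  have fd : ∀ l ≤ n, (d (ix (n + 1) S o (bif up then n - l else l) t) : ℤ) =
      c (ix (n + 1) S o (bif up then n - l else l) t) + 2 ^ (B - 1 - n) := fun l hl =>
    hdc _ (ix_lt ho (by cases up <;> simp <;> omega) ht)
  rw [itS_congr n 1 n _ _ fd i hin, itS_shift] at fib
  have hpow : (2 : ℤ) ^ n * 2 ^ (B - 1 - n) = 2 ^ (B - 1) := by rw [← pow_add]; congr 1; omega
  have key : glue (n + 1) S q j =
      itS n 1 (fun l => c (ix (n + 1) S o (bif up then n - l else l) t)) i := by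
    have ev : ∀ p : List Ghost, (dL dblG n p).map (fun a => a o t) =
        dL dblZ n (p.map fun a => a o t) :=
      map_dL (fun _ _ => rfl) (fun k a => by simp [dblG, dblZ, shlZ_eq]) n
    have get : ∀ (p : List Ghost) (l : ℕ), (p.getD l 0) o t = (p.map fun a => a o t).getD l 0 :=
      fun p l => (List.getD_map p (0 : Ghost) fun a => a o t).symm
    have hqi : glue (n + 1) S q j = (q.getD (posA (n + 1) S j) 0) o t := rfl
    cases up
    · simp only [cond_false] at hi ⊢
      rw [hqi, hi, hq, cond_false, get, ev, getD_dL_itS n _ _ (by simpa using hl0) (by omega)]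
      refine itS_congr _ _ n _ _ (fun l hl => ?_) _ (by omega)
      rw [← get, getD_gslices c (by omega)]
    · simp only [cond_true] at hi ⊢
      rw [hqi, hq, cond_true, dR, List.getD_reverse _ (by
        rw [length_dL _ _ _ (show g0.reverse.length = n + 1 by simpa)]; omega),
        length_dL _ _ _ (show g0.reverse.length = n + 1 by simpa), Nat.add_sub_cancel, get, ev,
        getD_dL_itS n _ _ (by simpa using hl0) (by omega), hi]
      refine itS_congr _ _ n _ _ (fun l hl => ?_) _ (by omega)
      rw [← get, List.getD_reverse _ (by omega), hl0, Nat.add_sub_cancel, getD_gslices c (by omega)]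
  rw [hpow, ← key, ← dig_spec hP hM hj] at fib
  exact_mod_cast fib

/-! ### Agreement of the runs -/

/-- The constants agree with those of a layout. -/
def ConQ.good (Q : ConQ) (L : Lay) (M E : ℕ) : Bool :=
  Q.M == M && Q.E == E && Q.cap == 2 ^ (L.B - 1) && Q.H == biasC L.B L.size
    && Q.one == rep L.B 1 L.size
    && Nat.blt L.n₀ L.B && Nat.blt L.n₁ L.B && Nat.blt L.n₂ L.B && Nat.blt L.n₃ L.B
    && Q.k0.good L.B (L.outer 0) L.n₀ (L.stride 0) && Q.k1.good L.B (L.outer 1) L.n₁ (L.stride 1)
    && Q.k2.good L.B (L.outer 2) L.n₂ (L.stride 2) && Q.k3.good L.B (L.outer 3) L.n₃ (L.stride 3)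

/-- All values pack arrays bounded by `N`. -/
def Packed (L : Lay) (N : ℕ) (Ps : List ℤ) : Prop :=
  ∀ x ∈ Ps, ∃ c, Packs L.B L.size N x c

theorem mapH_eq {L : Lay} {A : AxQ} (a : Fin 4)
    (hg : A.good L.B (L.outer a) (L.deg a) (L.stride a) = true) (hk : L.deg a < L.B) {N : ℕ}
    (hN : 2 ^ L.deg a * N < 2 ^ (L.B - 1)) (up : Bool) :
    ∀ (Ps : List ℤ), Packed L N Ps → ∀ k : List ℕ → Bool,
      mapH A up (Ps.map (biased (biasC L.B L.size))) k =
        k ((Ps.map (bif up then L.hi a else L.lo a)).map (biased (biasC L.B L.size)))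
  | [], _, _ => rfl
  | P :: Ps, hp, k => by
    obtain ⟨c, hc⟩ := hp P (by simp)
    rw [L.size_eq a] at hc
    have e := L.size_eq a
    rw [List.map_cons, mapH, e, halfF_eq hg hc (L.stride_pos a) hk hN up, ← e,
      mapH_eq a hg hk hN up Ps (fun x hx => hp x (List.mem_cons_of_mem _ hx))]
    cases up <;> simp [Lay.lo, Lay.hi, Lay.ax, e]

theorem packed_half {L : Lay} (a : Fin 4) (hk : L.deg a < L.B) {N : ℕ}
    (hN : 2 ^ L.deg a * N < 2 ^ (L.B - 1)) {Ps : List ℤ} (hp : Packed L N Ps) (up : Bool) :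
    Packed L (N + 1) (Ps.map (bif up then L.hi a else L.lo a)) := by
  intro x hx
  obtain ⟨P, hP, rfl⟩ := List.mem_map.1 hx
  obtain ⟨c, hc⟩ := hp P hP
  have := halved (E := 0) (f := fun u => value L.size (L.W u) c) a
    ⟨c, hc, fun u _ => by simp⟩ hk hN
  cases up
  · obtain ⟨d, hd, -⟩ := this.1; exact ⟨d, hd⟩
  · obtain ⟨d, hd, -⟩ := this.2; exact ⟨d, hd⟩

/-- The values above minus the bias. -/
def AboveH (H : ℕ) (Ps : List ℤ) : Prop := ∀ x ∈ Ps, 0 ≤ x + (H : ℤ)

theorem above_half {L : Lay} (a : Fin 4) (hk : L.deg a < L.B) (Ps : List ℤ) (up : Bool) :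
    AboveH (biasC L.B L.size) (Ps.map (bif up then L.hi a else L.lo a)) := by
  intro x hx
  obtain ⟨P, -, rfl⟩ := List.mem_map.1 hx
  have hR : biasR L.B L.size (L.deg a) ≤ biasC L.B L.size :=
    Nat.mul_le_mul_right _ (Nat.pow_le_pow_right (by norm_num) (by omega))
  cases up <;> simp only [cond_false, cond_true, Lay.lo, Lay.hi, roundP, Int.subNatNat_eq_coe] <;> omega

theorem sumsQ_eq (H : ℕ) : ∀ (cs : List ℤ) (Ps : List ℤ) (P N a b : ℕ) (k : ℕ → ℕ → ℕ → ℕ → Bool),
    (∀ x ∈ Ps, 0 ≤ x + (H : ℤ)) →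
    ∃ P' N' a' b' : ℕ, sumsQ cs (Ps.map (biased H)) P N a b k = k P' N' a' b' ∧
      (P' : ℤ) - N' - ((a' : ℤ) - b') * H = (P : ℤ) - N - ((a : ℤ) - b) * H + dot cs Ps
  | [], Ps, P, N, a, b, k, _ => ⟨P, N, a, b, by cases Ps <;> rfl, by cases Ps <;> simp [dot]⟩
  | c :: cs, [], P, N, a, b, k, _ => by
    refine ⟨P, N, a, b, ?_, by simp [dot]⟩
    rcases c with (_ | c) | c <;> rfl
  | c :: cs, x :: Ps, P, N, a, b, k, hx => by
    have hq : ((biased H x : ℕ) : ℤ) = x + H := by
      rw [biased, Int.ofNat_eq_natCast, Int.toNat_of_nonneg (hx x (by simp))]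
    have hr : ∀ y ∈ Ps, 0 ≤ y + (H : ℤ) := fun y hy => hx y (List.mem_cons_of_mem _ hy)
    rcases c with (_ | c) | c
    · obtain ⟨P', N', a', b', e1, e2⟩ := sumsQ_eq H cs Ps P N a b k hr
      exact ⟨P', N', a', b', e1, by simpa [dot] using e2⟩
    · obtain ⟨P', N', a', b', e1, e2⟩ := sumsQ_eq H cs Ps (P + (c + 1) * biased H x) N (a + (c + 1)) b k hr
      refine ⟨P', N', a', b', by rw [List.map_cons, sumsQ, forceS_eq]; exact e1, e2.trans ?_⟩
      rw [dot, beq_eq_false_iff_ne.2 (show Int.ofNat (c + 1) ≠ 0 by simp; omega), cond_false,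
        Int.ofNat_eq_natCast]
      push_cast [hq]; ring
    · obtain ⟨P', N', a', b', e1, e2⟩ := sumsQ_eq H cs Ps P (N + (c + 1) * biased H x) a (b + (c + 1)) k hr
      refine ⟨P', N', a', b', by rw [List.map_cons, sumsQ, forceS_eq]; exact e1, e2.trans ?_⟩
      rw [dot, beq_eq_false_iff_ne.2 (show Int.negSucc c ≠ 0 by simp), cond_false]
      push_cast [hq, Int.negSucc_eq]; ring

theorem testQ_eq {Q : ConQ} {K : Con} (hM : Q.M = K.M) (hE : Q.E = K.E) (hcap : Q.cap = K.cap)
    (hH : Q.H = K.H) (hone : K.one = Int.ofNat Q.one) (n : ℕ) (Ps cs : List ℤ)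
    (hx : ∀ x ∈ Ps, 0 ≤ x + (K.H : ℤ)) :
    testQ Q n (Ps.map (biased K.H)) cs = testC K n Ps cs := by
  cases cs with
  | nil => rfl
  | cons c cs =>
    simp only [testQ, testC, forceN_eq, hM, hE, hcap, hH]
    congr 1
    obtain ⟨P', N', a', b', e1, e2⟩ := sumsQ_eq K.H cs Ps 0 0 0 0 _ hx
    rw [e1, nonnegP, biased, hone]
    congr 2
    simp only [Int.negOfNat_eq, Int.ofNat_eq_natCast]
    have hc := Int.toNat_sub_toNat_neg c
    push_cast at e2 hc ⊢
    have : (c : ℤ) * Q.one + dot cs Ps + -(((sumAbs cs : ℕ) : ℤ) * ((K.E : ℤ) + n)) * Q.one + K.H =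
        (((P' + c.toNat * Q.one + (b' + 1) * K.H : ℕ) : ℤ) -
          ((N' + ((-c).toNat + sumAbs cs * (K.E + n)) * Q.one + a' * K.H : ℕ) : ℤ)) := by
      push_cast
      linear_combination (-1 : ℤ) * e2 + (Q.one : ℤ) * (-hc)
    rw [this]
    omega

theorem good_parts {Q : ConQ} {L : Lay} {M E : ℕ} (hg : Q.good L M E = true) :
    (Q.M = M ∧ Q.E = E ∧ Q.cap = 2 ^ (L.B - 1) ∧ Q.H = biasC L.B L.size ∧
      Q.one = rep L.B 1 L.size ∧ 0 < L.B ∧ ∀ a, L.deg a < L.B) ∧
    ∀ s : Dir, ∃ a : Fin 4, (s.axQ Q).good L.B (L.outer a) (L.deg a) (L.stride a) = true ∧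
      s.axK (L.con M E) = L.axK a := by
  simp only [ConQ.good, Bool.and_eq_true, beq_iff_eq, Nat.blt_eq] at hg
  obtain ⟨⟨⟨⟨⟨⟨⟨⟨⟨⟨⟨⟨h1, h2⟩, h3⟩, h4⟩, h5⟩, b0⟩, b1⟩, b2⟩, b3⟩, g0⟩, g1⟩, g2⟩, g3⟩ := hg
  refine ⟨⟨h1, h2, h3, h4, h5, by omega, fun a => by fin_cases a <;> assumption⟩, fun s => ?_⟩
  cases s
  · exact ⟨0, g0, rfl⟩
  · exact ⟨1, g1, rfl⟩
  · exact ⟨2, g2, rfl⟩
  · exact ⟨3, g3, rfl⟩

theorem axis_imp {Q : ConQ} {L : Lay} {M E : ℕ} (h1 : Q.M = M) (h3 : Q.cap = 2 ^ (L.B - 1))
    {a : Fin 4} {A : AxQ} (gA : A.good L.B (L.outer a) (L.deg a) (L.stride a) = true)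
    (hk : L.deg a < L.B) (up : Bool) {n : ℕ} {Ps : List ℤ} (hp : Packed L (M + n) Ps)
    {f : List ℕ → Bool} {g : List ℤ → Bool}
    (hf : ∀ Ps', Packed L (M + (n + 1)) Ps' → AboveH (biasC L.B L.size) Ps' →
      f (Ps'.map (biased (biasC L.B L.size))) = true → g Ps' = true)
    (hh : halveQ Q A n = true) (h : mapH A up (Ps.map (biased (biasC L.B L.size))) f = true) :
    halveOK (L.con M E) (L.axK a) n = true ∧
      g (Ps.map (bif up then (L.axK a).hi else (L.axK a).lo)) = true := by
  have gn : A.n = L.deg a := by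
    simp only [AxQ.good, Bool.and_eq_true, beq_iff_eq] at gA; exact gA.1.1.1.1.1
  simp only [halveQ, gn, h1, h3, Nat.blt_eq] at hh
  rw [mapH_eq a gA hk hh up Ps hp] at h
  refine ⟨by simp only [halveOK, Lay.con, Lay.axK, Nat.blt_eq]; exact hh, ?_⟩
  have := hf _ (packed_half a hk hh hp up) (above_half a hk Ps up) h
  cases up
  · exact this
  · exact this

/-- An accepted run on biased values is an accepted run. -/
theorem runQ_imp {Q : ConQ} {L : Lay} {M E : ℕ} (hg : Q.good L M E = true)
    (chk : (List ℤ → Bool) → ℕ → ℕ → α → Bool) :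
    ∀ (T : Tree α) (n i d : ℕ) (Ps : List ℤ), Packed L (M + n) Ps → AboveH (biasC L.B L.size) Ps →
      runQ Q chk T n i d (Ps.map (biased (biasC L.B L.size))) = true →
        run (L.con M E) chk T n i d Ps = true := by
  obtain ⟨⟨h1, h2, h3, h4, h5, hB, hd⟩, -⟩ := good_parts hg
  simp only [ConQ.good, Bool.and_eq_true] at hg
  obtain ⟨⟨⟨⟨-, g0⟩, g1⟩, g2⟩, g3⟩ := hg
  intro T
  induction T with
  | leaf x =>
    intro n i d Ps _ hx h
    simp only [runQ] at h
    rw [show testQ Q n (Ps.map (biased (biasC L.B L.size))) = testC (L.con M E) n Ps from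
      funext fun cs => testQ_eq (K := L.con M E) h1 h2 h3 h4
        (by simp [Lay.con, h5]) n Ps cs hx] at h
    simpa [run] using h
  | s0 l r ihl ihr =>
    intro n i d Ps hp _ h
    simp only [runQ, Bool.and_eq_true] at h
    obtain ⟨e, x⟩ := axis_imp (E := E) (a := 0) h1 h3 g0 (hd 0) false hp (ihl _ _ _) h.1 h.2.1
    obtain ⟨-, y⟩ := axis_imp (E := E) (a := 0) h1 h3 g0 (hd 0) true hp (ihr _ _ _) h.1 h.2.2
    simp only [run, mapF_eq, Bool.and_eq_true]
    exact ⟨e, x, y⟩
  | s1 l r ihl ihr =>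
    intro n i d Ps hp _ h
    simp only [runQ, Bool.and_eq_true] at h
    obtain ⟨e, x⟩ := axis_imp (E := E) (a := 1) h1 h3 g1 (hd 1) false hp (ihl _ _ _) h.1 h.2.1
    obtain ⟨-, y⟩ := axis_imp (E := E) (a := 1) h1 h3 g1 (hd 1) true hp (ihr _ _ _) h.1 h.2.2
    simp only [run, mapF_eq, Bool.and_eq_true]
    exact ⟨e, x, y⟩
  | s2 l r ihl ihr =>
    intro n i d Ps hp _ h
    simp only [runQ, Bool.and_eq_true] at h
    obtain ⟨e, x⟩ := axis_imp (E := E) (a := 2) h1 h3 g2 (hd 2) false hp (ihl _ _ _) h.1 h.2.1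
    obtain ⟨-, y⟩ := axis_imp (E := E) (a := 2) h1 h3 g2 (hd 2) true hp (ihr _ _ _) h.1 h.2.2
    simp only [run, mapF_eq, Bool.and_eq_true]
    exact ⟨e, x, y⟩
  | s3 l r ihl ihr =>
    intro n i d Ps hp _ h
    simp only [runQ, Bool.and_eq_true] at h
    obtain ⟨e, x⟩ := axis_imp (E := E) (a := 3) h1 h3 g3 (hd 3) false hp (ihl _ _ _) h.1 h.2.1
    obtain ⟨-, y⟩ := axis_imp (E := E) (a := 3) h1 h3 g3 (hd 3) true hp (ihr _ _ _) h.1 h.2.2
    simp only [run, mapF_eq, Bool.and_eq_true]
    exact ⟨e, x, y⟩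

theorem runPathQ_imp {Q : ConQ} {L : Lay} {M E : ℕ} (hg : Q.good L M E = true)
    (chk : (List ℤ → Bool) → ℕ → ℕ → α → Bool) (T : Tree α) :
    ∀ (p : List Dir) (n i d : ℕ) (Ps : List ℤ), Packed L (M + n) Ps →
      AboveH (biasC L.B L.size) Ps →
      runPathQ Q chk p T n i d (Ps.map (biased (biasC L.B L.size))) = true →
        runPath (L.con M E) chk p T n i d Ps = true := by
  obtain ⟨⟨h1, -, h3, -, -, -, hd⟩, gs⟩ := good_parts hg
  intro p
  induction p with
  | nil => intro n i d Ps hp hx h; exact runQ_imp hg chk T n i d Ps hp hx h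
  | cons s p ih =>
    intro n i d Ps hp _ h
    obtain ⟨a, gA, eA⟩ := gs s
    simp only [runPathQ, Bool.and_eq_true] at h
    obtain ⟨e, x⟩ := axis_imp (E := E) h1 h3 gA (hd a) s.up hp (ih _ _ _) h.1 h.2
    simp only [runPath, mapF_eq, Bool.and_eq_true, eA]
    refine ⟨e, ?_⟩
    cases s with
    | d0 b => cases b <;> (simp only [Dir.axK] at eA; simpa [Dir.half, Dir.up, eA] using x)
    | d1 b => cases b <;> (simp only [Dir.axK] at eA; simpa [Dir.half, Dir.up, eA] using x)
    | d2 b => cases b <;> (simp only [Dir.axK] at eA; simpa [Dir.half, Dir.up, eA] using x)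
    | d3 b => cases b <;> (simp only [Dir.axK] at eA; simpa [Dir.half, Dir.up, eA] using x)

/-- The data of the biased values. -/
def unbias (H : ℕ) (Qs : List ℕ) : List ℤ := Qs.map fun q => Int.subNatNat q H

/-- Equality of the data of two ends. -/
def NodeD.same (N M : NodeD) : Bool :=
  N.r00 == M.r00 && N.r01 == M.r01 && N.r02 == M.r02 && N.r11 == M.r11 && N.r12 == M.r12
    && N.r22 == M.r22 && N.o == M.o && N.m0 == M.m0 && N.n0 == M.n0 && N.m1 == M.m1 && N.n1 == M.n1
    && N.m2 == M.m2 && N.n2 == M.n2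

/-- The tests of one strip apart from those of its ends. -/
def kapC (C : SegC) (test : List ℤ → Bool) (i d : ℕ) (a b : ℤ) (S T : ℕ × ℕ) (N M : NodeD) : Bool :=
  Nat.ble (i + 1) (2 ^ d)
    && test (b1C (-Int.ofNat (3 * N.o * sigB S i d)) a b (Int.ofNat (2 ^ (d + C.ob))))
    && test (b1C (-Int.ofNat (3 * M.o * sigB T i d)) (a - 1) (b + 1) (Int.ofNat (2 ^ (d + C.ob))))
    && test (b1C (-Int.ofNat (3 * (N.o * M.o * (sigB S i d + sigB T i d))))
      (N.o * a + M.o * (a - 1)) (N.o * b + M.o * (b + 1)) (Int.ofNat (2 ^ (d + C.ob))))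

/-- The check of a leaf, equal data at a common end checked once. -/
def chkQ (C : SegC) (test : List ℤ → Bool) (i d : ℕ) : LeafX → Bool
  | .skip a b => chkX C test i d (.skip a b)
  | .box k0 k1 k2 k3 k4 k5 => kapC C test i d 3 0 C.S0 C.S1 k0 k1
      && kapC C test i d 2 1 C.S2 C.S3 k2 k3 && kapC C test i d 1 2 C.S4 C.S5 k4 k5
      && k0.chk C 3 0 test && k1.chk C 2 1 test && (k2.same k1 || k2.chk C 2 1 test)
      && k3.chk C 1 2 test && (k4.same k3 || k4.chk C 1 2 test) && k5.chk C 0 3 test

theorem NodeD.same_eq {N M : NodeD} (h : N.same M = true) : N = M := by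
  cases N; cases M; simp only [NodeD.same, Bool.and_eq_true, beq_iff_eq] at h; simp [h]

theorem chkQ_eq : chkQ = chkX := by
  funext C test i d x
  cases x with
  | skip a b => rfl
  | box k0 k1 k2 k3 k4 k5 =>
    have h1 : (k1.chk C 2 1 test && (k2.same k1 || k2.chk C 2 1 test)) =
        (k1.chk C 2 1 test && k2.chk C 2 1 test) := by
      cases h : k2.same k1
      · rfl
      · rw [NodeD.same_eq h]; cases k1.chk C 2 1 test <;> rfl
    have h2 : (k3.chk C 1 2 test && (k4.same k3 || k4.chk C 1 2 test)) =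
        (k3.chk C 1 2 test && k4.chk C 1 2 test) := by
      cases h : k4.same k3
      · rfl
      · rw [NodeD.same_eq h]; cases k3.chk C 1 2 test <;> rfl
    simp only [chkQ, chkX, stripC, kapC, Bool.and_assoc] at h1 h2 ⊢
    norm_num
    rw [Bool.eq_iff_iff] at h1 h2 ⊢
    simp only [Bool.and_eq_true] at h1 h2 ⊢
    tauto

/-- An accepted fast check of a piece of a tree. -/
theorem runPath_of_fast {Q : ConQ} {L : Lay} {M E : ℕ} (hg : Q.good L M E = true) {C : SegC}
    {p : List Dir} {T : Tree LeafX} {Qs : List ℕ} (hp : Packed L M (unbias (biasC L.B L.size) Qs))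
    (h : runPathQ Q (chkQ C) p T 0 0 0 Qs = true) :
    runPath (L.con M E) (chkX C) p T 0 0 0 (unbias (biasC L.B L.size) Qs) = true := by
  have hx : AboveH (biasC L.B L.size) (unbias (biasC L.B L.size) Qs) := fun x hx => by
    obtain ⟨q, -, rfl⟩ := List.mem_map.1 hx
    rw [Int.subNatNat_eq_coe]; omega
  have e : (unbias (biasC L.B L.size) Qs).map (biased (biasC L.B L.size)) = Qs := by
    rw [unbias, List.map_map]
    refine (List.map_congr_left fun q _ => ?_).trans (List.map_id Qs)
    simp [biased, Int.subNatNat_eq_coe]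
  rw [chkQ_eq] at h
  exact runPathQ_imp hg _ T p 0 0 0 _ hp hx (by rw [e]; exact h)

end Vale.Agent.P098.Six
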