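import Vale.Agent.P098.Six.Fast
import Vale.Agent.P098.Six.Reduce

/-!
# P098, six dimensions: leaves where the middle ends follow from the outer ends

The entries of the form are affine along the range of the cubic invariant. With `kap` affine as
well, the form at a middle end is nonnegative once it is so at the two outer ends; then the middle
end needs only an inequality between the entries `νν`.
-/

namespace Vale.Agent.P098.Six

/-- The end with weights `(3 - j, j)` follows from the outer ends `N₀`, `N₃`. -/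
def midOK (N₀ N₃ N : NodeD) (j : ℕ) : Bool :=
  N.o != 0 && Nat.ble (3 * N₀.o * N₃.o) (N.o * ((3 - j) * N₃.o + j * N₀.o))

/-- A middle end: either interpolated, marked by a zero diagonal entry, or tested itself. -/
def endC (C : SegC) (test : List ℤ → Bool) (N₀ N₃ N : NodeD) (j : ℕ) : Bool :=
  bif N.r00 == 0 then midOK N₀ N₃ N j else N.chk C (3 - j : ℕ) j test

/-- The check of a leaf. -/
def chkL (C : SegC) (test : List ℤ → Bool) (i d : ℕ) : LeafX → Bool
  | .skip a b => chkX C test i d (.skip a b)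
  | .box k0 k1 k2 k3 k4 k5 => k0.chk C 3 0 test && k5.chk C 0 3 test
      && endC C test k0 k5 k1 1 && (k2.same k1 || endC C test k0 k5 k2 1)
      && endC C test k0 k5 k3 2 && (k4.same k3 || endC C test k0 k5 k4 2)
      && kapC C test i d 3 0 C.S0 C.S1 k0 k1 && kapC C test i d 2 1 C.S2 C.S3 k2 k3
      && kapC C test i d 1 2 C.S4 C.S5 k4 k5

/-- The form at an inner point follows from the forms at the ends. -/
theorem node_mid {V : Vals} {b k₀ k₃ k : ℝ} (hs : 0 ≤ V.s) (hb : 0 ≤ b) (hb' : b ≤ 3) (hk₀ : 0 < k₀)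
    (hk₃ : 0 < k₃) (hk : 0 < k) (h : 3 * k ≤ (3 - b) * k₀ + b * k₃) (h₀ : NodeOK V 0 k₀)
    (h₃ : NodeOK V 3 k₃) : NodeOK V b k := by
  intro p ν π
  have e0 : ∀ x : ℝ × ℝ, mix 0 x = x.1 := fun x => by simp [mix]
  have e3 : ∀ x : ℝ × ℝ, mix 3 x = x.2 := fun x => by simp [mix]
  have em : ∀ x : ℝ × ℝ, mix b x = (1 - b / 3) * x.1 + b / 3 * x.2 := fun x => by
    simp [mix]; ring
  simp only [NodeOK, e0] at h₀
  simp only [NodeOK, e3] at h₃
  have g := node_convex (th := b / 3) (by linarith) (by linarith) hs hk₀ hk₃ h₀ h₃ p ν π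
  set kap := (1 - b / 3) * k₀ + b / 3 * k₃
  have hle : k ≤ kap := by simp only [kap]; linarith
  have hν : ν ^ 2 / kap ≤ ν ^ 2 / k := div_le_div_of_nonneg_left (sq_nonneg ν) hk hle
  simp only [em]
  linarith [mul_le_mul_of_nonneg_left hν hs]

variable {C : SegC} {V : Vals} {test : List ℤ → Bool}

theorem endC_sound (hK : 0 < C.K) (ht : ∀ cs, test cs = true → 0 ≤ comb cs (1 :: V.list C.K))
    (hs : 0 ≤ V.s) (hd : 0 ≤ V.dom) {N₀ N₃ N : NodeD} (h₀ : N₀.chk C 3 0 test = true)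
    (h₃ : N₃.chk C 0 3 test = true) {j : ℕ} (hj : j ≤ 3) (h : endC C test N₀ N₃ N j = true) :
    0 < (N.o : ℝ) ∧ NodeOK V (j : ℝ) ((2 : ℝ) ^ C.ob / N.o) := by
  by_cases e : N.r00 = 0
  · simp only [endC, e, beq_self_eq_true, cond_true, midOK, Bool.and_eq_true, bne_iff_ne, ne_eq,
      Nat.ble_eq] at h
    obtain ⟨ho, hle⟩ := h
    obtain ⟨o₀, n₀⟩ := NodeD.chk_sound hK ht hs hd (by norm_num) h₀
    obtain ⟨o₃, n₃⟩ := NodeD.chk_sound hK ht hs hd (by norm_num) h₃
    have ho' : (0 : ℝ) < N.o := by exact_mod_cast Nat.pos_of_ne_zero ho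
    push_cast at n₀ n₃
    have hle' : (((3 * N₀.o * N₃.o : ℕ)) : ℝ) ≤ ((N.o * ((3 - j) * N₃.o + j * N₀.o) : ℕ) : ℝ) := by
      exact_mod_cast hle
    push_cast [Nat.cast_sub hj] at hle'
    refine ⟨ho', node_mid hs (Nat.cast_nonneg j) (by exact_mod_cast hj) (by positivity)
      (by positivity) (by positivity) ?_ n₀ n₃⟩
    have h2 : (0 : ℝ) < 2 ^ C.ob := by positivity
    field_simp
    nlinarith [mul_le_mul_of_nonneg_left hle' h2.le]
  · simp only [endC, beq_eq_false_iff_ne.2 e, cond_false] at h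
    have := NodeD.chk_sound hK ht hs hd (by rw [Nat.cast_sub hj]; ring) h
    exact_mod_cast this

theorem kapC_sound (hK : 0 < C.K) (ht : ∀ cs, test cs = true → 0 ≤ comb cs (1 :: V.list C.K))
    {i d : ℕ} {a b : ℤ} {S T : ℕ × ℕ} {N M : NodeD} (oN : 0 < (N.o : ℝ)) (oM : 0 < (M.o : ℝ))
    (nN : NodeOK V b ((2 : ℝ) ^ C.ob / N.o)) (nM : NodeOK V (b + 1) ((2 : ℝ) ^ C.ob / M.o))
    (hab : a + b = 3) (h : kapC C test i d a b S T N M = true) {r : ℝ} (h0 : 0 ≤ r) (h1 : r ≤ 1) :
    StripOK V b (sigAt C S ((i + r) / 2 ^ d)) (sigAt C T ((i + r) / 2 ^ d)) := by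
  simp only [kapC, Bool.and_eq_true, Nat.ble_eq] at h
  obtain ⟨⟨⟨hi, e0⟩, e1⟩, e2⟩ := h
  have hK' : (0 : ℝ) < C.K := by exact_mod_cast hK
  have bS := sigB_le (C := C) (S := S) hi h0 h1
  have bT := sigB_le (C := C) (S := T) hi h0 h1
  rw [le_div_iff₀ hK'] at bS bT
  have ha : (a : ℝ) = 3 - b := by
    rw [eq_sub_iff_add_eq]; exact_mod_cast hab
  replace e0 := ht _ e0; replace e1 := ht _ e1; replace e2 := ht _ e2
  simp only [b1C, comb, Vals.list, Int.ofNat_eq_natCast] at e0 e1 e2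
  push_cast [ha, pow_add] at e0 e1 e2
  set kN := (2 : ℝ) ^ C.ob / N.o with hkN
  set kM := (2 : ℝ) ^ C.ob / M.o with hkM
  have qN : (2 : ℝ) ^ C.ob = N.o * kN := by rw [hkN]; field_simp
  have qM : (2 : ℝ) ^ C.ob = M.o * kM := by rw [hkM]; field_simp
  refine ⟨kN, kM, by positivity, by positivity, ?_, ?_, ?_, nN, nM⟩
  · rw [qN] at e0
    have := mul_le_mul_of_nonneg_left bS (mul_nonneg (show (0 : ℝ) ≤ 3 by norm_num) oN.le)
    refine le_of_mul_le_mul_left ?_ (show (0 : ℝ) < 2 ^ d * C.K * (3 * N.o) by positivity)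
    simp only [mix]
    linarith
  · rw [qM] at e1
    have := mul_le_mul_of_nonneg_left bT (mul_nonneg (show (0 : ℝ) ≤ 3 by norm_num) oM.le)
    refine le_of_mul_le_mul_left ?_ (show (0 : ℝ) < 2 ^ d * C.K * (3 * M.o) by positivity)
    simp only [mix]
    linarith
  · have := mul_le_mul_of_nonneg_left (add_le_add bS bT)
      (mul_nonneg (show (0 : ℝ) ≤ 3 by norm_num) (mul_nonneg oN.le oM.le))
    refine le_of_mul_le_mul_left ?_ (show (0 : ℝ) < 2 ^ d * C.K * (3 * (N.o * M.o)) by positivity)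
    simp only [mix]
    linear_combination e2 + this + 2 ^ d * C.K * N.o * ((3 - b) * V.b1.1 + b * V.b1.2) * qM
      + 2 ^ d * C.K * M.o * ((3 - (b + 1)) * V.b1.1 + (b + 1) * V.b1.2) * qN

/-- A checked leaf has the property on its piece of the interval. -/
theorem chkL_sound (hK : 0 < C.K) (test : List ℤ → Bool) (i d : ℕ) (x : LeafX)
    (h : chkL C test i d x = true) (v : List ℝ) (r : ℝ)
    (ht : ∀ cs, test cs = true → 0 ≤ comb cs (1 :: v)) (h0 : 0 ≤ r) (h1 : r ≤ 1) :
    GoodX C v ((i + r) / 2 ^ d) := by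
  cases x with
  | skip a b => exact chkX_sound hK test i d (.skip a b) h v r ht h0 h1
  | box k0 k1 k2 k3 k4 k5 =>
    intro V hv hs hd
    subst hv
    simp only [chkL, Bool.and_eq_true, Bool.or_eq_true] at h
    obtain ⟨⟨⟨⟨⟨⟨⟨⟨c0, c5⟩, c1⟩, c2⟩, c3⟩, c4⟩, q0⟩, q1⟩, q2⟩ := h
    obtain ⟨o0, n0⟩ := NodeD.chk_sound hK ht hs hd (by norm_num) c0
    obtain ⟨o5, n5⟩ := NodeD.chk_sound hK ht hs hd (by norm_num) c5
    obtain ⟨o1, n1⟩ := endC_sound hK ht hs hd c0 c5 (by norm_num) c1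
    obtain ⟨o3, n3⟩ := endC_sound hK ht hs hd c0 c5 (by norm_num) c3
    have c2' : endC C test k0 k5 k2 1 = true := c2.elim (fun e => NodeD.same_eq e ▸ c1) id
    have c4' : endC C test k0 k5 k4 2 = true := c4.elim (fun e => NodeD.same_eq e ▸ c3) id
    obtain ⟨o2, n2⟩ := endC_sound hK ht hs hd c0 c5 (by norm_num) c2'
    obtain ⟨o4, n4⟩ := endC_sound hK ht hs hd c0 c5 (by norm_num) c4'
    push_cast at n0 n5 n1 n2 n3 n4
    refine ⟨?_, ?_, ?_⟩
    · simpa using kapC_sound hK ht (b := 0) o0 o1 (by simpa using n0) (by simpa using n1)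
        (by norm_num) q0 h0 h1
    · simpa using kapC_sound hK ht (b := 1) o2 o3 (by simpa using n2)
        (by norm_num; exact n3) (by norm_num) q1 h0 h1
    · simpa using kapC_sound hK ht (b := 2) o4 o5 (by simpa using n4)
        (by norm_num; exact n5) (by norm_num) q2 h0 h1

/-- An accepted fast check of a piece of a tree with such leaves. -/
theorem runPath_of_fastL {Q : ConQ} {L : Lay} {M E : ℕ} (hg : Q.good L M E = true) {C : SegC}
    {p : List Dir} {T : Tree LeafX} {Qs : List ℕ} (hp : Packed L M (unbias (biasC L.B L.size) Qs))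
    (h : runPathQ Q (chkL C) p T 0 0 0 Qs = true) :
    runPath (L.con M E) (chkL C) p T 0 0 0 (unbias (biasC L.B L.size) Qs) = true := by
  have hx : AboveH (biasC L.B L.size) (unbias (biasC L.B L.size) Qs) := fun x hx => by
    obtain ⟨q, -, rfl⟩ := List.mem_map.1 hx
    rw [Int.subNatNat_eq_coe]; omega
  have e : (unbias (biasC L.B L.size) Qs).map (biased (biasC L.B L.size)) = Qs := by
    rw [unbias, List.map_map]
    refine (List.map_congr_left fun q _ => ?_).trans (List.map_id Qs)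
    simp [biased, Int.subNatNat_eq_coe]
  exact runPathQ_imp hg _ T p 0 0 0 _ hp hx (by rw [e]; exact h)

end Vale.Agent.P098.Six
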