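import Vale.Agent.P098.Six.Pack
import Vale.Agent.P098.Six.Lin

/-!
# P098, six dimensions: the tests of a leaf from shared sums

A row of an end is three sums, the diagonal and two entries, and their four signed totals are tested
with one common bound on the error. An accepted fast leaf is an accepted leaf of `chkL`.
-/

namespace Vale.Agent.P098.Six

open Finset

/-! ### Signed accumulation -/

/-- Add `c` times `X`: a positive multiple to the first part, a negative one to the second. -/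
def addS : ℤ → ℕ → ℕ × ℕ → ℕ × ℕ
  | Int.ofNat 0, _, d => d
  | Int.ofNat (m + 1), X, d => (d.1 + (m + 1) * X, d.2)
  | Int.negSucc m, X, d => (d.1, d.2 + (m + 1) * X)

/-- The number a pair stands for. -/
def valS (d : ℕ × ℕ) : ℤ := (d.1 : ℤ) - d.2

theorem valS_addS (c : ℤ) (X : ℕ) (d : ℕ × ℕ) : valS (addS c X d) = valS d + c * X := by
  rcases c with (_ | m) | m <;> simp only [addS, valS, Int.ofNat_eq_natCast, Int.negSucc_eq] <;>
    push_cast <;> ring

theorem valS_zero : valS (0, 0) = 0 := rfl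

/-- Nonnegativity of all entries of the difference; `P` includes the bias. -/
def nonnegQ (H P N : ℕ) : Bool := Nat.beq ((P - N) &&& H) H

theorem nonnegQ_eq {H P N : ℕ} {X : ℤ} (h : (P : ℤ) - N = X + (H : ℤ)) :
    nonnegQ H P N = nonnegP H X := by
  rw [nonnegQ, nonnegP, biased, Int.ofNat_eq_natCast]
  congr 2
  omega

/-- The four totals of a row; `D` includes the bias. -/
def rowS (H : ℕ) (D U V : ℕ × ℕ) : Bool :=
  forceB (fun dp => forceB (fun dn => forceB (fun up => forceB (fun un => forceB (fun vp =>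
    forceB (fun vn =>
      forceB (fun a => forceB (fun b => nonnegQ H (a + vp) (b + vn) && nonnegQ H (a + vn) (b + vp))
          (dn + un)) (dp + up)
        && forceB (fun a => forceB (fun b => nonnegQ H (a + vp) (b + vn) && nonnegQ H (a + vn) (b + vp))
          (dn + up)) (dp + un))
      V.2) V.1) U.2) U.1) D.2) D.1

theorem rowS_eq (H : ℕ) (D U V : ℕ × ℕ) {D' : ℤ} (hD : valS D = D' + H) :
    rowS H D U V = ((nonnegP H (D' + 1 * valS U + 1 * valS V) &&
      nonnegP H (D' + 1 * valS U + (-1) * valS V)) && (nonnegP H (D' + (-1) * valS U + 1 * valS V) &&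
        nonnegP H (D' + (-1) * valS U + (-1) * valS V))) := by
  simp only [valS] at hD
  simp only [rowS, forceB_eq]
  refine congrArg₂ _ (congrArg₂ _ (nonnegQ_eq ?_) (nonnegQ_eq ?_))
    (congrArg₂ _ (nonnegQ_eq ?_) (nonnegQ_eq ?_)) <;>
    simp only [valS] <;> push_cast <;> linarith

/-! ### A stronger error bound is enough -/

theorem nonnegP_of {B J M : ℕ} {P : ℤ} {c : ℕ → ℤ} (h : Packs B J M P c) (hB : 0 < B)
    (hM : M < 2 ^ (B - 1)) (hc : ∀ j < J, 0 ≤ c j) : nonnegP (biasC B J) P = true := by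
  have hm : biasC B J = packN B J fun _ => 2 ^ (B - 1) := by
    rw [biasC, rep_mul_eq hB]
  rw [nonnegP, biased_eq h hB hM, hm, and_packN J _ _ (dig_lt h hB hM) fun j _ =>
    Nat.pow_lt_pow_right (by norm_num) (by omega)]
  rw [packN_congr (d := fun _ => 2 ^ (B - 1)) fun j hj => ?_]
  · exact Nat.beq_refl _
  have h1 : 2 ^ (B - 1) ≤ dig B J c j := by
    have h2 := dig_spec h hM hj
    have := hc j hj
    exact_mod_cast (show ((2 ^ (B - 1) : ℕ) : ℤ) ≤ (dig B J c j : ℤ) by push_cast; linarith)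
  have h2 : dig B J c j < 2 ^ (B - 1 + 1) := by
    rw [Nat.sub_add_cancel hB]; exact dig_lt h hB hM j hj
  rw [Nat.and_two_pow, Nat.testBit_of_two_pow_le_and_two_pow_add_one_gt h1 h2]
  simp

theorem packs_dot {B J N : ℕ} : ∀ (cs Ps : List ℤ), (∀ x ∈ Ps, ∃ c, Packs B J N x c) →
    ∃ d, Packs B J (sumAbs cs * N) (dot cs Ps) d
  | [], Ps, _ => ⟨0, ⟨by cases Ps <;> simp [dot, pack], fun j _ => by simp [sumAbs]⟩⟩
  | c :: cs, [], _ => ⟨0, ⟨by simp [dot, pack], fun j _ => by simp; positivity⟩⟩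
  | c :: cs, P :: Ps, h => by
    obtain ⟨d, hd⟩ := packs_dot cs Ps fun x hx => h x (List.mem_cons_of_mem _ hx)
    obtain ⟨e, he⟩ := h P (by simp)
    by_cases hc : c = 0
    · subst hc
      exact ⟨d, by simpa [dot, sumAbs] using hd⟩
    · refine ⟨c • e + d, ?_⟩
      simp only [dot, beq_eq_false_iff_ne.2 hc, cond_false, sumAbs, Nat.add_mul]
      exact (he.smul c).add hd

theorem dot_cons (c P : ℤ) (cs Ps : List ℤ) : dot (c :: cs) (P :: Ps) = c * P + dot cs Ps := by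
  by_cases hc : c = 0
  · subst hc; simp [dot]
  · simp [dot, beq_eq_false_iff_ne.2 hc]

/-- A test with a larger bound on the coefficients implies the test. -/
theorem testC_of_le {L : Lay} {M E n A C₀ : ℕ} {Ps cs : List ℤ} {c : ℤ} (hB : 0 < L.B)
    (hp : Packed L (M + n) Ps) (hA : sumAbs cs ≤ A) (hc : c.natAbs ≤ C₀)
    (hcap : C₀ + A * (M + n + (E + n)) < 2 ^ (L.B - 1))
    (h : nonnegP (biasC L.B L.size) (c * Int.ofNat (rep L.B 1 L.size) + dot cs Ps +
      Int.negOfNat (A * (E + n)) * Int.ofNat (rep L.B 1 L.size)) = true) :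
    testC (L.con M E) n Ps (c :: cs) = true := by
  have hA' : sumAbs cs * (M + n + (E + n)) ≤ A * (M + n + (E + n)) := Nat.mul_le_mul_right _ hA
  simp only [testC, forceN_eq, Lay.con, Bool.and_eq_true, Nat.blt_eq]
  refine ⟨by omega, ?_⟩
  obtain ⟨d, hd⟩ := packs_dot cs Ps hp
  have ho : Packs L.B L.size 1 (Int.ofNat (rep L.B 1 L.size)) fun _ => 1 :=
    ⟨by rw [packN_rep hB, Int.ofNat_eq_natCast, ← pack_cast]; simp, by simp⟩
  set e := Int.negOfNat (sumAbs cs * (E + n))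
  set e' := Int.negOfNat (A * (E + n))
  have p1 := ((ho.smul c).add hd).add (ho.smul e')
  have p2 := ((ho.smul c).add hd).add (ho.smul e)
  have b1 : c.natAbs * 1 + sumAbs cs * (M + n) + e'.natAbs * 1 < 2 ^ (L.B - 1) := by
    simp only [e', Int.natAbs_negOfNat, Nat.mul_one]
    have : sumAbs cs * (M + n) ≤ A * (M + n) := Nat.mul_le_mul_right _ hA
    rw [Nat.mul_add] at hcap
    omega
  have b2 : c.natAbs * 1 + sumAbs cs * (M + n) + e.natAbs * 1 < 2 ^ (L.B - 1) := by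
    simp only [e, Int.natAbs_negOfNat, Nat.mul_one]
    rw [Nat.add_assoc, ← Nat.mul_add]
    omega
  refine nonnegP_of p2 hB b2 fun j hj => ?_
  have := nonnegP_sound p1 hB b1 h j hj
  simp only [Pi.add_apply, Pi.smul_apply, smul_eq_mul, mul_one, e, e', Int.negOfNat_eq,
    Int.ofNat_eq_natCast] at this ⊢
  have : ((sumAbs cs * (E + n) : ℕ) : ℤ) ≤ ((A * (E + n) : ℕ) : ℤ) := by
    exact_mod_cast Nat.mul_le_mul_right _ hA
  linarith

/-! ### The tests of one end -/

/-- The polynomials of a leaf that an end uses, weighted, biased by multiples of `G`. -/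
structure EndV where
  G : ℕ
  s : ℕ
  dom : ℕ
  pp : ℕ
  pz : ℕ
  zz : ℕ
  pn : ℕ
  nz : ℕ
  spp : ℕ
  spz : ℕ
  spn : ℕ
  snz : ℕ

/-- The polynomials of an end with weights `u`, `v` in the unit `g = 3 * 2 ^ ob`. -/
def endV (g u v : ℕ) (Qs : List ℕ) (k : EndV → Bool) : Bool :=
  match Qs with
  | [s, dom, pp0, pp1, pz0, pz1, z0, z1, _, _, pn, nz, spp0, spp1, spz0, spz1, szz0, szz1, spn, snz] =>
    forceB (fun a1 => forceB (fun a2 => forceB (fun a3 => forceB (fun a4 => forceB (fun a5 =>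
      forceB (fun b1 => forceB (fun b2 => forceB (fun b3 => forceB (fun b4 =>
        k ⟨g, s, dom, a1, a2, a3, b1, b2, a4, a5, b3, b4⟩)
      (g * snz)) (g * spn)) (g * nz)) (g * pn))
      (u * spz0 + v * spz1)) (u * spp0 + v * spp1)) (u * (z0 + szz0) + v * (z1 + szz1)))
      (u * pz0 + v * pz1)) (u * pp0 + v * pp1)
  | _ => false

/-- The sum of the absolute values of the entries of a combination. -/
def C5.nrm (c : C5) : ℕ := c.pp.natAbs + c.pz.natAbs + c.pn.natAbs + c.nz.natAbs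

/-- The value of a plain combination, with coefficient `w` of one for the unit of `om`. -/
def plainS (V : EndV) (H one : ℕ) (w : ℤ) (c : C5) : ℕ × ℕ :=
  addS (-(V.G * (c.pp + c.pz + c.pn + c.nz))) H (addS (w * c.om) one
    (addS c.nz V.nz (addS c.pn V.pn (addS c.pz V.pz (addS c.pp V.pp (0, 0))))))

/-- The value of a combination with the factor `s`. -/
def scaledS (V : EndV) (H : ℕ) (w : ℤ) (c : C5) : ℕ × ℕ :=
  addS (-(V.G * (c.pp + c.pz + c.pn + c.nz) + w * c.om)) H (addS (w * c.om) V.s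
    (addS c.nz V.snz (addS c.pn V.spn (addS c.pz V.spz (addS c.pp V.spp (0, 0))))))

/-- The diagonal: multipliers, error and bias added. -/
def diagS (V : EndV) (H one : ℕ) (m n err : ℕ) (d : ℕ × ℕ) : ℕ × ℕ :=
  addS (Int.ofNat (m + n + 1)) H (addS (Int.negOfNat err) one
    (addS (Int.negOfNat n) V.dom (addS (Int.negOfNat m) V.s d)))

/-- A plain row; `K₃` is three times the scale. -/
def rowP (K : ConQ) (e n : ℕ) (V : EndV) (K₃ o m mn : ℕ) (d u v : C5) : Bool :=
  forceB (fun A => Nat.blt (K₃ * o * (d.om.natAbs + u.om.natAbs + v.om.natAbs) +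
      A * (K.M + n + (K.E + n))) K.cap &&
    rowS K.H (diagS V K.H K.one m mn (A * e) (plainS V K.H K.one (K₃ * o) d))
      (plainS V K.H K.one (K₃ * o) u) (plainS V K.H K.one (K₃ * o) v))
    (m + mn + V.G * (d.nrm + u.nrm + v.nrm))

/-- A row with the factor `s`; `zz` is the coefficient of `ππ`. -/
def rowZ (K : ConQ) (e n : ℕ) (V : EndV) (o m mn : ℕ) (zz : ℕ) (d u v : C5) : Bool :=
  forceB (fun A => Nat.blt (A * (K.M + n + (K.E + n))) K.cap &&
    rowS K.H (diagS V K.H K.one m mn (A * e)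
        (addS (-(2 * V.G * zz : ℕ)) K.H (addS zz V.zz (scaledS V K.H (3 * o) d))))
      (scaledS V K.H (3 * o) u) (scaledS V K.H (3 * o) v))
    (m + mn + 3 * o * (d.om.natAbs + u.om.natAbs + v.om.natAbs)
      + V.G * (2 * zz + (d.nrm + u.nrm + v.nrm)))

/-- The twelve tests of the end with weights `(3 - b, b)`. -/
def nodeR (K : ConQ) (C : SegC) (b n : ℕ) (Qs : List ℕ) (N : NodeD) : Bool :=
  forceB (fun E2 => forceB (fun e => endV (3 * E2) (E2 * (3 - b)) (E2 * b) Qs fun V =>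
    (N.o != 0 && N.r00 != 0 && N.r11 != 0 && N.r22 != 0)
      && rowP K e n V (3 * C.K) N.o N.m0 N.n0 N.u00 N.u01 N.u02
      && rowP K e n V (3 * C.K) N.o N.m1 N.n1 N.u11 N.u01 N.u12
      && rowZ K e n V N.o N.m2 N.n2 (N.r22 * N.r22).natAbs N.u22 N.u02 N.u12)
    (K.E + n)) (2 ^ C.ob)

/-! ### Soundness -/

/-- The hypotheses at a leaf. -/
structure LeafHyp (L : Lay) (M E n : ℕ) (K : ConQ) (Ps : List ℤ) : Prop where
  hB : 0 < L.B
  hM : K.M = M
  hE : K.E = E
  hcap : K.cap = 2 ^ (L.B - 1)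
  hH : K.H = biasC L.B L.size
  hone : K.one = rep L.B 1 L.size
  packed : Packed L (M + n) Ps
  above : AboveH (biasC L.B L.size) Ps

/-- What `endV` gives: twenty values and the weighted sums. -/
def EndVal (H g u v : ℕ) (Ps : List ℤ) (V : EndV) : Prop :=
  ∃ s dom pp0 pp1 pz0 pz1 z0 z1 q0 q1 pn nz spp0 spp1 spz0 spz1 szz0 szz1 spn snz : ℤ,
    Ps = [s, dom, pp0, pp1, pz0, pz1, z0, z1, q0, q1, pn, nz, spp0, spp1, spz0, spz1, szz0, szz1,
      spn, snz] ∧ V.G = g ∧ (V.s : ℤ) = s + H ∧ (V.dom : ℤ) = dom + H ∧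
    (V.pp : ℤ) = u * pp0 + v * pp1 + g * H ∧ (V.pz : ℤ) = u * pz0 + v * pz1 + g * H ∧
    (V.zz : ℤ) = u * (z0 + szz0) + v * (z1 + szz1) + 2 * g * H ∧
    (V.pn : ℤ) = g * pn + g * H ∧ (V.nz : ℤ) = g * nz + g * H ∧
    (V.spp : ℤ) = u * spp0 + v * spp1 + g * H ∧ (V.spz : ℤ) = u * spz0 + v * spz1 + g * H ∧
    (V.spn : ℤ) = g * spn + g * H ∧ (V.snz : ℤ) = g * snz + g * H

theorem endV_spec {H g u v : ℕ} (hg : g = u + v) {Ps : List ℤ} (ha : AboveH H Ps)
    {k : EndV → Bool} (h : endV g u v (Ps.map (biased H)) k = true) :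
    ∃ V, k V = true ∧ EndVal H g u v Ps V := by
  have hq : ∀ x ∈ Ps, ((biased H x : ℕ) : ℤ) = x + H := fun x hx => by
    rw [biased, Int.ofNat_eq_natCast, Int.toNat_of_nonneg (ha x hx)]
  match Ps, h with
  | [s, dom, pp0, pp1, pz0, pz1, z0, z1, q0, q1, pn, nz, spp0, spp1, spz0, spz1, szz0, szz1, spn, snz], h =>
    simp only [List.map_cons, List.map_nil, endV, forceB_eq] at h
    refine ⟨_, h, s, dom, pp0, pp1, pz0, pz1, z0, z1, q0, q1, pn, nz, spp0, spp1, spz0, spz1, szz0,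
      szz1, spn, snz, rfl, rfl, hq s (by simp), hq dom (by simp), ?_⟩
    simp only [List.mem_cons, forall_eq_or_imp] at hq
    obtain ⟨e1, e2, e3, e4, e5, e6, e7, e8, -, -, e11, e12, e13, e14, e15, e16, e17, e18, e19, e20, -⟩ := hq
    subst hg
    push_cast
    simp only [e3, e4, e5, e6, e7, e8, e11, e12, e13, e14, e15, e16, e17, e18, e19, e20]
    refine ⟨?_, ?_, ?_, ?_, ?_, ?_, ?_, ?_, ?_⟩ <;> ring

theorem natAbs_sign {e : ℤ} (he : e = 1 ∨ e = -1) (x : ℤ) : (e * x).natAbs = x.natAbs := by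
  rcases he with rfl | rfl <;> simp

theorem abs_add3 {x y z e f : ℤ} (he : e = 1 ∨ e = -1) (hf : f = 1 ∨ f = -1) :
    (x + e * y + f * z).natAbs ≤ x.natAbs + y.natAbs + z.natAbs := by
  have h1 := Int.natAbs_add_le (x + e * y) (f * z)
  have h2 := Int.natAbs_add_le x (e * y)
  rw [natAbs_sign hf] at h1
  rw [natAbs_sign he] at h2
  omega

variable {L : Lay} {M E n : ℕ} {K : ConQ} {Ps : List ℤ} {C : SegC} {b : ℕ}

theorem rowP_sound (hL : LeafHyp L M E n K Ps) (hb : b ≤ 3) {V : EndV}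
    (hV : EndVal (biasC L.B L.size) (3 * 2 ^ C.ob) (2 ^ C.ob * (3 - b)) (2 ^ C.ob * b) Ps V)
    {o m mn : ℕ} {d u v : C5}
    (h : rowP K (E + n) n V (3 * C.K) o m mn d u v = true) {e f : ℤ} (he : e = 1 ∨ e = -1)
    (hf : f = 1 ∨ f = -1) :
    testC (L.con M E) n Ps (plainC C ((3 - b : ℕ) : ℤ) b o m mn ((d.add u e).add v f)) = true := by
  obtain ⟨s, dom, pp0, pp1, pz0, pz1, z0, z1, q0, q1, pn, nz, spp0, spp1, spz0, spz1, szz0, szz1,
    spn, snz, hPs, hG, es, ed, epp, epz, -, epn, enz, -, -, -, -⟩ := hV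
  simp only [rowP, forceB_eq, Bool.and_eq_true, Nat.blt_eq, hL.hM, hL.hE, hL.hcap, hL.hH, hL.hone,
    hG] at h
  obtain ⟨hcap, hr⟩ := h
  set H := biasC L.B L.size
  set one := rep L.B 1 L.size
  set A := m + mn + 3 * 2 ^ C.ob * (d.nrm + u.nrm + v.nrm) with hA
  set D := diagS V H one m mn (A * (E + n)) (plainS V H one (((3 * C.K : ℕ) : ℤ) * o) d) with hD
  have vp : ∀ c : C5, valS (plainS V H one (((3 * C.K : ℕ) : ℤ) * o) c) =
      ((3 * C.K : ℕ) : ℤ) * o * c.om * one + c.pp * ((2 ^ C.ob * (3 - b) : ℕ) * pp0 + (2 ^ C.ob * b : ℕ) * pp1)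
        + c.pz * ((2 ^ C.ob * (3 - b) : ℕ) * pz0 + (2 ^ C.ob * b : ℕ) * pz1)
        + c.pn * ((3 * 2 ^ C.ob : ℕ) * pn) + c.nz * ((3 * 2 ^ C.ob : ℕ) * nz) := by
    intro c
    simp only [plainS, valS_addS, valS_zero, epp, epz, epn, enz, hG]
    ring
  have hDv : valS D = (valS (plainS V H one (((3 * C.K : ℕ) : ℤ) * o) d) - m * s - mn * dom
      - ((A * (E + n) : ℕ) : ℤ) * one) + H := by
    simp only [hD, diagS, valS_addS, es, ed, Int.negOfNat_eq, Int.ofNat_eq_natCast]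
    push_cast
    ring
  rw [rowS_eq H D _ _ hDv] at hr
  simp only [Bool.and_eq_true] at hr
  obtain ⟨⟨r1, r2⟩, r3, r4⟩ := hr
  have hr : nonnegP H ((valS (plainS V H one (((3 * C.K : ℕ) : ℤ) * o) d) - m * s - mn * dom
      - ((A * (E + n) : ℕ) : ℤ) * one) + e * valS (plainS V H one (((3 * C.K : ℕ) : ℤ) * o) u)
      + f * valS (plainS V H one (((3 * C.K : ℕ) : ℤ) * o) v)) = true := by
    rcases he with rfl | rfl <;> rcases hf with rfl | rfl <;> assumption
  rw [plainC]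
  refine testC_of_le hL.hB hL.packed (A := A) (C₀ := 3 * C.K * o *
    (d.om.natAbs + u.om.natAbs + v.om.natAbs)) ?_ ?_ hcap ?_
  · have hab : (3 - b) + b = 3 := by omega
    simp only [sumAbs, C5.add, Int.natAbs_mul, Int.natAbs_neg, Int.natAbs_natCast, Int.natAbs_zero,
      Nat.add_zero, Nat.zero_add, Int.ofNat_eq_natCast, hA, C5.nrm]
    set E2 := 2 ^ C.ob
    have k1 := Nat.mul_le_mul_left (E2 * ((3 - b) + b)) (abs_add3 (x := d.pp) (y := u.pp) (z := v.pp) he hf)
    have k2 := Nat.mul_le_mul_left (E2 * ((3 - b) + b)) (abs_add3 (x := d.pz) (y := u.pz) (z := v.pz) he hf)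
    have k3 := Nat.mul_le_mul_left (3 * E2) (abs_add3 (x := d.pn) (y := u.pn) (z := v.pn) he hf)
    have k4 := Nat.mul_le_mul_left (3 * E2) (abs_add3 (x := d.nz) (y := u.nz) (z := v.nz) he hf)
    rw [hab] at k1 k2
    norm_num
    have key : ∀ X : ℕ, E2 * (3 - b) * X + E2 * b * X = E2 * 3 * X := fun X => by
      rw [← Nat.add_mul, ← Nat.mul_add, hab]
    have e1 := key (d.pp + e * u.pp + f * v.pp).natAbs
    have e2 := key (d.pz + e * u.pz + f * v.pz).natAbs
    linarith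
  · simp only [C5.add, Int.natAbs_mul, Int.natAbs_natCast]
    norm_num
    exact Nat.mul_le_mul_left _ (abs_add3 he hf)
  · convert hr using 2
    rw [hPs]
    simp only [dot_cons, vp, C5.add, Int.negOfNat_eq, Int.ofNat_eq_natCast]
    simp only [dot]
    push_cast
    ring

theorem rowZ_sound (hL : LeafHyp L M E n K Ps) (hb : b ≤ 3) {V : EndV}
    (hV : EndVal (biasC L.B L.size) (3 * 2 ^ C.ob) (2 ^ C.ob * (3 - b)) (2 ^ C.ob * b) Ps V)
    {o m mn zz : ℕ} {d u v : C5} (h : rowZ K (E + n) n V o m mn zz d u v = true) {e f : ℤ}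
    (he : e = 1 ∨ e = -1) (hf : f = 1 ∨ f = -1) :
    testC (L.con M E) n Ps
      (scaledC C ((3 - b : ℕ) : ℤ) b o m mn ((d.add u e).add v f) zz) = true := by
  obtain ⟨s, dom, pp0, pp1, pz0, pz1, z0, z1, q0, q1, pn, nz, spp0, spp1, spz0, spz1, szz0, szz1,
    spn, snz, hPs, hG, es, ed, -, -, ezz, -, -, espp, espz, espn, esnz⟩ := hV
  simp only [rowZ, forceB_eq, Bool.and_eq_true, Nat.blt_eq, hL.hM, hL.hE, hL.hcap, hL.hH, hL.hone,
    hG] at h
  obtain ⟨hcap, hr⟩ := h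
  set H := biasC L.B L.size
  set one := rep L.B 1 L.size
  set A := m + mn + 3 * o * (d.om.natAbs + u.om.natAbs + v.om.natAbs)
      + 3 * 2 ^ C.ob * (2 * zz + (d.nrm + u.nrm + v.nrm)) with hA
  set D := diagS V H one m mn (A * (E + n))
    (addS (-(((2 * (3 * 2 ^ C.ob) * zz : ℕ) : ℤ))) H (addS zz V.zz (scaledS V H (3 * (o : ℤ)) d))) with hD
  have vp : ∀ c : C5, valS (scaledS V H (3 * (o : ℤ)) c) =
      3 * (o : ℤ) * c.om * s + c.pp * ((2 ^ C.ob * (3 - b) : ℕ) * spp0 + (2 ^ C.ob * b : ℕ) * spp1)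
        + c.pz * ((2 ^ C.ob * (3 - b) : ℕ) * spz0 + (2 ^ C.ob * b : ℕ) * spz1)
        + c.pn * ((3 * 2 ^ C.ob : ℕ) * spn) + c.nz * ((3 * 2 ^ C.ob : ℕ) * snz) := by
    intro c
    simp only [scaledS, valS_addS, valS_zero, es, espp, espz, espn, esnz, hG]
    ring
  have hDv : valS D = (valS (scaledS V H (3 * (o : ℤ)) d)
      + zz * ((2 ^ C.ob * (3 - b) : ℕ) * (z0 + szz0) + (2 ^ C.ob * b : ℕ) * (z1 + szz1))
      - m * s - mn * dom - ((A * (E + n) : ℕ) : ℤ) * one) + H := by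
    simp only [hD, diagS, valS_addS, es, ed, ezz, Int.negOfNat_eq, Int.ofNat_eq_natCast]
    push_cast
    ring
  rw [rowS_eq H D _ _ hDv] at hr
  simp only [Bool.and_eq_true] at hr
  obtain ⟨⟨r1, r2⟩, r3, r4⟩ := hr
  have hr : nonnegP H ((valS (scaledS V H (3 * (o : ℤ)) d)
      + zz * ((2 ^ C.ob * (3 - b) : ℕ) * (z0 + szz0) + (2 ^ C.ob * b : ℕ) * (z1 + szz1))
      - m * s - mn * dom - ((A * (E + n) : ℕ) : ℤ) * one) + e * valS (scaledS V H (3 * (o : ℤ)) u)
      + f * valS (scaledS V H (3 * (o : ℤ)) v)) = true := by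
    rcases he with rfl | rfl <;> rcases hf with rfl | rfl <;> assumption
  rw [scaledC]
  refine testC_of_le hL.hB hL.packed (A := A) (C₀ := 0) ?_ (by simp) (by simpa using hcap) ?_
  · have hab : (3 - b) + b = 3 := by omega
    simp only [sumAbs, C5.add, Int.natAbs_mul, Int.natAbs_neg, Int.natAbs_natCast, Int.natAbs_zero,
      Nat.add_zero, Nat.zero_add, Int.ofNat_eq_natCast, hA, C5.nrm]
    set E2 := 2 ^ C.ob
    have hw := abs_add3 (x := d.om) (y := u.om) (z := v.om) he hf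
    have hom : (3 * (o : ℤ) * (d.om + e * u.om + f * v.om) - m).natAbs ≤
        3 * o * (d.om.natAbs + u.om.natAbs + v.om.natAbs) + m := by
      have h1 := Int.natAbs_sub_le (3 * (o : ℤ) * (d.om + e * u.om + f * v.om)) m
      rw [Int.natAbs_mul, Int.natAbs_mul, Int.natAbs_natCast, Int.natAbs_natCast] at h1
      have h2 := Nat.mul_le_mul_left (3 * o) hw
      norm_num at h1
      omega
    have k1 := Nat.mul_le_mul_left (E2 * ((3 - b) + b)) (abs_add3 (x := d.pp) (y := u.pp) (z := v.pp) he hf)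
    have k2 := Nat.mul_le_mul_left (E2 * ((3 - b) + b)) (abs_add3 (x := d.pz) (y := u.pz) (z := v.pz) he hf)
    have k3 := Nat.mul_le_mul_left (3 * E2) (abs_add3 (x := d.pn) (y := u.pn) (z := v.pn) he hf)
    have k4 := Nat.mul_le_mul_left (3 * E2) (abs_add3 (x := d.nz) (y := u.nz) (z := v.nz) he hf)
    rw [hab] at k1 k2
    norm_num
    have key : ∀ X : ℕ, E2 * (3 - b) * X + E2 * b * X = E2 * 3 * X := fun X => by
      rw [← Nat.add_mul, ← Nat.mul_add, hab]
    have e1 := key (d.pp + e * u.pp + f * v.pp).natAbs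
    have e2 := key (d.pz + e * u.pz + f * v.pz).natAbs
    have e3 := key zz
    linarith
  · convert hr using 2
    rw [hPs]
    simp only [dot_cons, vp, C5.add, Int.negOfNat_eq, Int.ofNat_eq_natCast]
    simp only [dot]
    push_cast
    ring

/-- An accepted fast end is an accepted end. -/
theorem nodeR_sound (hL : LeafHyp L M E n K Ps) (hb : b ≤ 3) {N : NodeD}
    (h : nodeR K C b n (Ps.map (biased (biasC L.B L.size))) N = true) :
    N.chk C ((3 - b : ℕ) : ℤ) b (testC (L.con M E) n Ps) = true := by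
  simp only [nodeR, forceB_eq, hL.hE] at h
  obtain ⟨V, hk, hV⟩ := endV_spec (by rw [← Nat.mul_add, Nat.sub_add_cancel hb, Nat.mul_comm]) hL.above h
  simp only [Bool.and_eq_true] at hk
  obtain ⟨⟨⟨hne, h0⟩, h1⟩, h2⟩ := hk
  have h2' : ∀ {e f : ℤ}, (e = 1 ∨ e = -1) → (f = 1 ∨ f = -1) → testC (L.con M E) n Ps
      (scaledC C ((3 - b : ℕ) : ℤ) b N.o N.m2 N.n2 ((N.u22.add N.u02 e).add N.u12 f)
        (N.r22 * N.r22)) = true := fun he hf => by
    have hsq : ((N.r22 * N.r22).natAbs : ℤ) = N.r22 * N.r22 := Int.natAbs_of_nonneg (mul_self_nonneg _)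
    have := rowZ_sound hL hb hV h2 he hf
    rwa [hsq] at this
  simp only [NodeD.chk, Bool.and_eq_true]
  exact ⟨⟨⟨by simpa [Bool.and_eq_true] using hne,
    ⟨⟨rowP_sound hL hb hV h0 (.inl rfl) (.inl rfl), rowP_sound hL hb hV h0 (.inl rfl) (.inr rfl)⟩,
      rowP_sound hL hb hV h0 (.inr rfl) (.inl rfl)⟩, rowP_sound hL hb hV h0 (.inr rfl) (.inr rfl)⟩,
    ⟨⟨rowP_sound hL hb hV h1 (.inl rfl) (.inl rfl), rowP_sound hL hb hV h1 (.inl rfl) (.inr rfl)⟩,
      rowP_sound hL hb hV h1 (.inr rfl) (.inl rfl)⟩, rowP_sound hL hb hV h1 (.inr rfl) (.inr rfl)⟩,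
    ⟨⟨h2' (.inl rfl) (.inl rfl), h2' (.inl rfl) (.inr rfl)⟩, h2' (.inr rfl) (.inl rfl)⟩,
    h2' (.inr rfl) (.inr rfl)⟩

/-! ### The tests of the strips and the leaf -/

/-- The test `e (a b0 + b b1) - k ≥ 0` on the two values of `b1`. -/
def kap1 (K : ConQ) (n : ℕ) (Qs : List ℕ) (k a b e : ℕ) : Bool :=
  match Qs with
  | [_, _, _, _, _, _, _, _, q0, q1, _, _, _, _, _, _, _, _, _, _] =>
    forceB (fun A => Nat.blt (k + A * (K.M + n + (K.E + n))) K.cap &&
      nonnegQ K.H (e * a * q0 + (e * b * q1 + K.H))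
        ((k + A * (K.E + n)) * K.one + A * K.H)) (e * a + e * b)
  | _ => false

/-- The tests of one strip; `a`, `b` are the weights at its first end. -/
def kapR (K : ConQ) (C : SegC) (n : ℕ) (Qs : List ℕ) (i d a b : ℕ) (S T : ℕ × ℕ) (N M : NodeD) :
    Bool :=
  forceB (fun e => forceB (fun s => forceB (fun t => Nat.ble (i + 1) (2 ^ d)
      && kap1 K n Qs (3 * N.o * s) a b e
      && kap1 K n Qs (3 * M.o * t) (a - 1) (b + 1) e
      && kap1 K n Qs (3 * (N.o * M.o * (s + t))) (N.o * a + M.o * (a - 1)) (N.o * b + M.o * (b + 1)) e)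
    (sigB T i d)) (sigB S i d)) (2 ^ (d + C.ob))

theorem kap1_sound (hL : LeafHyp L M E n K Ps) {k a b e : ℕ}
    (h : kap1 K n (Ps.map (biased (biasC L.B L.size))) k a b e = true) :
    testC (L.con M E) n Ps (b1C (-Int.ofNat k) a b e) = true := by
  have hq : ∀ x ∈ Ps, ((biased (biasC L.B L.size) x : ℕ) : ℤ) = x + (biasC L.B L.size : ℕ) :=
    fun x hx => by rw [biased, Int.ofNat_eq_natCast, Int.toNat_of_nonneg (hL.above x hx)]
  match Ps, hL, h, hq with
  | [_, _, _, _, _, _, _, _, q0, q1, _, _, _, _, _, _, _, _, _, _], hL, h, hq =>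
    simp only [List.map_cons, List.map_nil, kap1, forceB_eq, Bool.and_eq_true, Nat.blt_eq, hL.hM,
      hL.hE, hL.hcap, hL.hH, hL.hone] at h
    obtain ⟨hcap, hr⟩ := h
    refine testC_of_le hL.hB hL.packed (A := e * a + e * b) (C₀ := k) ?_ (by simp) hcap ?_
    · simp [sumAbs, Int.natAbs_mul]
    · rw [← hr]
      refine (nonnegQ_eq ?_).symm
      push_cast [hq q0 (by simp), hq q1 (by simp)]
      simp only [dot_cons, Int.negOfNat_eq, Int.ofNat_eq_natCast]
      simp only [dot]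
      push_cast
      ring

theorem kapR_sound (hL : LeafHyp L M E n K Ps) {i d a b : ℕ} (ha : 1 ≤ a) {S T : ℕ × ℕ} {N N' : NodeD}
    (h : kapR K C n (Ps.map (biased (biasC L.B L.size))) i d a b S T N N' = true) :
    kapC C (testC (L.con M E) n Ps) i d a b S T N N' = true := by
  simp only [kapR, forceB_eq, Bool.and_eq_true] at h
  obtain ⟨⟨⟨hi, t0⟩, t1⟩, t2⟩ := h
  have s0 := kap1_sound hL t0
  have s1 := kap1_sound hL t1
  have s2 := kap1_sound hL t2
  simp only [kapC, Bool.and_eq_true]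
  push_cast [Nat.cast_sub ha, Int.ofNat_eq_natCast] at s0 s1 s2 ⊢
  exact ⟨⟨⟨hi, s0⟩, s1⟩, s2⟩

/-- A middle end: interpolated or tested. -/
def endR (K : ConQ) (C : SegC) (n : ℕ) (Qs : List ℕ) (N₀ N₃ N : NodeD) (j : ℕ) : Bool :=
  bif N.r00 == 0 then midOK N₀ N₃ N j else nodeR K C j n Qs N

/-- The check of a leaf on biased values. -/
def leafR (K : ConQ) (C : SegC) (n : ℕ) (Qs : List ℕ) (i d : ℕ) : LeafX → Bool
  | .skip a b => chkX C (testQ K n Qs) i d (.skip a b)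
  | .box k0 k1 k2 k3 k4 k5 => nodeR K C 0 n Qs k0 && nodeR K C 3 n Qs k5
      && endR K C n Qs k0 k5 k1 1 && (k2.same k1 || endR K C n Qs k0 k5 k2 1)
      && endR K C n Qs k0 k5 k3 2 && (k4.same k3 || endR K C n Qs k0 k5 k4 2)
      && kapR K C n Qs i d 3 0 C.S0 C.S1 k0 k1 && kapR K C n Qs i d 2 1 C.S2 C.S3 k2 k3
      && kapR K C n Qs i d 1 2 C.S4 C.S5 k4 k5

theorem endR_sound (hL : LeafHyp L M E n K Ps) {N₀ N₃ N : NodeD} {j : ℕ} (hj : j ≤ 3)
    (h : endR K C n (Ps.map (biased (biasC L.B L.size))) N₀ N₃ N j = true) :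
    endC C (testC (L.con M E) n Ps) N₀ N₃ N j = true := by
  cases e : N.r00 == 0
  · simp only [endR, endC, e, cond_false] at h ⊢
    exact nodeR_sound hL hj h
  · simp only [endR, endC, e, cond_true] at h ⊢
    exact h

theorem leafR_imp {Q : ConQ} (hQ : Q.good L M E = true) (C : SegC) :
    LeafImp L M E (chkL C) fun n Qs i d x => leafR Q C n Qs i d x := by
  obtain ⟨⟨h1, h2, h3, h4, h5, hB, -⟩, -⟩ := good_parts hQ
  intro n i d x Ps hp ha h
  have hL : LeafHyp L M E n Q Ps := ⟨hB, h1, h2, h3, h4, h5, hp, ha⟩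
  cases x with
  | skip a b =>
    exact leafQ_imp hQ (chkX C) n i d (.skip a b) Ps hp ha h
  | box k0 k1 k2 k3 k4 k5 =>
    simp only [leafR, chkL, Bool.and_eq_true, Bool.or_eq_true] at h ⊢
    obtain ⟨⟨⟨⟨⟨⟨⟨⟨c0, c5⟩, c1⟩, c2⟩, c3⟩, c4⟩, q0⟩, q1⟩, q2⟩ := h
    exact ⟨⟨⟨⟨⟨⟨⟨⟨by simpa using nodeR_sound (b := 0) hL (by norm_num) c0,
      by simpa using nodeR_sound (b := 3) hL le_rfl c5⟩,
      endR_sound hL (by norm_num) c1⟩, c2.imp id (endR_sound hL (by norm_num))⟩,
      endR_sound hL (by norm_num) c3⟩, c4.imp id (endR_sound hL (by norm_num))⟩,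
      kapR_sound hL (by norm_num) q0⟩, kapR_sound hL (by norm_num) q1⟩,
      kapR_sound hL le_rfl q2⟩

/-- An accepted fast check of a piece of a tree with all tensors packed. -/
theorem runPath_of_fastR {Q : ConQ} {S : SupQ} (hS : S.good L 19 = true) (hQ : Q.good L M E = true)
    {p : List Dir} {T : Tree LeafX} {Qs : List ℕ} (hl : Qs.length = 20)
    (hP : Packed L M (unbias (biasC L.B L.size) Qs))
    (h : runPathS Q S (fun n Qs i d x => leafR Q C n Qs i d x) p T 0 0 0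
      (joinS (L.B * L.size) Qs) = true) :
    runPath (L.con M E) (chkL C) p T 0 0 0 (unbias (biasC L.B L.size) Qs) = true :=
  runPath_of_packed hS hQ (leafR_imp hQ C) hl hP h

end Vale.Agent.P098.Six
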