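import Vale.Agent.P098.Six.Lay
import Vale.Agent.P098.Five.Poly

/-!
# P098, six dimensions: packed Bernstein forms of polynomials given by nested lists

`bern n p` is `n!` times the Bernstein coefficients in degree `n` of the polynomial with monomial
coefficients `p`. Each integer is scaled by `num / den` and rounded down before packing.
-/

namespace Vale.Agent.P098.Six

open Finset
open Vale.Agent.P098.Five (Mdl IsLin monE zadd monE_map)

section
variable {α : Type} [Mdl α]

/-- The entries times their positions, counted from `k`. -/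
def idxMul : ℕ → List α → List α
  | _, [] => []
  | k, a :: p => Mdl.smul (Int.ofNat k) a :: idxMul (k + 1) p

/-- `n!` times the Bernstein coefficients in degree `n`. -/
def bern : ℕ → List α → List α
  | 0, [] => [Mdl.zero]
  | 0, a :: _ => [Mdl.smul 1 a]
  | n + 1, [] => List.replicate (n + 2) Mdl.zero
  | n + 1, a :: p =>
      zadd (List.replicate (n + 2) (Mdl.smul (Int.ofNat (Nat.factorial (n + 1))) a))
        (Mdl.zero :: idxMul 1 (bern n p))

theorem length_idxMul : ∀ (k : ℕ) (p : List α), (idxMul k p).length = p.length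
  | _, [] => rfl
  | k, a :: p => by simp [idxMul, length_idxMul (k + 1) p]

theorem length_zadd : ∀ p q : List α, (zadd p q).length = max p.length q.length
  | [], q => by simp [zadd]
  | a :: p, [] => by simp [zadd]
  | a :: p, b :: q => by simp [zadd, length_zadd p q]

theorem length_bern : ∀ n (p : List α), (bern n p).length = n + 1
  | 0, [] => rfl
  | 0, a :: _ => rfl
  | n + 1, [] => by simp [bern]
  | n + 1, a :: p => by simp [bern, length_zadd, length_idxMul, length_bern n p]

theorem getD_idxMul {f : α → ℝ} (hf : IsLin f) : ∀ (k : ℕ) (p : List α) (i : ℕ),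
    f ((idxMul k p).getD i Mdl.zero) = ((k + i : ℕ) : ℝ) * f (p.getD i Mdl.zero)
  | k, [], i => by simp [idxMul, hf.zero]
  | k, a :: p, 0 => by simp [idxMul, hf.smul]
  | k, a :: p, i + 1 => by
    simp only [idxMul, List.getD_cons_succ, getD_idxMul hf (k + 1) p i]
    rw [show k + 1 + i = k + (i + 1) by omega]

theorem getD_zadd {f : α → ℝ} (hf : IsLin f) : ∀ (p q : List α) (i : ℕ),
    f ((zadd p q).getD i Mdl.zero) = f (p.getD i Mdl.zero) + f (q.getD i Mdl.zero)
  | [], q, i => by simp [zadd, hf.zero]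
  | a :: p, [], i => by simp [zadd, hf.zero]
  | a :: p, b :: q, 0 => by simp [zadd, hf.add]
  | a :: p, b :: q, i + 1 => by
    simp only [zadd, List.getD_cons_succ, getD_zadd hf p q i]

/-- The Bernstein weights in closed form. -/
theorem wB_eq (u v : ℝ) : ∀ n i, wB n u v i = (n.choose i : ℝ) * u ^ i * v ^ (n - i)
  | 0, i => by cases i <;> simp [wB]
  | n + 1, 0 => by rw [wB, wB_eq u v n 0]; simp [pow_succ]; ring
  | n + 1, i + 1 => by
    rw [wB, if_neg (by omega), Nat.add_sub_cancel, wB_eq u v n (i + 1), wB_eq u v n i,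
      Nat.choose_succ_succ, Nat.succ_sub_succ]
    rcases Nat.lt_or_ge i n with h | h
    · rw [show n - i = n - (i + 1) + 1 by omega, pow_succ, pow_succ]; push_cast; ring
    · rw [Nat.choose_eq_zero_of_lt (show n < i + 1 by omega)]; push_cast; ring

/-- The weighted sum of a list. -/
def sumW (f : α → ℝ) (n : ℕ) (u : ℝ) (p : List α) : ℝ :=
  ∑ i ∈ range (n + 1), wB n u (1 - u) i * f (p.getD i Mdl.zero)

theorem sumW_bern {f : α → ℝ} (hf : IsLin f) (u : ℝ) :
    ∀ n (p : List α), p.length ≤ n + 1 → sumW f n u (bern n p) = (Nat.factorial n : ℝ) * monE f u p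
  | 0, [], _ => by simp [sumW, bern, monE, hf.zero]
  | 0, a :: p, h => by
    have : p = [] := List.length_eq_zero_iff.1 (by simp only [List.length_cons] at h; omega)
    simp [sumW, bern, monE, wB, hf.smul, this]
  | n + 1, [], _ => by
    rw [sumW, monE, mul_zero]
    refine sum_eq_zero fun i hi => ?_
    rw [bern, List.getD_replicate _ (mem_range.1 hi)]; simp [hf.zero]
  | n + 1, a :: p, h => by
    have ih := sumW_bern hf u n p (by simpa using h)
    simp only [sumW, bern, getD_zadd hf, mul_add, sum_add_distrib] at ih ⊢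
    have h1 : ∑ i ∈ range (n + 1 + 1), wB (n + 1) u (1 - u) i *
        f ((List.replicate (n + 2) (Mdl.smul (Int.ofNat (n + 1).factorial) a)).getD i Mdl.zero) =
        ((n + 1).factorial : ℝ) * f a := by
      rw [sum_congr rfl fun i hi => by rw [List.getD_replicate _ (mem_range.1 hi), hf.smul],
        ← sum_mul, sum_wB]
      simp
    have h2 : ∑ i ∈ range (n + 1 + 1), wB (n + 1) u (1 - u) i *
        f ((Mdl.zero :: idxMul 1 (bern n p)).getD i Mdl.zero) =
        ((n : ℝ) + 1) * u * ∑ i ∈ range (n + 1), wB n u (1 - u) i * f ((bern n p).getD i Mdl.zero) := by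
      rw [sum_range_succ', List.getD_cons_zero, hf.zero, mul_zero, add_zero, mul_sum]
      refine sum_congr rfl fun i _ => ?_
      rw [List.getD_cons_succ, getD_idxMul hf, wB_eq, wB_eq, Nat.succ_sub_succ]
      have hc : ((n + 1 : ℕ) : ℝ) * (n.choose i : ℝ) = ((n + 1).choose (i + 1) : ℝ) * ((i + 1 : ℕ) : ℝ) := by
        exact_mod_cast Nat.add_one_mul_choose_eq n i
      push_cast at hc ⊢
      linear_combination -(u ^ (i + 1) * (1 - u) ^ (n - i) * f ((bern n p).getD i Mdl.zero)) * hc
    rw [h1, h2, ih, monE, Nat.factorial_succ]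
    push_cast; ring

end

/-- A number with rounding, packed alone. -/
def scaleZ (num den : ℕ) (a : ℤ) : ℤ := a * Int.ofNat num / Int.ofNat den

/-- Four nested lists. -/
abbrev P4 := List (List (List (List ℤ)))

/-- Lengths allow the degrees. -/
def fits4 (L : Lay) (p : P4) : Bool :=
  decide (p.length ≤ L.n₀ + 1) && p.all fun q => decide (q.length ≤ L.n₁ + 1) &&
    q.all fun r => decide (r.length ≤ L.n₂ + 1) && r.all fun s => decide (s.length ≤ L.n₃ + 1)

/-- The pieces along the last axis. -/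
def row3 (L : Lay) (M num den : ℕ) (s : List ℤ) : Option ℤ :=
  let c := (bern L.n₃ s).map (scaleZ num den)
  bif decide (s.length ≤ L.n₃ + 1) && c.all (fun a => decide (a.natAbs ≤ M)) then some (joinP (L.B * 1) c)
  else none

/-- The list of the images, when all are defined. -/
def mapO {β : Type} (enc : β → Option ℤ) : List β → Option (List ℤ)
  | [] => some []
  | a :: p => match enc a, mapO enc p with
    | some P, some Ps => some (P :: Ps)
    | _, _ => none

theorem mapO_getD {β : Type} [Mdl β] {enc : β → Option ℤ} : ∀ {p : List β} {Ps : List ℤ},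
    mapO enc p = some Ps → Ps.length = p.length ∧
      ∀ i < p.length, enc (p.getD i Mdl.zero) = some (Ps.getD i 0)
  | [], Ps, h => by simp only [mapO, Option.some.injEq] at h; subst h; simp
  | a :: p, Ps, h => by
    rw [mapO] at h
    split at h
    · rename_i P Qs he hQ
      obtain ⟨h1, h2⟩ := mapO_getD hQ
      simp only [Option.some.injEq] at h
      subst h
      refine ⟨by simp [h1], fun i hi => ?_⟩
      cases i with
      | zero => simpa using he
      | succ i => simpa using h2 i (by simpa using hi)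
    · simp at h

/-- A packed axis. -/
def rowN {β : Type} (B S n : ℕ) (enc : β → Option ℤ) (p : List β) : Option ℤ :=
  bif decide (p.length = n + 1) then (mapO enc p).map (joinP (B * S)) else none

/-- The packed Bernstein form, when all sizes fit. -/
def rootP (L : Lay) (M num den : ℕ) (p : P4) : Option ℤ :=
  bif decide (p.length ≤ L.n₀ + 1) then
    rowN L.B (L.stride 0) L.n₀ (fun q => bif decide (q.length ≤ L.n₁ + 1) then
      rowN L.B (L.stride 1) L.n₁ (fun r => bif decide (r.length ≤ L.n₂ + 1) then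
        rowN L.B (L.stride 2) L.n₂ (row3 L M num den) (bern L.n₂ r) else none) (bern L.n₁ q)
      else none) (bern L.n₀ p)
  else none

/-- A packed block represents a number in given weights. -/
def RepV (B J : ℕ) (W : ℕ → ℝ) (M E : ℕ) (P : ℤ) (x : ℝ) : Prop :=
  ∃ c, Packs B J M P c ∧ |value J W c - x| ≤ E

theorem repV_rows {β : Type} [Mdl β] {B S n M E : ℕ} {W : ℕ → ℝ} {enc : β → Option ℤ} {val : β → ℝ}
    (hS : 0 < S) (hval : ∀ b P, enc b = some P → RepV B S W M E P (val b)) {u : ℝ}
    (hu : 0 ≤ u) (hu' : u ≤ 1) {p : List β} {P : ℤ} (h : rowN B S n enc p = some P) :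
    RepV B ((n + 1) * S) (fun j => wB n u (1 - u) (j / S) * W (j % S)) M E P (sumW val n u p) := by
  simp only [rowN, Bool.cond_decide] at h
  split at h
  case isFalse => simp at h
  rename_i hlen
  rw [Option.map_eq_some_iff] at h
  obtain ⟨Ps, hPs, rfl⟩ := h
  obtain ⟨hl, he⟩ := mapO_getD hPs
  have hsel : ∀ i, i < n + 1 → ∃ c, Packs B S M (Ps.getD i 0) c ∧
      |value S W c - val (p.getD i Mdl.zero)| ≤ E := fun i hi => hval _ _ (he i (by omega))
  choose! c hc hv using hsel
  refine ⟨fun j => c (j / S) (j % S), ⟨?_, fun j hj => ?_⟩, ?_⟩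
  · rw [joinP_eq, pack, show range ((n + 1) * S) = range (1 * (n + 1) * S) by rw [Nat.one_mul],
      sum_axis, hl, hlen]
    refine sum_congr rfl fun i hi => ?_
    rw [sum_range_one, (hc i (mem_range.1 hi)).eq, pack, mul_sum]
    refine sum_congr rfl fun r hr => ?_
    have hr' := mem_range.1 hr
    rw [show (0 * (n + 1) + i) * S + r = r + S * i by ring, Nat.add_mul_div_left _ _ hS,
      Nat.add_mul_mod_self_left, Nat.div_eq_of_lt hr', Nat.mod_eq_of_lt hr', Nat.zero_add,
      show B * (r + S * i) = B * r + B * (i * S) by ring, pow_add]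
    ring
  · have hi : j / S < n + 1 := Nat.div_lt_of_lt_mul (by rwa [Nat.mul_comm] at hj)
    exact (hc _ hi).bound _ (Nat.mod_lt _ hS)
  · have e : value ((n + 1) * S) (fun j => wB n u (1 - u) (j / S) * W (j % S))
        (fun j => c (j / S) (j % S)) = ∑ i ∈ range (n + 1), wB n u (1 - u) i * value S W (c i) := by
      rw [value, show range ((n + 1) * S) = range (1 * (n + 1) * S) by rw [Nat.one_mul], sum_axis]
      refine sum_congr rfl fun i _ => ?_
      rw [sum_range_one, value, mul_sum]
      refine sum_congr rfl fun r hr => ?_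
      have hr' := mem_range.1 hr
      simp only [show (0 * (n + 1) + i) * S + r = r + S * i by ring, Nat.add_mul_div_left _ _ hS,
        Nat.add_mul_mod_self_left, Nat.div_eq_of_lt hr', Nat.mod_eq_of_lt hr', Nat.zero_add]
      ring
    rw [e, sumW, ← sum_sub_distrib]
    refine (abs_sum_le_sum_abs _ _).trans ?_
    calc ∑ i ∈ range (n + 1), |wB n u (1 - u) i * value S W (c i) -
          wB n u (1 - u) i * val (p.getD i Mdl.zero)|
        ≤ ∑ i ∈ range (n + 1), wB n u (1 - u) i * (E : ℝ) := by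
          refine sum_le_sum fun i hi => ?_
          rw [← mul_sub, abs_mul, abs_of_nonneg (wB_nonneg hu (by linarith) _ _)]
          exact mul_le_mul_of_nonneg_left (hv i (mem_range.1 hi)) (wB_nonneg hu (by linarith) _ _)
      _ = E := by rw [← sum_mul, sum_wB]; simp

theorem row3_rep {L : Lay} {M num den : ℕ} (hden : 0 < den) {u : ℝ} (hu : 0 ≤ u) (hu' : u ≤ 1)
    {s : List ℤ} {P : ℤ} (h : row3 L M num den s = some P) :
    RepV L.B (L.n₃ + 1) (fun j => wB L.n₃ u (1 - u) j) M 1 P
      ((num : ℝ) / den * ((L.n₃.factorial : ℝ) * monE (fun a : ℤ => (a : ℝ)) u s)) := by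
  simp only [row3, cond_eq_ite, Bool.and_eq_true, decide_eq_true_eq, List.all_map, List.all_eq_true,
    Function.comp_apply, Option.ite_none_right_eq_some, Option.some.injEq] at h
  obtain ⟨⟨hlen, hb⟩, rfl⟩ := h
  set p := bern L.n₃ s
  have hp : p.length = L.n₃ + 1 := length_bern _ _
  refine ⟨fun j => scaleZ num den (p.getD j 0), ⟨?_, fun j hj => ?_⟩, ?_⟩
  · rw [joinP_eq, pack, List.length_map, hp]
    refine sum_congr rfl fun i hi => ?_
    rw [List.getD_eq_getElem _ _ (by simpa [hp] using mem_range.1 hi), List.getElem_map,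
      List.getD_eq_getElem _ _ (by simpa [hp] using mem_range.1 hi), Nat.mul_one]
    ring
  · have := hb (p.getD j 0) (by
      rw [List.getD_eq_getElem _ _ (by omega)]; exact List.getElem_mem _)
    rw [Int.abs_eq_natAbs]; exact_mod_cast this
  · have e := sumW_bern Five.isLin_int u L.n₃ s hlen
    rw [← e, sumW, value, mul_sum, ← sum_sub_distrib]
    refine (abs_sum_le_sum_abs _ _).trans ?_
    calc ∑ i ∈ range (L.n₃ + 1), |wB L.n₃ u (1 - u) i * (scaleZ num den (p.getD i 0) : ℝ) -
          (num : ℝ) / den * (wB L.n₃ u (1 - u) i * (p.getD i Mdl.zero : ℤ))|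
        ≤ ∑ i ∈ range (L.n₃ + 1), wB L.n₃ u (1 - u) i * (1 : ℝ) := by
          refine sum_le_sum fun i _ => ?_
          change |_ * (scaleZ num den (p.getD i 0) : ℝ) - _ * (_ * ((p.getD i 0 : ℤ) : ℝ))| ≤ _
          rw [show ∀ a b c d : ℝ, a * b - c * (a * d) = a * (b - c * d) from fun a b c d => by ring,
            abs_mul, abs_of_nonneg (wB_nonneg hu (by linarith) _ _)]
          refine mul_le_mul_of_nonneg_left ?_ (wB_nonneg hu (by linarith) _ _)
          have hd : (0 : ℝ) < den := by exact_mod_cast hden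
          have h1 := Int.mul_ediv_self_le (x := p.getD i 0 * num) (k := (den : ℤ)) (by omega)
          have h2 := Int.lt_mul_ediv_self_add (x := p.getD i 0 * num) (k := (den : ℤ)) (by omega)
          have h1' : ((den : ℝ)) * (scaleZ num den (p.getD i 0) : ℝ) ≤ (p.getD i 0 : ℤ) * (num : ℝ) := by
            exact_mod_cast h1
          have h2' : ((p.getD i 0 : ℤ) : ℝ) * num < den * (scaleZ num den (p.getD i 0) : ℝ) + den := by
            exact_mod_cast h2
          rw [abs_le]; constructor <;> refine le_of_mul_le_mul_left ?_ hd <;> field_simp <;> linarith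
      _ = (1 : ℕ) := by simp [sum_wB]

theorem pack_inj {B J M : ℕ} {P : ℤ} {c d : ℕ → ℤ} (hB : 0 < B) (hM : M < 2 ^ (B - 1))
    (h : Packs B J M P c) (h' : Packs B J M P d) : ∀ j < J, c j = d j := fun j hj => by
  have e := packN_inj J _ _ (dig_lt h hB hM) (dig_lt h' hB hM)
    ((biased_eq h hB hM).symm.trans (biased_eq h' hB hM)) j hj
  have e1 := dig_spec h hM hj
  have e2 := dig_spec h' hM hj
  rw [e] at e1
  linarith

/-- The weights of a layout, axis by axis. -/
theorem W_split (L : Lay) (u : Fin 4 → ℝ) {j : ℕ} (hj : j < L.size) :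
    L.W u j = wB L.n₀ (u 0) (1 - u 0) (j / L.stride 0) *
      (wB L.n₁ (u 1) (1 - u 1) (j % L.stride 0 / L.stride 1) *
        (wB L.n₂ (u 2) (1 - u 2) (j % L.stride 0 % L.stride 1 / L.stride 2) *
          wB L.n₃ (u 3) (1 - u 3) (j % L.stride 0 % L.stride 1 % L.stride 2))) := by
  have h0 : L.stride 0 = L.stride 1 * (L.n₁ + 1) := by
    show (L.n₁ + 1) * (L.n₂ + 1) * (L.n₃ + 1) = (L.n₂ + 1) * (L.n₃ + 1) * (L.n₁ + 1); ring
  have h1 : L.stride 1 = L.stride 2 * (L.n₂ + 1) := by
    show (L.n₂ + 1) * (L.n₃ + 1) = (L.n₃ + 1) * (L.n₂ + 1); ring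
  have d10 : L.stride 1 ∣ L.stride 0 := ⟨_, h0⟩
  have d21 : L.stride 2 ∣ L.stride 1 := ⟨_, h1⟩
  have e0 : j / L.stride 0 % (L.n₀ + 1) = j / L.stride 0 := Nat.mod_eq_of_lt
    (Nat.div_lt_of_lt_mul (lt_of_lt_of_eq hj (by
      show (L.n₀ + 1) * (L.n₁ + 1) * (L.n₂ + 1) * (L.n₃ + 1) = L.stride 0 * (L.n₀ + 1)
      show _ = (L.n₁ + 1) * (L.n₂ + 1) * (L.n₃ + 1) * (L.n₀ + 1); ring)))
  have e1 : j % L.stride 0 / L.stride 1 = j / L.stride 1 % (L.n₁ + 1) := by
    rw [h0, Nat.mod_mul_right_div_self]
  have e2 : j % L.stride 0 % L.stride 1 / L.stride 2 = j / L.stride 2 % (L.n₂ + 1) := by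
    rw [Nat.mod_mod_of_dvd _ d10, h1, Nat.mod_mul_right_div_self]
  have e3 : j % L.stride 0 % L.stride 1 % L.stride 2 = j % L.stride 2 := by
    rw [Nat.mod_mod_of_dvd _ d10, Nat.mod_mod_of_dvd _ d21]
  rw [e1, e2, e3, Lay.W, Fin.prod_univ_four]
  simp only [Lay.digit, Lay.deg, Matrix.cons_val_zero, Matrix.cons_val_one, Matrix.cons_val]
  rw [e0, show L.stride 3 = 1 from rfl, Nat.div_one, show L.stride 2 = L.n₃ + 1 from rfl]
  ring

/-- The value of four nested lists. -/
def ev4 (u : Fin 4 → ℝ) (p : P4) : ℝ :=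
  monE (monE (monE (monE (fun a : ℤ => (a : ℝ)) (u 3)) (u 2)) (u 1)) (u 0) p

/-- The factor of the conversion. -/
def facT (L : Lay) : ℕ :=
  L.n₀.factorial * L.n₁.factorial * L.n₂.factorial * L.n₃.factorial

theorem rootP_rep {L : Lay} {M num den : ℕ} (hB : 0 < L.B) (hM : M < 2 ^ (L.B - 1)) (hden : 0 < den)
    {p : P4} {P : ℤ}
    (h : rootP L M num den p = some P) :
    Rep L M 1 P fun u => (num : ℝ) * facT L / den * ev4 u p := by
  have lin3 : ∀ u : ℝ, IsLin fun s : List ℤ =>
      (num : ℝ) / den * ((L.n₃.factorial : ℝ) * monE (fun a : ℤ => (a : ℝ)) u s) := fun u => by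
    have l := Five.isLin_int.mon u
    exact ⟨by simp [l.zero], fun a b => by simp [l.add]; ring, fun c a => by simp [l.smul]; ring⟩
  have scal : ∀ {α : Type} [Mdl α] {f : α → ℝ}, IsLin f → ∀ (k x : ℝ),
      IsLin fun p : List α => k * monE f x p := fun hf k x => by
    have l := hf.mon x
    exact ⟨by simp [l.zero], fun a b => by simp [l.add]; ring, fun c a => by simp [l.smul]; ring⟩
  set W3 := fun (u : Fin 4 → ℝ) j => wB L.n₃ (u 3) (1 - u 3) j
  set W2 := fun (u : Fin 4 → ℝ) j => wB L.n₂ (u 2) (1 - u 2) (j / L.stride 2) * W3 u (j % L.stride 2)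
  set W1 := fun (u : Fin 4 → ℝ) j => wB L.n₁ (u 1) (1 - u 1) (j / L.stride 1) * W2 u (j % L.stride 1)
  have hsp := L.stride_pos
  have h23 : (L.n₂ + 1) * L.stride 2 = L.stride 1 := rfl
  have h12 : (L.n₁ + 1) * L.stride 1 = L.stride 0 := (Nat.mul_assoc _ _ _).symm
  simp only [rootP, Bool.cond_decide] at h
  split at h
  case isFalse => simp at h
  rename_i hlen
  have key : ∀ u : Fin 4 → ℝ, (∀ a, 0 ≤ u a ∧ u a ≤ 1) → RepV L.B ((L.n₀ + 1) * L.stride 0)
      (fun j => wB L.n₀ (u 0) (1 - u 0) (j / L.stride 0) * W1 u (j % L.stride 0)) M 1 P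
      ((num : ℝ) * facT L / den * ev4 u p) := fun u hu => by
    set f3 := fun s : List ℤ =>
      (num : ℝ) / den * ((L.n₃.factorial : ℝ) * monE (fun a : ℤ => (a : ℝ)) (u 3) s)
    set f2 := fun r : List (List ℤ) => (L.n₂.factorial : ℝ) * monE f3 (u 2) r
    set f1 := fun q : List (List (List ℤ)) => (L.n₁.factorial : ℝ) * monE f2 (u 1) q
    have l3 : IsLin f3 := lin3 (u 3)
    have l2 : IsLin f2 := scal l3 _ _
    have l1 : IsLin f1 := scal l2 _ _
    have r3 : ∀ s Q, row3 L M num den s = some Q →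
        RepV L.B (L.stride 2) (W3 u) M 1 Q (f3 s) :=
      fun s Q hQ => row3_rep hden (hu 3).1 (hu 3).2 hQ
    have r2 : ∀ r Q, (bif decide (r.length ≤ L.n₂ + 1) then
        rowN L.B (L.stride 2) L.n₂ (row3 L M num den) (bern L.n₂ r) else none) = some Q →
        RepV L.B (L.stride 1) (W2 u) M 1 Q (f2 r) := fun r Q hQ => by
      simp only [Bool.cond_decide, Option.ite_none_right_eq_some] at hQ
      have := repV_rows (hsp 2) r3 (hu 2).1 (hu 2).2 hQ.2
      rw [sumW_bern l3 _ _ _ hQ.1, h23] at this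
      exact this
    have r1 : ∀ q Q, (bif decide (q.length ≤ L.n₁ + 1) then
        rowN L.B (L.stride 1) L.n₁ (fun r => bif decide (r.length ≤ L.n₂ + 1) then
          rowN L.B (L.stride 2) L.n₂ (row3 L M num den) (bern L.n₂ r) else none) (bern L.n₁ q)
        else none) = some Q → RepV L.B (L.stride 0) (W1 u) M 1 Q (f1 q) := fun q Q hQ => by
      simp only [Bool.cond_decide, Option.ite_none_right_eq_some] at hQ
      have := repV_rows (hsp 1) r2 (hu 1).1 (hu 1).2 (by simpa only [Bool.cond_decide] using hQ.2)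
      rw [sumW_bern l2 _ _ _ hQ.1, h12] at this
      exact this
    have := repV_rows (hsp 0) r1 (hu 0).1 (hu 0).2 (by simpa only [Bool.cond_decide] using h)
    rw [sumW_bern l1 _ _ _ hlen] at this
    convert this using 1
    simp only [ev4, f1, f2, f3]
    set a3 := (num : ℝ) / den * L.n₃.factorial
    have e3 : ∀ r, monE (fun s => (num : ℝ) / den *
        ((L.n₃.factorial : ℝ) * monE (fun a : ℤ => (a : ℝ)) (u 3) s)) (u 2) r =
        a3 * monE (monE (fun a : ℤ => (a : ℝ)) (u 3)) (u 2) r := fun r =>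
      Five.monE_congr _ r fun s _ => (mul_assoc _ _ _).symm
    set a2 := (L.n₂.factorial : ℝ) * a3
    have e2 : ∀ q, monE (fun r => (L.n₂.factorial : ℝ) * monE (fun s => (num : ℝ) / den *
        ((L.n₃.factorial : ℝ) * monE (fun a : ℤ => (a : ℝ)) (u 3) s)) (u 2) r) (u 1) q =
        a2 * monE (monE (monE (fun a : ℤ => (a : ℝ)) (u 3)) (u 2)) (u 1) q := fun q =>
      Five.monE_congr _ q fun r _ => by rw [e3 r]; simp only [a2]; ring
    have e1 : monE (fun q => (L.n₁.factorial : ℝ) * monE (fun r => (L.n₂.factorial : ℝ) *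
        monE (fun s => (num : ℝ) / den * ((L.n₃.factorial : ℝ) *
          monE (fun a : ℤ => (a : ℝ)) (u 3) s)) (u 2) r) (u 1) q) (u 0) p =
        (L.n₁.factorial : ℝ) * a2 *
          monE (monE (monE (monE (fun a : ℤ => (a : ℝ)) (u 3)) (u 2)) (u 1)) (u 0) p :=
      Five.monE_congr _ p fun q _ => by rw [e2 q]; ring
    rw [e1]
    simp only [facT, a2, a3]; push_cast; ring
  obtain ⟨c, hc, -⟩ := key 0 fun _ => by simp
  have hsize : (L.n₀ + 1) * L.stride 0 = L.size := by
    simp only [Lay.size, Lay.stride, Matrix.cons_val_zero]; ring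
  rw [hsize] at hc
  refine ⟨c, hc, fun u hu => ?_⟩
  obtain ⟨c', hc', hv⟩ := key u hu
  rw [hsize] at hc' hv
  have hW : value L.size (L.W u) c = value L.size
      (fun j => wB L.n₀ (u 0) (1 - u 0) (j / L.stride 0) * W1 u (j % L.stride 0)) c' := by
    refine sum_congr rfl fun j hj => ?_
    rw [pack_inj hB hM hc hc' j (mem_range.1 hj), W_split L u (mem_range.1 hj)]
  rw [hW]
  exact hv

end Vale.Agent.P098.Six
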