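import Vale.Agent.P098.Six.Reduce
import Vale.Agent.P098.Six.Root
import Vale.Agent.P098.Div.Poly

/-!
# P098, six dimensions: the fields of a certificate as nested integer lists

The fields are `g`, `ga`, and `al`, `be`, `b1` affine in the cubic invariant, all over `2 ^ 20`.
-/

namespace Vale.Agent.P098.Six

open Vale.Agent.P098.Div Vale.Agent.P098.Cone
open Vale.Agent.P098.Five (Mdl IsLin monE zadd pmul monE_pmul isLin_int)

/-- A monomial `q w ^ i D ^ j ξ ^ c`. -/
structure IM where
  i : ℕ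
  j : ℕ
  c : ℕ
  q : ℤ

/-- The coefficient lists and the constant `γ = gn / gd`. -/
structure Coef8 where
  g : List IM
  ga : List IM
  al0 : List IM
  al1 : List IM
  be0 : List IM
  be1 : List IM
  b10 : List IM
  b11 : List IM
  gn : ℕ
  gd : ℕ

/-- The common denominator. -/
def S0 : ℕ := 2 ^ 20

/-- A monomial with a power of the invariant. -/
def IM.mono (p : IM) (a : ℕ) : Mono := ⟨p.i, p.j, a, p.c, (p.q : ℚ) / S0⟩

def IM.dw (p : IM) : IM := ⟨p.i - 1, p.j, p.c, p.q * p.i⟩

def IM.dD (p : IM) : IM := ⟨p.i, p.j - 1, p.c, p.q * p.j⟩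

def IM.dx (p : IM) : IM := ⟨p.i, p.j, p.c - 1, p.q * p.c⟩

/-- The field `f₀ + t f₁`. -/
def monos (L L1 : List IM) : List Mono := L.map (IM.mono · 0) ++ L1.map (IM.mono · 1)

/-- The certificate of the coefficients. -/
noncomputable def Coef8.fields (C : Coef8) : FieldsX :=
  polyFields (monos C.g []) (monos C.al0 C.al1) (monos C.be0 C.be1) (monos C.ga [])
    (monos C.b10 C.b11) []

theorem fields_reduced (C : Coef8) : Reduced C.fields := by
  have key : ∀ (L : List IM) (v : Fin 4 → ℝ), pd (pev (monos L [])) 2 v = 0 := by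
    intro L v
    rw [pd_pev]
    induction L with
    | nil => simp [monos, pev]
    | cons p L ih =>
      simp only [monos, List.map_nil, List.append_nil, List.map_cons, pev] at ih ⊢
      rw [ih]; simp [Mono.der, Mono.val, IM.mono]
  exact ⟨rfl, rfl, key _, key _⟩

/-! ### Four nested lists -/

/-- Sum. -/
def qa (p q : P4) : P4 := Mdl.add p q

/-- Multiple. -/
def qc (c : ℤ) (p : P4) : P4 := Mdl.smul c p

/-- Product. -/
def qm (p q : P4) : P4 := pmul (pmul (pmul (pmul (· * ·)))) p q

def cst4 (c : ℤ) : P4 := [[[[c]]]]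

def wV : P4 := [[], [[[1]]]]

def DV : P4 := [[[], [[1]]]]

def xV : P4 := [[[[], [1]]]]

def lV : P4 := [[[[0, 1]]]]

/-- A value after `k` zeros. -/
def shiftL {α : Type} [Mdl α] (k : ℕ) (a : α) : List α := List.replicate k Mdl.zero ++ [a]

/-- The nested list of a monomial. -/
def IM.p4 (p : IM) : P4 := shiftL p.i (shiftL p.j (shiftL p.c [p.q]))

/-- The nested list of a polynomial. -/
def toP : List IM → P4
  | [] => []
  | p :: L => qa p.p4 (toP L)

section
variable (u : Fin 4 → ℝ)

theorem lin4 : IsLin (ev4 u) := (((isLin_int.mon (u 3)).mon (u 2)).mon (u 1)).mon (u 0)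

theorem ev4_qa (p q : P4) : ev4 u (qa p q) = ev4 u p + ev4 u q := (lin4 u).add p q

theorem ev4_qc (c : ℤ) (p : P4) : ev4 u (qc c p) = c * ev4 u p := (lin4 u).smul c p

theorem ev4_qm (p q : P4) : ev4 u (qm p q) = ev4 u p * ev4 u q :=
  monE_pmul (((isLin_int.mon (u 3)).mon (u 2)).mon (u 1))
    (monE_pmul ((isLin_int.mon (u 3)).mon (u 2))
      (monE_pmul (isLin_int.mon (u 3))
        (monE_pmul isLin_int (fun a b => Int.cast_mul a b) (u 3)) (u 2)) (u 1)) (u 0) p q

theorem ev4_cst (c : ℤ) : ev4 u (cst4 c) = c := by simp [ev4, cst4, monE]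

theorem ev4_wV : ev4 u wV = u 0 := by simp [ev4, wV, monE]

theorem ev4_DV : ev4 u DV = u 1 := by simp [ev4, DV, monE]

theorem ev4_xV : ev4 u xV = u 2 := by simp [ev4, xV, monE]

theorem ev4_lV : ev4 u lV = u 3 := by simp [ev4, lV, monE]

theorem monE_shiftL {α : Type} [Mdl α] {f : α → ℝ} (hf : IsLin f) (x : ℝ) (a : α) :
    ∀ k, monE f x (shiftL k a) = x ^ k * f a
  | 0 => by simp [shiftL, monE]
  | k + 1 => by
    have h := monE_shiftL hf x a k
    simp only [shiftL, List.replicate_succ, List.cons_append, monE, hf.zero] at h ⊢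
    rw [h, pow_succ]; ring

theorem ev4_p4 (p : IM) : ev4 u p.p4 = p.q * u 0 ^ p.i * u 1 ^ p.j * u 2 ^ p.c := by
  rw [ev4, IM.p4, monE_shiftL (((isLin_int.mon _).mon _).mon _),
    monE_shiftL ((isLin_int.mon _).mon _), monE_shiftL (isLin_int.mon _)]
  simp [monE]; ring

/-- The point of a certificate over a point of four coordinates and an invariant. -/
def pt4 (t : ℝ) : Fin 4 → ℝ := ![u 0, u 1, t, u 2]

theorem pev_append : ∀ (L L' : List Mono) (v : Fin 4 → ℝ), pev (L ++ L') v = pev L v + pev L' v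
  | [], L', v => by simp [pev]
  | p :: L, L', v => by simp only [List.cons_append, pev, pev_append L L' v]; ring

theorem pev_mono0 (t : ℝ) : ∀ (L : List IM) (a : ℕ),
    pev (L.map (IM.mono · a)) (pt4 u t) = t ^ a * ev4 u (toP L) / S0
  | [], a => by simp [pev, toP, ev4, monE]
  | p :: L, a => by
    have ih := pev_mono0 t L a
    simp only [List.map_cons, pev, toP, ev4_qa, ev4_p4, Mono.val, IM.mono, pt4,
      Matrix.cons_val_zero, Matrix.cons_val_one, Matrix.cons_val] at ih ⊢
    push_cast at ih ⊢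
    rw [ih]; ring

theorem pev_monos (t : ℝ) (L L1 : List IM) :
    pev (monos L L1) (pt4 u t) = (ev4 u (toP L) + t * ev4 u (toP L1)) / S0 := by
  rw [monos, pev_append, pev_mono0, pev_mono0]; ring

theorem der_w (L L1 : List IM) :
    (monos L L1).map (fun p => p.der 0) = monos (L.map IM.dw) (L1.map IM.dw) := by
  simp [monos, List.map_append, Mono.der, IM.mono, IM.dw, Function.comp_def, div_mul_eq_mul_div]

theorem der_D (L L1 : List IM) :
    (monos L L1).map (fun p => p.der 1) = monos (L.map IM.dD) (L1.map IM.dD) := by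
  simp [monos, List.map_append, Mono.der, IM.mono, IM.dD, Function.comp_def, div_mul_eq_mul_div]

theorem der_x (L L1 : List IM) :
    (monos L L1).map (fun p => p.der 3) = monos (L.map IM.dx) (L1.map IM.dx) := by
  simp [monos, List.map_append, Mono.der, IM.mono, IM.dx, Function.comp_def, div_mul_eq_mul_div]

theorem pd_w (t : ℝ) (L L1 : List IM) : pd (pev (monos L L1)) 0 (pt4 u t) =
    (ev4 u (toP (L.map IM.dw)) + t * ev4 u (toP (L1.map IM.dw))) / S0 := by
  rw [pd_pev, der_w, pev_monos]

theorem pd_D (t : ℝ) (L L1 : List IM) : pd (pev (monos L L1)) 1 (pt4 u t) =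
    (ev4 u (toP (L.map IM.dD)) + t * ev4 u (toP (L1.map IM.dD))) / S0 := by
  rw [pd_pev, der_D, pev_monos]

theorem pd_x (t : ℝ) (L L1 : List IM) : pd (pev (monos L L1)) 3 (pt4 u t) =
    (ev4 u (toP (L.map IM.dx)) + t * ev4 u (toP (L1.map IM.dx))) / S0 := by
  rw [pd_pev, der_x, pev_monos]

theorem pd_t (t : ℝ) (L L1 : List IM) :
    pd (pev (monos L L1)) 2 (pt4 u t) = ev4 u (toP L1) / S0 := by
  have h0 : ∀ L : List IM,
      pev ((L.map (IM.mono · 0)).map fun p => p.der 2) (pt4 u t) = 0 := fun L => by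
    induction L with
    | nil => simp [pev]
    | cons p L ih =>
      simp only [List.map_cons, pev] at ih ⊢
      rw [ih]; simp [Mono.der, Mono.val, IM.mono]
  have h1 : ((L1.map (IM.mono · 1)).map fun p => p.der 2) = L1.map (IM.mono · 0) := by
    simp [Mono.der, IM.mono, Function.comp_def]
  rw [pd_pev, monos, List.map_append, pev_append, h0, h1, pev_mono0]
  simp

end

end Vale.Agent.P098.Six
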