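import Vale.Agent.P098.Five.Certificate

/-!
# P098: dimension four from the certificate of dimension five

A list of three eigenvalues completed by a zero is a list of four, and all conditions of the
certificate are inherited; only the condition at the end of the scales has another constant, which
one polynomial inequality covers.
-/

namespace Vale.Agent.P098.Six

open Vale.Agent.P098.Div Vale.Agent.P098.Cone Vale.Agent.P098.Five
open Finset

/-- Four times `4096 ^ 2` times the gain at the end of the scales, at `t = c / 1024`. -/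
def lowP (c : ℤ) : P3 ℤ :=
  pa (pc 5 (pm gP gP)) (pa (pc (-16384) FP) (pc 16 (pm wP (alT (cst c)))))

/-- A subdivision. -/
def treeLowL : Five.Tree :=
    (.node₀ (.node₁ (.node₀ .leaf (.node₁ (.node₀ .leaf (.node₁ .skip (.node₀ .leaf (.node₁ .skip
    .leaf)))) .leaf)) .leaf) (.node₁ (.node₀ (.node₁ .skip (.node₀ (.node₁ (.node₀ .leaf (.node₁
    .skip (.node₀ .leaf (.node₁ .skip .leaf)))) .leaf) (.node₁ .skip (.node₀ (.node₁ (.node₀
    (.node₁ (.node₀ .leaf .skip) .leaf) (.node₁ .skip (.node₀ .leaf .skip))) .leaf) (.node₁ .skip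
    (.node₀ (.node₁ .skip (.node₀ .leaf (.node₁ .skip .leaf))) .skip)))))) .skip) (.node₀ (.node₁
    (.node₀ .leaf (.node₁ (.node₀ .leaf (.node₁ (.node₀ .leaf (.node₁ (.node₀ .leaf .skip)
    .leaf)) .leaf)) .leaf)) .leaf) (.node₁ (.node₀ (.node₁ (.node₀ (.node₁ .skip (.node₀ .leaf
    (.node₁ .skip .leaf))) .skip) (.node₀ .leaf (.node₁ (.node₀ .leaf .skip) .leaf))) .skip)
    .leaf))))

theorem checkLowL : checkBox ⟨5, 4, 0, 0, 1, 1⟩ treeLowL (scalarForm (lowP (-613))) = true := by
  decide +kernel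

/-- A subdivision. -/
def treeLowU : Five.Tree :=
    (.node₀ (.node₁ (.node₀ .leaf (.node₁ (.node₀ .leaf (.node₁ .skip .leaf)) .leaf)) .leaf)
    (.node₁ (.node₀ (.node₁ .skip (.node₀ (.node₁ (.node₀ .leaf (.node₁ .skip (.node₀ .leaf
    (.node₁ .skip .leaf)))) .leaf) (.node₁ .skip (.node₀ (.node₁ (.node₀ .leaf (.node₁ .skip
    (.node₀ .leaf .skip))) .leaf) (.node₁ .skip (.node₀ (.node₁ .skip (.node₀ .leaf (.node₁ .skip
    (.node₀ .leaf .skip)))) .skip)))))) .skip) (.node₀ (.node₁ (.node₀ .leaf (.node₁ (.node₀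
    .leaf (.node₁ (.node₀ .leaf (.node₁ (.node₀ (.node₁ .skip .leaf) .skip) (.node₀ .leaf (.node₁
    (.node₀ .leaf .skip) .leaf)))) .leaf)) .leaf)) .leaf) (.node₁ (.node₀ (.node₁ (.node₀ (.node₁
    .skip (.node₀ (.node₁ (.node₀ .leaf (.node₁ .skip (.node₀ .leaf .skip))) .leaf) (.node₁ .skip
    (.node₀ (.node₁ .skip .leaf) .skip)))) .skip) (.node₀ .leaf (.node₁ (.node₀ (.node₁ .skip
    (.node₀ .leaf (.node₁ .skip .leaf))) .skip) (.node₀ .leaf (.node₁ (.node₀ .leaf .skip)
    .leaf))))) .skip) (.node₀ .leaf (.node₁ (.node₀ .leaf .skip) .leaf))))))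

theorem checkLowU : checkBox ⟨5, 4, 0, 0, 1, 1⟩ treeLowU (scalarForm (lowP 600)) = true := by
  decide +kernel

noncomputable section

variable {m : ℕ}

theorem spectrum_pad {l : Fin m → ℝ} (h : Spectrum l) : Spectrum (Fin.cons 0 l : Fin (m + 1) → ℝ) :=
  ⟨by simp [Fin.sum_univ_succ, h.sum], by simp [Fin.sum_univ_succ, h.sq]⟩

theorem cubic_pad (l : Fin m → ℝ) : cubic (Fin.cons 0 l : Fin (m + 1) → ℝ) = cubic l := by
  simp [cubic, Fin.sum_univ_succ]

theorem pt_pad (l : Fin m → ℝ) (w D : ℝ) : pt (Fin.cons 0 l : Fin (m + 1) → ℝ) w D = pt l w D := by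
  simp [pt, cubic_pad]

theorem quad_pad (c : Fields) (l x : Fin m → ℝ) (w D : ℝ) (k : Fin m) (π : ℝ) :
    quad c (Fin.cons 0 l : Fin (m + 1) → ℝ) w D k.succ (Fin.cons 0 x) π = quad c l w D k x π := by
  have hn : nu (Fin.cons 0 l : Fin (m + 1) → ℝ) (Fin.cons 0 x) = nu l x := by
    simp [nu, Fin.sum_univ_succ]
  have hm : mu (Fin.cons 0 l : Fin (m + 1) → ℝ) (Fin.cons 0 x) = mu l x := by
    simp [mu, Fin.sum_univ_succ]
  have hk : normK k.succ (Fin.cons 0 x : Fin (m + 1) → ℝ) = normK k x := by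
    simp [normK, Fin.sum_univ_succ]
  have hl : normL (Fin.cons 0 l : Fin (m + 1) → ℝ) k.succ (Fin.cons 0 x) = normL l k x := by
    simp [normL, Fin.sum_univ_succ]
  simp only [quad, step, hn, hm, hk, hl, cubic_pad, pt_pad, Fin.cons_succ]

/-- A profile for more eigenvalues is one for fewer. -/
theorem profile_pad {n : ℕ} {φ : ℝ → ℝ} (h : Profile (n + 1) φ) : Profile n φ := by
  induction h with
  | linear c hc =>
    refine .linear c (lt_of_le_of_lt ?_ hc)
    push_cast
    have h1 : (0 : ℝ) < 3 * ((n : ℝ) + 2) := by positivity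
    have h2 : (0 : ℝ) < 3 * ((n : ℝ) + 1 + 2) := by positivity
    have e : 2 * ((n : ℝ) - 1) / (3 * ((n : ℝ) + 2))
        ≤ 2 * ((n : ℝ) + 1 - 1) / (3 * ((n : ℝ) + 1 + 2)) := by
      rw [div_le_div_iff₀ h1 h2]; nlinarith
    linarith
  | step φ ψ _ hφ h0 hb ih =>
    refine .step φ ψ ih hφ h0 fun l hl w D hd hlt k => ?_
    obtain ⟨hp, hq⟩ := hb _ (spectrum_pad hl) w D hd hlt k.succ
    refine ⟨hp, lt_of_lt_of_le hq ?_⟩
    simp only [Fin.cons_succ]
    have hκ : 0 < katoConst n (l k) := by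
      have : (0 : ℝ) ≤ 2 * (n : ℝ) / (3 * ((n : ℝ) + 2)) * l k ^ 2 := by positivity
      rw [katoConst]; linarith
    have hle : katoConst n (l k) ≤ katoConst (n + 1) (l k) := by
      simp only [katoConst]
      push_cast
      have : 2 * (n : ℝ) / (3 * ((n : ℝ) + 2)) ≤ 2 * ((n : ℝ) + 1) / (3 * ((n : ℝ) + 1 + 2)) := by
        rw [div_le_div_iff₀ (by positivity) (by positivity)]; nlinarith
      linarith [mul_le_mul_of_nonneg_right this (sq_nonneg (l k))]
    have h1D : 0 ≤ 1 - D := by linarith [hd.2.2.1]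
    have := div_le_div_of_nonneg_left
      (show (0 : ℝ) ≤ 2 * (w + deriv φ D * l k) ^ 2 by positivity) hκ hle
    linarith [mul_le_mul_of_nonneg_left this h1D]

theorem end_gain {t w D : ℝ} (ht : -(613 / 1024) ≤ t) (ht' : t ≤ 600 / 1024) (hw : 0 ≤ w)
    (hD : 0 ≤ D) (hD' : D ≤ 1) (hdom : 5 * w ^ 2 ≤ 4 * D) :
    0 ≤ 5 / 4 * cert.g ![w, D, t] ^ 2 - cert.F ![w, D, t] + w * cert.al ![w, D, t] := by
  have hl := scalar_nonneg checkLowL hw hD hD' hdom (l := 0) (t := 0) le_rfl zero_le_one (by norm_num)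
  have hu := scalar_nonneg checkLowU hw hD hD' hdom (l := 0) (t := 0) le_rfl zero_le_one (by norm_num)
  simp only [lowP, alT, ev_pa, ev_pc, ev_pm, ev_cst, ev_wP] at hl hu
  push_cast at hl hu
  simp only [cert, fn0, fn1, Matrix.cons_val_zero, Matrix.cons_val_one, Matrix.cons_val]
  linear_combination (1 / (4 * 4096 ^ 2 * 1213)) * mul_nonneg (show (0 : ℝ) ≤ 600 - 1024 * t by linarith) hl
    + (1 / (4 * 4096 ^ 2 * 1213)) * mul_nonneg (show (0 : ℝ) ≤ 613 + 1024 * t by linarith) hu

/-- The certificate of dimension five for three eigenvalues. -/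
theorem certifies_four : Certifies 3 (10001 / 10000) cert prof where
  smooth := cert_smooth
  hardy := by norm_num
  quad l hl w D hd k x π hx := by
    have h := Five.certifies.quad _ (spectrum_pad hl) w D hd k.succ (Fin.cons 0 x) π
      (by simp [Fin.sum_univ_succ] at hx ⊢; linarith)
    simpa only [quad_pad, Div.const, pt_pad, cubic_pad] using h
  triple l hl w D hd i j k hij hjk hik := by
    have h := Five.certifies.triple _ (spectrum_pad hl) w D hd i.succ j.succ k.succ
      (by simpa using hij) (by simpa using hjk) (by simpa using hik)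
    simpa only [pt_pad, cubic_pad, Fin.cons_succ] using h
  endpoint l hl w D hd := by
    have h := Five.certifies.endpoint _ (spectrum_pad hl) w D hd
    simp only [Div.const, pt_pad, cubic_pad] at h
    obtain ⟨hw, hD, hD', hdom⟩ := dom_five hd
    obtain ⟨qA, qB, hA, hB, hA6, hB6, -⟩ := seg_ok (range_of_spectrum (spectrum_pad hl) 0)
    rw [cubic_pad] at hA hB
    have hg := end_gain (t := cubic l) (by linarith) (by linarith) hw hD hD' hdom
    simp only [Div.const]
    push_cast at h ⊢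
    simp only [pt] at h ⊢
    linear_combination h + mul_nonneg (show (0 : ℝ) ≤ 1 - D by linarith) hg
  bdry l hl k hk := by
    have h := Five.certifies.bdry _ (spectrum_pad hl) k.succ (by simpa using hk)
    simpa [pt_pad, cubic_pad, Fin.cons_succ, Fin.sum_univ_succ] using h
  nonzero l hl w D hd := by
    have h := Five.certifies.nonzero _ (spectrum_pad hl) w D hd
    simpa only [pt_pad] using h

theorem profile_four : Profile 3 prof := profile_pad Five.profile_prof

end

end Vale.Agent.P098.Six
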