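import Vale.Agent.P098.Cone.Flat

/-!
# P098: regular cones in dimensions two and three

In dimension two the second derivatives of a regular cone vanish; in dimension three the cubic trace
of the Hessian vanishes on the free boundary, so the rigidity theorem with exponent one half applies.
-/

namespace Vale.Agent.P098.Six

open Vale.Agent.P098.Cone Finset

theorem sym2_zero {a b x y : ℝ} (h0 : a * x + b * y = 0) (h1 : b * x + -a * y = 0)
    (hxy : x ≠ 0 ∨ y ≠ 0) : a = 0 ∧ b = 0 := by
  have e : a * a + b * b = 0 := by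
    rcases hxy with h | h
    · exact mul_left_cancel₀ h (by linear_combination a * h0 + b * h1)
    · exact mul_left_cancel₀ h (by linear_combination b * h0 - a * h1)
  exact ⟨by nlinarith [sq_nonneg b, sq_nonneg a], by nlinarith [sq_nonneg b, sq_nonneg a]⟩

/-- In dimension two the minimality is not needed. -/
theorem flat_two {u w : (Fin 2 → ℝ) → ℝ} {O : Set (Fin 2 → ℝ)} (h : RegularCone u O w) (hne : u ≠ 0) :
    ∃ e : Fin 2 → ℝ, ∑ i, e i ^ 2 = 1 ∧ ∀ x, u x = max (∑ i, e i * x i) 0 := by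
  have hs := h.shrink
  refine hs.flat_of_hess le_rfl (fun z hz i j => ?_) hne
  have hzO := hs.mem_of_pos hz
  have hx0 : z ≠ 0 := hzO.2.2
  have hr := fun k => hs.app_hess_radial (subset_closure hz) hzO k
  have hc := hess_comm_of hs.smooth hs.isOpen hzO 1 0
  have ht := hs.trace_pos hz
  have h0 := hr 0
  have h1 := hr 1
  simp only [app, hessMat, Fin.sum_univ_two] at h0 h1 ht
  have h11 : hess w 1 1 z = -hess w 0 0 z := by linarith
  rw [hc, h11] at h1
  have hxy : z 0 ≠ 0 ∨ z 1 ≠ 0 := by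
    by_contra hno
    simp only [not_or, not_not] at hno
    exact hx0 (funext fun k => by fin_cases k <;> simp [hno.1, hno.2])
  obtain ⟨ha, hb⟩ := sym2_zero h0 h1 hxy
  fin_cases i <;> fin_cases j
  · exact ha
  · exact hb
  · exact hc.trans hb
  · exact h11.trans (by simp [ha])

theorem cubic_trace_three (A : Fin 3 → Fin 3 → ℝ) (hs : ∀ i j, A i j = A j i)
    (ht : ∑ i, A i i = 0) {x : Fin 3 → ℝ} (hx : x ≠ 0) (hk : ∀ i, ∑ j, A i j * x j = 0) :
    ∑ i, ∑ j, (∑ k, A i k * A k j) * A i j = 0 := by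
  simp only [Fin.sum_univ_three] at ht hk ⊢
  have k0 := hk 0
  have k1 := hk 1
  have k2 := hk 2
  rw [hs 1 0] at k1
  rw [hs 2 0, hs 2 1] at k2
  rw [hs 1 0, hs 2 0, hs 2 1]
  have h22 : A 2 2 = -A 0 0 - A 1 1 := by linarith
  rw [h22] at k2 ⊢
  obtain ⟨i, hi⟩ : ∃ i, x i ≠ 0 := Function.ne_iff.1 hx
  refine mul_left_cancel₀ hi ?_
  rw [mul_zero]
  generalize A 0 0 = a, A 1 1 = b, A 0 1 = c, A 0 2 = e, A 1 2 = f at k0 k1 k2 ⊢
  fin_cases i
  · simp only [Fin.zero_eta]
    linear_combination 3 * (b * (-a - b) - f * f) * k0 + 3 * (e * f - c * (-a - b)) * k1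
      + 3 * (c * f - b * e) * k2
  · simp only [Fin.mk_one]
    linear_combination 3 * (e * f - c * (-a - b)) * k0 + 3 * (a * (-a - b) - e * e) * k1
      + 3 * (c * e - a * f) * k2
  · simp only [Fin.reduceFinMk]
    linear_combination 3 * (c * f - b * e) * k0 + 3 * (c * e - a * f) * k1
      + 3 * (a * b - c * c) * k2

/-- Dimension three. -/
theorem flat_three {u w : (Fin 3 → ℝ) → ℝ} {O : Set (Fin 3 → ℝ)} (h : RegularCone u O w)
    (hmin : IsMinimizer u) (hne : u ≠ 0) :
    ∃ e : Fin 3 → ℝ, ∑ i, e i ^ 2 = 1 ∧ ∀ x, u x = max (∑ i, e i * x i) 0 := by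
  refine flat_of_condition (q := 1 / 2) h hmin hne le_rfl (by norm_num) (by norm_num) (by norm_num) ?_
  intro x hx hx0
  have hcl := frontier_subset_closure hx
  have hxO := h.cover x hcl hx0
  rw [show (1 / (1 / 2 : ℝ) - 2) * meanCurv w x * hessSq w x = 0 by norm_num]
  refine le_of_eq ?_
  simp only [dot2, hessMat]
  exact cubic_trace_three (fun i j => hess w i j x) (fun i j => hess_comm_of h.smooth h.isOpen hxO i j)
    (h.trace hcl hxO) hx0 fun i => h.app_hess_radial hcl hxO i

end Vale.Agent.P098.Six
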