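import Vale.Agent.P098.Cone.Example
import Vale.Agent.P098.Div.Main
import Vale.Agent.P098.Div.ProfileSix
import Vale.Agent.P098.Five.Certificate
import Vale.Agent.P098.Six.Four
import Vale.Agent.P098.Six.Low

/-!
# P098: from a certificate in dimension six to the rigidity of regular minimising cones

With the certificate of dimension five, which also serves dimension four, and the direct arguments
in dimensions two and three, this covers every dimension from two to six.
-/

namespace Vale.Agent.P098.Six

open Vale.Agent.P098.Cone Vale.Agent.P098.Div Set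

/-- The rigidity in every dimension from two to six, given that of dimension six. -/
theorem flat_le_six {γ : ℝ} {c : FieldsX} (hc : CertifiesX 5 γ c phiSix) :
    ∀ d : ℕ, 2 ≤ d → d ≤ 6 →
      (∀ (u w : (Fin d → ℝ) → ℝ) (O : Set (Fin d → ℝ)),
        RegularCone u O w → IsMinimizer u → u ≠ 0 →
        ∃ e : Fin d → ℝ, ∑ i, e i ^ 2 = 1 ∧ ∀ x, u x = max (∑ i, e i * x i) 0) ∧
      (∀ e : Fin d → ℝ, ∑ i, e i ^ 2 = 1 →
        RegularCone (fun x => max (∑ i, e i * x i) 0) univ (fun x => ∑ i, e i * x i) ∧
          IsMinimizer (fun x => max (∑ i, e i * x i) 0)) := by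
  intro d h2 h6
  refine ⟨?_, fun _ he => ⟨regularCone_half he, isMinimizer_half he⟩⟩
  intro u w O h hmin hne
  interval_cases d
  · exact flat_two h hne
  · exact flat_three h hmin hne
  · exact flat_of_certifies (by norm_num) h hmin hne profile_four certifies_four
  · exact flat_of_certifies (by norm_num) h hmin hne Five.profile_prof Five.certifies
  · exact flat_of_certifiesX (by norm_num) h hmin hne profile_phiSix hc

end Vale.Agent.P098.Six
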