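import Vale.Agent.P098.Six.Axis

/-!
# P098, six dimensions: halving a packed array along an axis
-/

namespace Vale.Agent.P098.Six

open Finset

/-- The multiple by `2 ^ k`, by a shift. -/
def shlZ (k : ℕ) : ℤ → ℤ
  | Int.ofNat n => Int.ofNat (n <<< k)
  | Int.negSucc n => Int.negSucc ((n + 1) <<< k - 1)

theorem shlZ_eq (k : ℕ) : ∀ a : ℤ, shlZ k a = ((2 ^ k : ℕ) : ℤ) * a
  | Int.ofNat n => by
    simp only [shlZ, Nat.shiftLeft_eq, Int.ofNat_eq_natCast, Nat.cast_mul]; ring
  | Int.negSucc n => by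
    have h : 1 ≤ (n + 1) * 2 ^ k := Nat.mul_pos (by omega) (by positivity)
    simp only [shlZ, Nat.shiftLeft_eq, Int.negSucc_eq]
    rw [Nat.cast_sub h]; push_cast; ring

/-- The packed array with the given slices. -/
def joinP (BS : ℕ) : List ℤ → ℤ
  | [] => 0
  | a :: p => a + shlZ BS (joinP BS p)

/-- The constants of an axis of degree `n`: shift, total bias, mask and bias of the position `0`. -/
structure Ax where
  n : ℕ
  BS : ℕ
  H : ℕ
  X : ℕ
  H0 : ℕ

/-- The constants for `O` repetitions of stride `S` and blocks of `B` bits. -/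
def axC (B O n S : ℕ) : Ax :=
  ⟨n, B * S, biasC B (O * (n + 1) * S), maskC B O (n + 1) S, biasA B O (n + 1) S⟩

/-- All slices along an axis. -/
def slices (A : Ax) (P : ℤ) : List ℤ :=
  (List.range (A.n + 1)).map (sliceP A.X A.H0 (biased A.H P) A.BS)

/-- Doubling `k` times. -/
def dblZ (k : ℕ) (a : ℤ) : ℤ := shlZ k a

/-- The left half along an axis of degree `n`. -/
def halfLo (A : Ax) (P : ℤ) : ℤ := joinP A.BS (dL dblZ A.n (slices A P))

/-- The right half. -/
def halfHi (A : Ax) (P : ℤ) : ℤ := joinP A.BS (dR dblZ A.n (slices A P))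

/-- Entries of the other indices. -/
abbrev Ghost : Type := ℕ → ℕ → ℤ

/-- Doubling entries `k` times. -/
def dblG (k : ℕ) (a : Ghost) : Ghost := (2 ^ k : ℤ) • a

variable {B O m S : ℕ}

theorem pk_add (a b : Ghost) : pk B O m S (a + b) = pk B O m S a + pk B O m S b := by
  simp [pk, sum_add_distrib, add_mul]

theorem pk_dblG (k : ℕ) (a : Ghost) : pk B O m S (dblG k a) = dblZ k (pk B O m S a) := by
  simp only [pk, dblG, dblZ, shlZ_eq, Pi.smul_apply, smul_eq_mul, mul_sum, mul_assoc]
  push_cast; rfl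

theorem map_adj {α β : Type} [AddCommMonoid α] [AddCommMonoid β] {φ : α → β}
    (h : ∀ a b, φ (a + b) = φ a + φ b) : ∀ p : List α, (adj p).map φ = adj (p.map φ)
  | [] => rfl
  | [a] => rfl
  | a :: b :: p => by simp [adj, h, map_adj h (b :: p)]

theorem map_dL {α β : Type} [AddCommMonoid α] [AddCommMonoid β] {φ : α → β}
    (h : ∀ a b, φ (a + b) = φ a + φ b) {d : ℕ → α → α} {d' : ℕ → β → β}
    (hd : ∀ k a, φ (d k a) = d' k (φ a)) : ∀ n (p : List α), (dL d n p).map φ = dL d' n (p.map φ)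
  | n, [] => by cases n <;> rfl
  | 0, a :: p => rfl
  | n + 1, a :: p => by simp [dL, hd, map_dL h hd n, map_adj h]

theorem map_dR {α β : Type} [AddCommMonoid α] [AddCommMonoid β] {φ : α → β}
    (h : ∀ a b, φ (a + b) = φ a + φ b) {d : ℕ → α → α} {d' : ℕ → β → β}
    (hd : ∀ k a, φ (d k a) = d' k (φ a)) (n : ℕ) (p : List α) :
    (dR d n p).map φ = dR d' n (p.map φ) := by
  simp [dR, List.map_reverse, map_dL h hd]

theorem joinP_eq (B S : ℕ) : ∀ p : List ℤ,
    joinP (B * S) p = ∑ i ∈ range p.length, 2 ^ (B * (i * S)) * p.getD i 0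
  | [] => by simp [joinP]
  | a :: p => by
    rw [joinP, shlZ_eq, joinP_eq B S p, List.length_cons, sum_range_succ', mul_sum, add_comm]
    simp only [List.getD_cons_zero, List.getD_cons_succ, Nat.zero_mul, Nat.mul_zero, pow_zero, one_mul,
      Nat.cast_pow, Nat.cast_ofNat]
    refine congrArg₂ _ (sum_congr rfl fun i _ => ?_) rfl
    rw [Nat.succ_mul, Nat.mul_add, pow_add]; ring

theorem adj_bound {N : ℤ} : ∀ p : List Ghost, (∀ a ∈ p, ∀ o < O, ∀ r < S, |a o r| ≤ N) →
    ∀ a ∈ adj p, ∀ o < O, ∀ r < S, |a o r| ≤ 2 * N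
  | [], _ => by simp [adj]
  | [a], _ => by simp [adj]
  | a :: b :: p, h => by
    intro x hx o ho r hr
    rcases List.mem_cons.1 hx with rfl | hx
    · have h1 := h a (by simp) o ho r hr
      have h2 := h b (by simp) o ho r hr
      calc |a o r + b o r| ≤ |a o r| + |b o r| := abs_add_le _ _
        _ ≤ 2 * N := by linarith
    · exact adj_bound (b :: p) (fun y hy => h y (List.mem_cons_of_mem _ hy)) x hx o ho r hr

theorem dL_bound {N : ℤ} : ∀ n (p : List Ghost), (∀ a ∈ p, ∀ o < O, ∀ r < S, |a o r| ≤ N) →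
    ∀ a ∈ dL dblG n p, ∀ o < O, ∀ r < S, |a o r| ≤ 2 ^ n * N
  | n, [], _ => by cases n <;> simp [dL]
  | 0, a :: p, h => by
    intro x hx o ho r hr
    simp only [dL, List.mem_singleton] at hx
    simpa [hx] using h a (by simp) o ho r hr
  | n + 1, a :: p, h => by
    intro x hx o ho r hr
    rcases List.mem_cons.1 hx with rfl | hx
    · simp only [dblG, Pi.smul_apply, smul_eq_mul, abs_mul, abs_pow, abs_two]
      exact mul_le_mul_of_nonneg_left (h a (by simp) o ho r hr) (by positivity)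
    · have := dL_bound n _ (adj_bound (a :: p) h) x hx o ho r hr
      rw [pow_succ]; linarith

/-- The slices of entries along an axis. -/
def gslices (m S : ℕ) (c : ℕ → ℤ) : List Ghost :=
  (List.range m).map fun i o r => c (ix m S o i r)

/-- The entries with the given slices. -/
def glue (m S : ℕ) (q : List Ghost) (j : ℕ) : ℤ := q.getD (j / S % m) 0 (j / S / m) (j % S)

theorem slices_eq {n M : ℕ} {P : ℤ} {c : ℕ → ℤ} (h : Packs B (O * (n + 1) * S) M P c) (hB : 0 < B)
    (hS : 0 < S) (hM : M < 2 ^ (B - 1)) :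
    slices (axC B O n S) P = (gslices (n + 1) S c).map (pk B O (n + 1) S) := by
  rw [slices, gslices, List.map_map]
  exact List.map_congr_left fun i hi => slice_eq h hB hS hM (List.mem_range.1 hi)

theorem glue_ix {q : List Ghost} {o i r : ℕ} (hi : i < m) (hr : r < S) :
    glue m S q (ix m S o i r) = q.getD i 0 o r := by
  obtain ⟨h1, h2, h3⟩ := ix_digit (o := o) hi hr
  simp only [glue, h1, h2, h3]

theorem packs_glue {N : ℕ} {q : List Ghost} (hq : q.length = m)
    (hb : ∀ a ∈ q, ∀ o < O, ∀ r < S, |a o r| ≤ (N : ℤ)) :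
    Packs B (O * m * S) N (joinP (B * S) (q.map (pk B O m S))) (glue m S q) := by
  constructor
  · rw [joinP_eq, List.length_map, hq, pack_axis]
    refine sum_congr rfl fun i hi => ?_
    have hi' := mem_range.1 hi
    rw [List.getD_eq_getElem?_getD, List.getElem?_map, List.getElem?_eq_getElem (by omega)]
    refine congrArg _ ?_
    simp only [Option.map_some, Option.getD_some, pk]
    refine sum_congr rfl fun o _ => sum_congr rfl fun r hr => ?_
    rw [glue_ix hi' (mem_range.1 hr), List.getD_eq_getElem?_getD, List.getElem?_eq_getElem (by omega)]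
    rfl
  · intro j hj
    have hS : 0 < S := by rcases Nat.eq_zero_or_pos S with rfl | h <;> simp_all
    have hm : 0 < m := by rcases Nat.eq_zero_or_pos m with rfl | h <;> simp_all
    have hi : j / S % m < m := Nat.mod_lt _ hm
    have ho : j / S / m < O := by
      rw [Nat.div_lt_iff_lt_mul hm, Nat.div_lt_iff_lt_mul hS]
      exact hj
    rw [glue, List.getD_eq_getElem?_getD, List.getElem?_eq_getElem (by omega)]
    exact hb _ (List.getElem_mem _) _ ho _ (Nat.mod_lt _ hS)

/-- The reading of entries of the other indices. -/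
def rd (O S : ℕ) (ω : ℕ → ℕ → ℝ) (a : Ghost) : ℝ :=
  ∑ o ∈ range O, ∑ r ∈ range S, ω o r * a o r

theorem rd_zero (ω : ℕ → ℕ → ℝ) : rd O S ω 0 = 0 := by simp [rd]

theorem rd_add (ω : ℕ → ℕ → ℝ) (a b : Ghost) : rd O S ω (a + b) = rd O S ω a + rd O S ω b := by
  simp [rd, mul_add, sum_add_distrib]

theorem rd_dblG (ω : ℕ → ℕ → ℝ) (k : ℕ) (a : Ghost) :
    rd O S ω (dblG k a) = 2 ^ k * rd O S ω a := by
  simp only [rd, dblG, Pi.smul_apply, smul_eq_mul, mul_sum, Int.cast_mul, Int.cast_pow, Int.cast_ofNat]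
  exact sum_congr rfl fun o _ => sum_congr rfl fun r _ => by ring

/-- The value of an array at weights `W`. -/
def value (J : ℕ) (W : ℕ → ℝ) (c : ℕ → ℤ) : ℝ := ∑ j ∈ range J, W j * c j

variable {n : ℕ}

theorem value_axis (W : ℕ → ℝ) (ω : ℕ → ℕ → ℝ) (u v : ℝ)
    (hW : ∀ o < O, ∀ i < n + 1, ∀ r < S, W (ix (n + 1) S o i r) = wB n u v i * ω o r)
    (q : List Ghost) (c : ℕ → ℤ)
    (hc : ∀ o < O, ∀ i < n + 1, ∀ r < S, c (ix (n + 1) S o i r) = q.getD i 0 o r) :
    value (O * (n + 1) * S) W c = bE (rd O S ω) n u v q := by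
  rw [value, sum_axis, bE_eq_sum (rd_zero ω)]
  refine sum_congr rfl fun i hi => ?_
  rw [rd, mul_sum]
  refine sum_congr rfl fun o ho => ?_
  rw [mul_sum]
  refine sum_congr rfl fun r hr => ?_
  have h1 := hW o (mem_range.1 ho) i (mem_range.1 hi) r (mem_range.1 hr)
  have h2 := hc o (mem_range.1 ho) i (mem_range.1 hi) r (mem_range.1 hr)
  simp only [ix] at h1 h2 ⊢
  rw [h1, h2]; ring

/-- Weights factor along the axis as Bernstein weights at `(u, v)` times `ω`. -/
def Factors (O n S : ℕ) (W : ℕ → ℝ) (u v : ℝ) (ω : ℕ → ℕ → ℝ) : Prop :=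
  ∀ o < O, ∀ i < n + 1, ∀ r < S, W (ix (n + 1) S o i r) = wB n u v i * ω o r

theorem getD_gslices (c : ℕ → ℤ) {i o r : ℕ} (hi : i < m) :
    (gslices m S c).getD i 0 o r = c (ix m S o i r) := by
  simp [gslices, List.getD_eq_getElem?_getD, hi]

theorem gslices_bound {M : ℕ} {P : ℤ} {c : ℕ → ℤ} (h : Packs B (O * m * S) M P c) :
    ∀ a ∈ gslices m S c, ∀ o < O, ∀ r < S, |a o r| ≤ (M : ℤ) := by
  intro a ha o ho r hr
  obtain ⟨i, hi, rfl⟩ := List.mem_map.1 ha
  exact h.bound _ (ix_lt ho (List.mem_range.1 hi) hr)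

/-- The halves of an array, with their values. -/
theorem halves_sound {M : ℕ} {P : ℤ} {c : ℕ → ℤ} (h : Packs B (O * (n + 1) * S) M P c)
    (hB : 0 < B) (hS : 0 < S) (hM : M < 2 ^ (B - 1)) :
    ∃ cL cR, Packs B (O * (n + 1) * S) (2 ^ n * M) (halfLo (axC B O n S) P) cL ∧
      Packs B (O * (n + 1) * S) (2 ^ n * M) (halfHi (axC B O n S) P) cR ∧
      ∀ (ω : ℕ → ℕ → ℝ) (W W' : ℕ → ℝ) (u v : ℝ), Factors O n S W' u v ω →
        (Factors O n S W (u / 2) (v + u / 2) ω →
          value (O * (n + 1) * S) W' cL = 2 ^ n * value (O * (n + 1) * S) W c) ∧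
        (Factors O n S W (u + v / 2) (v / 2) ω →
          value (O * (n + 1) * S) W' cR = 2 ^ n * value (O * (n + 1) * S) W c) := by
  set g := gslices (n + 1) S c with hg
  have hl : g.length = n + 1 := by simp [hg, gslices]
  have hlL : (dL dblG n g).length = n + 1 := length_dL _ _ _ hl
  have hlR : (dR dblG n g).length = n + 1 := by
    rw [dR, List.length_reverse, length_dL _ _ _ (by simpa)]
  have hb := gslices_bound h
  refine ⟨glue (n + 1) S (dL dblG n g), glue (n + 1) S (dR dblG n g), ?_, ?_, fun ω W W' u v hW' => ?_⟩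
  · rw [halfLo, slices_eq h hB hS hM]
    simp only [axC]
    rw [← map_dL pk_add pk_dblG]
    exact packs_glue hlL fun a ha o ho r hr => by
      push_cast; exact dL_bound n g hb a ha o ho r hr
  · rw [halfHi, slices_eq h hB hS hM]
    simp only [axC]
    rw [← map_dR pk_add pk_dblG]
    refine packs_glue hlR fun a ha o ho r hr => ?_
    push_cast
    exact dL_bound n g.reverse (fun a ha => hb a (List.mem_reverse.1 ha)) a
      (List.mem_reverse.1 ha) o ho r hr
  · have hc : ∀ o < O, ∀ i < n + 1, ∀ r < S, c (ix (n + 1) S o i r) = g.getD i 0 o r :=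
      fun o _ i hi r _ => (getD_gslices c hi).symm
    constructor <;> intro hW
    · rw [value_axis W' ω u v hW' (dL dblG n g) _ fun o _ i hi r hr => glue_ix hi hr,
        value_axis W ω _ _ hW g c hc,
        bE_dL (rd_zero ω) (rd_add ω) (rd_dblG ω) u v n g hl]
    · rw [value_axis W' ω u v hW' (dR dblG n g) _ fun o _ i hi r hr => glue_ix hi hr,
        value_axis W ω _ _ hW g c hc,
        bE_dR (rd_zero ω) (rd_add ω) (rd_dblG ω) u v n g hl]

end Vale.Agent.P098.Six
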