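import Vale.Agent.P098.Six.Round

/-!
# P098, six dimensions: packed polynomials in four variables on the unit box

`Rep L M E P f` says that `P` packs an array of the layout `L`, with entries bounded by `M`, whose
value in the Bernstein weights differs from `f` by at most `E` on the unit box.
-/

namespace Vale.Agent.P098.Six

open Finset

/-- A layout: bits of a block and the four degrees. -/
structure Lay where
  B : ℕ
  n₀ : ℕ
  n₁ : ℕ
  n₂ : ℕ
  n₃ : ℕ

namespace Lay

variable (L : Lay)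

/-- The degree along an axis. -/
def deg : Fin 4 → ℕ := ![L.n₀, L.n₁, L.n₂, L.n₃]

/-- The stride of an axis. -/
def stride : Fin 4 → ℕ :=
  ![(L.n₁ + 1) * (L.n₂ + 1) * (L.n₃ + 1), (L.n₂ + 1) * (L.n₃ + 1), L.n₃ + 1, 1]

/-- The repetitions of an axis. -/
def outer : Fin 4 → ℕ :=
  ![1, L.n₀ + 1, (L.n₀ + 1) * (L.n₁ + 1), (L.n₀ + 1) * (L.n₁ + 1) * (L.n₂ + 1)]

/-- The number of blocks. -/
def size : ℕ := (L.n₀ + 1) * (L.n₁ + 1) * (L.n₂ + 1) * (L.n₃ + 1)

/-- The digit of an index along an axis. -/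
def digit (a : Fin 4) (j : ℕ) : ℕ := j / L.stride a % (L.deg a + 1)

/-- The Bernstein weights. -/
noncomputable def W (u : Fin 4 → ℝ) (j : ℕ) : ℝ :=
  ∏ a, wB (L.deg a) (u a) (1 - u a) (L.digit a j)

theorem size_eq (a : Fin 4) : L.size = L.outer a * (L.deg a + 1) * L.stride a := by
  fin_cases a <;> simp [size, outer, deg, stride] <;> ring

theorem stride_pos (a : Fin 4) : 0 < L.stride a := by
  fin_cases a <;> simp [stride]

end Lay

theorem digit_low {S S' m' q r : ℕ} (hS : 0 < S') (h : S' * m' ∣ S) :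
    (q * S + r) / S' % m' = r / S' % m' := by
  obtain ⟨K, rfl⟩ := h
  rw [show q * (S' * m' * K) + r = S' * (m' * (q * K)) + r by ring, Nat.mul_add_div hS,
    Nat.mul_add_mod]

theorem digit_high {S S' m m' o i r : ℕ} (hi : i < m) (hr : r < S) (h : S * m ∣ S') :
    ix m S o i r / S' % m' = o / (S' / (S * m)) % m' := by
  obtain ⟨K, rfl⟩ := h
  rw [Nat.mul_div_cancel_left _ (Nat.mul_pos (by omega) (by omega) : 0 < S * m),
    ← Nat.div_div_eq_div_mul, ← Nat.div_div_eq_div_mul, (ix_digit hi hr).2.1]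

namespace Lay

variable (L : Lay)

theorem stride_dvd {a b : Fin 4} (h : a < b) : L.stride b * (L.deg b + 1) ∣ L.stride a := by
  have h01 : L.stride 0 = L.stride 1 * (L.deg 1 + 1) := by
    show (L.n₁ + 1) * (L.n₂ + 1) * (L.n₃ + 1) = (L.n₂ + 1) * (L.n₃ + 1) * (L.n₁ + 1)
    ring
  have h12 : L.stride 1 = L.stride 2 * (L.deg 2 + 1) := by
    show (L.n₂ + 1) * (L.n₃ + 1) = (L.n₃ + 1) * (L.n₂ + 1)
    ring
  have h23 : L.stride 2 = L.stride 3 * (L.deg 3 + 1) := by
    show L.n₃ + 1 = 1 * (L.n₃ + 1)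
    ring
  have d12 : L.stride 2 ∣ L.stride 1 := ⟨_, h12⟩
  have d01 : L.stride 1 ∣ L.stride 0 := ⟨_, h01⟩
  have d02 : L.stride 2 ∣ L.stride 0 := d12.trans d01
  have e01 : L.stride 1 * (L.deg 1 + 1) ∣ L.stride 0 := by rw [← h01]
  have e12 : L.stride 2 * (L.deg 2 + 1) ∣ L.stride 1 := by rw [← h12]
  have e23 : L.stride 3 * (L.deg 3 + 1) ∣ L.stride 2 := by rw [← h23]
  have e02 := e12.trans d01
  have e13 := e23.trans d12
  have e03 := e23.trans d02
  fin_cases a <;> fin_cases b <;> first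
    | exact absurd h (by decide)
    | assumption

theorem digit_indep {a b : Fin 4} (hab : a ≠ b) {o i i' r : ℕ} (hi : i < L.deg a + 1)
    (hi' : i' < L.deg a + 1) (hr : r < L.stride a) :
    L.digit b (ix (L.deg a + 1) (L.stride a) o i r) =
      L.digit b (ix (L.deg a + 1) (L.stride a) o i' r) := by
  have h : L.stride b * (L.deg b + 1) ∣ L.stride a ∨ L.stride a * (L.deg a + 1) ∣ L.stride b := by
    rcases lt_or_gt_of_ne hab with hlt | hlt
    · left; exact L.stride_dvd hlt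
    · right; exact L.stride_dvd hlt
  unfold digit
  rcases h with h | h
  · simp only [ix, digit_low (L.stride_pos b) h]
  · rw [digit_high hi hr h, digit_high hi' hr h]

/-- The weights factor along each axis. -/
theorem factors (a : Fin 4) (u : Fin 4 → ℝ) :
    Factors (L.outer a) (L.deg a) (L.stride a) (L.W u) (u a) (1 - u a) fun o r =>
      ∏ b ∈ univ.erase a, wB (L.deg b) (u b) (1 - u b)
        (L.digit b (ix (L.deg a + 1) (L.stride a) o 0 r)) := by
  intro o _ i hi r hr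
  rw [W, ← Finset.mul_prod_erase univ _ (mem_univ a)]
  refine congrArg₂ (· * ·) ?_ (Finset.prod_congr rfl fun b hb => ?_)
  · rw [digit, (ix_digit hi hr).1]
  · rw [L.digit_indep (Ne.symm (Finset.ne_of_mem_erase hb)) hi (Nat.succ_pos _) hr]

theorem W_nonneg {u : Fin 4 → ℝ} (hu : ∀ a, 0 ≤ u a ∧ u a ≤ 1) (j : ℕ) : 0 ≤ L.W u j :=
  Finset.prod_nonneg fun a _ => wB_nonneg (hu a).1 (by linarith [(hu a).2]) _ _

theorem sum_W (u : Fin 4 → ℝ) : ∑ j ∈ range L.size, L.W u j = 1 := by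
  have split : ∀ (O m : ℕ) (f g : ℕ → ℝ), ∑ j ∈ range (O * m * 1), f (j / m) * g (j % m) =
      (∑ i ∈ range m, g i) * ∑ o ∈ range O, f o := by
    intro O m f g
    rw [sum_axis, sum_mul_sum]
    refine sum_congr rfl fun i hi => sum_congr rfl fun o _ => ?_
    have hi' := mem_range.1 hi
    rw [sum_range_one]
    have e : ((o * m + i) * 1 + 0) = m * o + i := by ring
    rw [e, Nat.mul_add_div (by omega), Nat.div_eq_of_lt hi', Nat.mul_add_mod, Nat.mod_eq_of_lt hi',
      Nat.add_zero, mul_comm]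
  have e : ∀ j, L.W u j =
      (wB L.n₀ (u 0) (1 - u 0) (j / (L.n₃ + 1) / (L.n₂ + 1) / (L.n₁ + 1) % (L.n₀ + 1)) *
        wB L.n₁ (u 1) (1 - u 1) (j / (L.n₃ + 1) / (L.n₂ + 1) % (L.n₁ + 1)) *
          wB L.n₂ (u 2) (1 - u 2) (j / (L.n₃ + 1) % (L.n₂ + 1))) *
            wB L.n₃ (u 3) (1 - u 3) (j % (L.n₃ + 1)) := by
    intro j
    simp only [W, digit, deg, stride, Fin.prod_univ_four, Matrix.cons_val_zero, Matrix.cons_val_one,
      Matrix.cons_val, Nat.div_one, Nat.div_div_eq_div_mul]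
    rw [show (L.n₁ + 1) * (L.n₂ + 1) * (L.n₃ + 1) = (L.n₃ + 1) * (L.n₂ + 1) * (L.n₁ + 1) by ring,
      show (L.n₂ + 1) * (L.n₃ + 1) = (L.n₃ + 1) * (L.n₂ + 1) by ring]
  rw [sum_congr rfl fun j _ => e j, size, ← Nat.mul_one (_ * (L.n₃ + 1)),
    split _ _ (fun k => wB L.n₀ (u 0) (1 - u 0) (k / (L.n₂ + 1) / (L.n₁ + 1) % (L.n₀ + 1)) *
      wB L.n₁ (u 1) (1 - u 1) (k / (L.n₂ + 1) % (L.n₁ + 1)) *
        wB L.n₂ (u 2) (1 - u 2) (k % (L.n₂ + 1))) _, sum_wB, ← Nat.mul_one (_ * (L.n₂ + 1)),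
    split _ _ (fun k => wB L.n₀ (u 0) (1 - u 0) (k / (L.n₁ + 1) % (L.n₀ + 1)) *
      wB L.n₁ (u 1) (1 - u 1) (k % (L.n₁ + 1))) _, sum_wB, ← Nat.mul_one (_ * (L.n₁ + 1)),
    split _ _ (fun k => wB L.n₀ (u 0) (1 - u 0) (k % (L.n₀ + 1))) _, sum_wB]
  rw [sum_congr rfl fun k hk => by rw [Nat.mod_eq_of_lt (mem_range.1 hk)], sum_wB]
  simp

end Lay

/-- `P` represents `f` up to `E`, with entries bounded by `M`. -/
def Rep (L : Lay) (M E : ℕ) (P : ℤ) (f : (Fin 4 → ℝ) → ℝ) : Prop :=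
  ∃ c, Packs L.B L.size M P c ∧
    ∀ u, (∀ a, 0 ≤ u a ∧ u a ≤ 1) → |value L.size (L.W u) c - f u| ≤ E

variable {L : Lay} {M N E F : ℕ} {P Q : ℤ} {f g : (Fin 4 → ℝ) → ℝ}

theorem Rep.add (h : Rep L M E P f) (h' : Rep L N F Q g) :
    Rep L (M + N) (E + F) (P + Q) fun u => f u + g u := by
  obtain ⟨c, hc, hf⟩ := h
  obtain ⟨d, hd, hg⟩ := h'
  refine ⟨c + d, hc.add hd, fun u hu => ?_⟩
  have e : value L.size (L.W u) (c + d) = value L.size (L.W u) c + value L.size (L.W u) d := by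
    simp [value, mul_add, Finset.sum_add_distrib]
  rw [e]; push_cast
  calc |value L.size (L.W u) c + value L.size (L.W u) d - (f u + g u)|
      = |(value L.size (L.W u) c - f u) + (value L.size (L.W u) d - g u)| := by ring_nf
    _ ≤ _ := (abs_add_le _ _).trans (add_le_add (hf u hu) (hg u hu))

theorem Rep.smul (a : ℤ) (h : Rep L M E P f) :
    Rep L (a.natAbs * M) (a.natAbs * E) (a * P) fun u => a * f u := by
  obtain ⟨c, hc, hf⟩ := h
  refine ⟨a • c, hc.smul a, fun u hu => ?_⟩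
  have e : value L.size (L.W u) (a • c) = a * value L.size (L.W u) c := by
    simp only [value, Pi.smul_apply, smul_eq_mul, Int.cast_mul, mul_sum]
    exact sum_congr rfl fun j _ => by ring
  rw [e, ← mul_sub, abs_mul, Nat.cast_mul, Nat.cast_natAbs, Int.cast_abs]
  exact mul_le_mul_of_nonneg_left (hf u hu) (abs_nonneg _)

theorem Rep.ones (hB : 0 < L.B) : Rep L 1 0 (Int.ofNat (rep L.B 1 L.size)) fun _ => 1 := by
  refine ⟨fun _ => 1, ⟨?_, by simp⟩, fun u _ => by simp [value, L.sum_W u]⟩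
  rw [packN_rep hB, Int.ofNat_eq_natCast, ← pack_cast]
  simp

theorem Rep.nonneg (h : Rep L M E P f) (hB : 0 < L.B) (hM : M < 2 ^ (L.B - 1))
    (ht : nonnegP (biasC L.B L.size) P = true) {u : Fin 4 → ℝ} (hu : ∀ a, 0 ≤ u a ∧ u a ≤ 1) :
    -(E : ℝ) ≤ f u := by
  obtain ⟨c, hc, hf⟩ := h
  have h0 : 0 ≤ value L.size (L.W u) c := Finset.sum_nonneg fun j hj =>
    mul_nonneg (L.W_nonneg hu j) (Int.cast_nonneg (nonnegP_sound hc hB hM ht j (mem_range.1 hj)))
  linarith [(abs_le.1 (hf u hu)).2]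

/-- The constants of an axis of a layout. -/
def Lay.ax (L : Lay) (a : Fin 4) : Ax := axC L.B (L.outer a) (L.deg a) (L.stride a)

/-- The left half with rounding. -/
def Lay.lo (L : Lay) (a : Fin 4) (P : ℤ) : ℤ :=
  roundP (L.deg a) (biasC L.B L.size) (lowC L.B L.size (L.deg a)) (biasR L.B L.size (L.deg a))
    (halfLo (L.ax a) P)

/-- The right half with rounding. -/
def Lay.hi (L : Lay) (a : Fin 4) (P : ℤ) : ℤ :=
  roundP (L.deg a) (biasC L.B L.size) (lowC L.B L.size (L.deg a)) (biasR L.B L.size (L.deg a))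
    (halfHi (L.ax a) P)

/-- The point of the box whose left half has the coordinate `u`. -/
noncomputable def loPt (a : Fin 4) (u : Fin 4 → ℝ) : Fin 4 → ℝ := Function.update u a (u a / 2)

/-- The point of the box whose right half has the coordinate `u`. -/
noncomputable def hiPt (a : Fin 4) (u : Fin 4 → ℝ) : Fin 4 → ℝ := Function.update u a (1 / 2 + u a / 2)

theorem halved (a : Fin 4) (h : Rep L M E P f) (hk : L.deg a < L.B)
    (hM : 2 ^ L.deg a * M < 2 ^ (L.B - 1)) :
    Rep L (M + 1) (E + 1) (L.lo a P) (fun u => f (loPt a u)) ∧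
      Rep L (M + 1) (E + 1) (L.hi a P) (fun u => f (hiPt a u)) := by
  obtain ⟨c, hc, hf⟩ := h
  have hB : 0 < L.B := by omega
  have hM0 : M < 2 ^ (L.B - 1) :=
    lt_of_le_of_lt (Nat.le_mul_of_pos_left _ (by positivity)) hM
  have hc' : Packs L.B (L.outer a * (L.deg a + 1) * L.stride a) M P c := L.size_eq a ▸ hc
  obtain ⟨cL, cR, hL, hR, hv⟩ := halves_sound hc' hB (L.stride_pos a) hM0
  rw [← L.size_eq a] at hL hR
  obtain ⟨dL', hdL, eL⟩ := round_sound hL hk hM
  obtain ⟨dR', hdR, eR⟩ := round_sound hR hk hM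
  rw [Nat.mul_div_cancel_left _ (by positivity)] at hdL hdR
  have key : ∀ (d d' : ℕ → ℤ) (P' : ℤ) (T : (Fin 4 → ℝ) → Fin 4 → ℝ),
      Packs L.B L.size (M + 1) P' d' →
      (∀ j < L.size, 2 ^ L.deg a * d' j ≤ d j ∧ d j < 2 ^ L.deg a * d' j + 2 ^ L.deg a) →
      (∀ u, (∀ b, 0 ≤ u b ∧ u b ≤ 1) → (∀ b, 0 ≤ T u b ∧ T u b ≤ 1) ∧
        value L.size (L.W u) d = 2 ^ L.deg a * value L.size (L.W (T u)) c) →
      Rep L (M + 1) (E + 1) P' fun u => f (T u) := by
    intro d d' P' T hd he hT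
    refine ⟨d', hd, fun u hu => ?_⟩
    obtain ⟨hTu, hval⟩ := hT u hu
    have h1 := round_value (k := L.deg a) (fun j _ => L.W_nonneg hu j) (L.sum_W u) he
    rw [hval, ← mul_sub, abs_mul, abs_of_pos (show (0 : ℝ) < 2 ^ L.deg a by positivity)] at h1
    have h2 : |value L.size (L.W u) d' - value L.size (L.W (T u)) c| ≤ 1 :=
      le_of_mul_le_mul_left (by linarith) (show (0 : ℝ) < 2 ^ L.deg a by positivity)
    push_cast
    calc |value L.size (L.W u) d' - f (T u)|
        ≤ |value L.size (L.W u) d' - value L.size (L.W (T u)) c| +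
          |value L.size (L.W (T u)) c - f (T u)| := abs_sub_le _ _ _
      _ ≤ _ := by linarith [hf _ hTu]
  have om : ∀ (x : ℝ) (u : Fin 4 → ℝ),
      (fun o r => ∏ b ∈ univ.erase a, wB (L.deg b) (Function.update u a x b)
        (1 - Function.update u a x b) (L.digit b (ix (L.deg a + 1) (L.stride a) o 0 r))) =
      fun o r => ∏ b ∈ univ.erase a, wB (L.deg b) (u b) (1 - u b)
        (L.digit b (ix (L.deg a + 1) (L.stride a) o 0 r)) := by
    intro x u
    funext o r
    refine prod_congr rfl fun b hb => ?_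
    rw [Function.update_of_ne (Finset.ne_of_mem_erase hb)]
  constructor
  · refine key cL dL' _ (loPt a) hdL eL fun u hu => ⟨fun b => ?_, ?_⟩
    · unfold loPt
      rcases eq_or_ne b a with rfl | hb
      · rw [Function.update_self]; constructor <;> linarith [(hu b).1, (hu b).2]
      · rw [Function.update_of_ne hb]; exact hu b
    · have h1 := L.factors a (loPt a u)
      rw [loPt, Function.update_self, om] at h1
      have := (hv _ (L.W (loPt a u)) (L.W u) (u a) (1 - u a) (L.factors a u)).1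
        (by rw [show (1 - u a) + u a / 2 = 1 - u a / 2 by ring]; exact h1)
      rwa [← L.size_eq a] at this
  · refine key cR dR' _ (hiPt a) hdR eR fun u hu => ⟨fun b => ?_, ?_⟩
    · unfold hiPt
      rcases eq_or_ne b a with rfl | hb
      · rw [Function.update_self]; constructor <;> linarith [(hu b).1, (hu b).2]
      · rw [Function.update_of_ne hb]; exact hu b
    · have h1 := L.factors a (hiPt a u)
      rw [hiPt, Function.update_self, om] at h1
      have := (hv _ (L.W (hiPt a u)) (L.W u) (u a) (1 - u a) (L.factors a u)).2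
        (by rw [show u a + (1 - u a) / 2 = 1 / 2 + u a / 2 by ring,
              show (1 - u a) / 2 = 1 - (1 / 2 + u a / 2) by ring]; exact h1)
      rwa [← L.size_eq a] at this

end Vale.Agent.P098.Six
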