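import Vale.Agent.P098.Six.AxisT

/-!
# P098, six dimensions: packed coefficients of powers, and their passage to Bernstein coefficients

The weights are products of one function per axis, so the axes are changed one after another.
-/

namespace Vale.Agent.P098.Six

open Finset
open Vale.Agent.P098.Five (Mdl IsLin monE pad monE_pad)

/-- Product weights. -/
def Lay.Wg (L : Lay) (f : Fin 4 → ℕ → ℝ) (j : ℕ) : ℝ := ∏ a, f a (L.digit a j)

/-- Powers of the coordinates. -/
def powW (x : Fin 4 → ℝ) (a : Fin 4) (i : ℕ) : ℝ := x a ^ i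

/-- One row of powers. -/
def monRow (L : Lay) (M : ℕ) (s : List ℤ) : Option ℤ :=
  let c := pad L.n₃ s
  bif decide (c.length = L.n₃ + 1) && c.all (fun a => decide (a.natAbs ≤ M)) then
    some (joinP (L.B * 1) c) else none

/-- The packed coefficients of powers, when all sizes fit. -/
def monP (L : Lay) (M : ℕ) (p : P4) : Option ℤ :=
  rowN L.B (L.stride 0) L.n₀ (fun q => rowN L.B (L.stride 1) L.n₁ (fun r =>
    rowN L.B (L.stride 2) L.n₂ (monRow L M) (pad L.n₂ r)) (pad L.n₁ q)) (pad L.n₀ p)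

/-- A packed block has a value in given weights. -/
def MonV (B J : ℕ) (W : ℕ → ℝ) (M : ℕ) (P : ℤ) (x : ℝ) : Prop :=
  ∃ c, Packs B J M P c ∧ value J W c = x

theorem monV_rows {β : Type} [Mdl β] {B S n M : ℕ} {W : ℕ → ℝ} {enc : β → Option ℤ} {val : β → ℝ}
    (hS : 0 < S) (hl : IsLin val) (hval : ∀ b P, enc b = some P → MonV B S W M P (val b))
    (x : ℝ) {p : List β} {P : ℤ} (h : rowN B S n enc (pad n p) = some P) :
    MonV B ((n + 1) * S) (fun j => x ^ (j / S) * W (j % S)) M P (monE val x p) := by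
  simp only [rowN, Bool.cond_decide] at h
  split at h
  case isFalse => simp at h
  rename_i hlen
  rw [Option.map_eq_some_iff] at h
  obtain ⟨Ps, hPs, rfl⟩ := h
  obtain ⟨hl', he⟩ := mapO_getD hPs
  set q := pad n p with hq
  have hsel : ∀ i, i < n + 1 → ∃ c, Packs B S M (Ps.getD i 0) c ∧
      value S W c = val (q.getD i Mdl.zero) := fun i hi => hval _ _ (he i (by omega))
  choose! c hc hv using hsel
  refine ⟨fun j => c (j / S) (j % S), ⟨?_, fun j hj => ?_⟩, ?_⟩
  · rw [joinP_eq, pack, show range ((n + 1) * S) = range (1 * (n + 1) * S) by rw [Nat.one_mul],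
      sum_axis, hl', hlen]
    refine sum_congr rfl fun i hi => ?_
    rw [sum_range_one, (hc i (mem_range.1 hi)).eq, pack, mul_sum]
    refine sum_congr rfl fun r hr => ?_
    have hr' := mem_range.1 hr
    rw [show (0 * (n + 1) + i) * S + r = r + S * i by ring, Nat.add_mul_div_left _ _ hS,
      Nat.add_mul_mod_self_left, Nat.div_eq_of_lt hr', Nat.mod_eq_of_lt hr', Nat.zero_add,
      show B * (r + S * i) = B * r + B * (i * S) by ring, pow_add]
    ring
  · have hi : j / S < n + 1 := Nat.div_lt_of_lt_mul (by rwa [Nat.mul_comm] at hj)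
    exact (hc _ hi).bound _ (Nat.mod_lt _ hS)
  · rw [← monE_pad hl x n p, ← hq, monE_eq_sum hl x q (n + 1) hlen.le, value,
      show range ((n + 1) * S) = range (1 * (n + 1) * S) by rw [Nat.one_mul], sum_axis]
    refine sum_congr rfl fun i hi => ?_
    rw [sum_range_one, ← hv i (mem_range.1 hi), value, mul_sum]
    refine sum_congr rfl fun r hr => ?_
    have hr' := mem_range.1 hr
    simp only [show (0 * (n + 1) + i) * S + r = r + S * i by ring, Nat.add_mul_div_left _ _ hS,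
      Nat.add_mul_mod_self_left, Nat.div_eq_of_lt hr', Nat.mod_eq_of_lt hr', Nat.zero_add]
    ring

theorem monRow_rep {L : Lay} {M : ℕ} (x : ℝ) {s : List ℤ} {P : ℤ} (h : monRow L M s = some P) :
    MonV L.B (L.n₃ + 1) (fun j => x ^ j) M P (monE (fun a : ℤ => (a : ℝ)) x s) := by
  simp only [monRow, cond_eq_ite, Bool.and_eq_true, decide_eq_true_eq, List.all_eq_true,
    Option.ite_none_right_eq_some, Option.some.injEq] at h
  obtain ⟨⟨hlen, hb⟩, rfl⟩ := h
  set c := pad L.n₃ s with hc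
  refine ⟨fun j => c.getD j 0, ⟨?_, fun j hj => ?_⟩, ?_⟩
  · rw [joinP_eq, pack, hlen]
    refine sum_congr rfl fun i _ => ?_
    rw [Nat.mul_one]; ring
  · have := hb (c.getD j 0) (by
      rw [List.getD_eq_getElem _ _ (by omega)]; exact List.getElem_mem _)
    rw [Int.abs_eq_natAbs]; exact_mod_cast this
  · rw [← monE_pad Five.isLin_int x L.n₃ s, ← hc, monE_eq_sum Five.isLin_int x c _ hlen.le, value]
    rfl

/-- Product weights, axis by axis. -/
theorem Wg_split (L : Lay) (f : Fin 4 → ℕ → ℝ) {j : ℕ} (hj : j < L.size) :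
    L.Wg f j = f 0 (j / L.stride 0) * (f 1 (j % L.stride 0 / L.stride 1) *
      (f 2 (j % L.stride 0 % L.stride 1 / L.stride 2) *
        f 3 (j % L.stride 0 % L.stride 1 % L.stride 2))) := by
  have h0 : L.stride 0 = L.stride 1 * (L.n₁ + 1) := by
    show (L.n₁ + 1) * (L.n₂ + 1) * (L.n₃ + 1) = (L.n₂ + 1) * (L.n₃ + 1) * (L.n₁ + 1); ring
  have h1 : L.stride 1 = L.stride 2 * (L.n₂ + 1) := by
    show (L.n₂ + 1) * (L.n₃ + 1) = (L.n₃ + 1) * (L.n₂ + 1); ring
  have d10 : L.stride 1 ∣ L.stride 0 := ⟨_, h0⟩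
  have d21 : L.stride 2 ∣ L.stride 1 := ⟨_, h1⟩
  have e0 : j / L.stride 0 % (L.n₀ + 1) = j / L.stride 0 := Nat.mod_eq_of_lt
    (Nat.div_lt_of_lt_mul (lt_of_lt_of_eq hj (by
      show (L.n₀ + 1) * (L.n₁ + 1) * (L.n₂ + 1) * (L.n₃ + 1) = L.stride 0 * (L.n₀ + 1)
      show _ = (L.n₁ + 1) * (L.n₂ + 1) * (L.n₃ + 1) * (L.n₀ + 1); ring)))
  have e1 : j % L.stride 0 / L.stride 1 = j / L.stride 1 % (L.n₁ + 1) := by
    rw [h0, Nat.mod_mul_right_div_self]
  have e2 : j % L.stride 0 % L.stride 1 / L.stride 2 = j / L.stride 2 % (L.n₂ + 1) := by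
    rw [Nat.mod_mod_of_dvd _ d10, h1, Nat.mod_mul_right_div_self]
  have e3 : j % L.stride 0 % L.stride 1 % L.stride 2 = j % L.stride 2 := by
    rw [Nat.mod_mod_of_dvd _ d10, Nat.mod_mod_of_dvd _ d21]
  rw [e1, e2, e3, Lay.Wg, Fin.prod_univ_four]
  simp only [Lay.digit, Lay.deg, Matrix.cons_val_zero, Matrix.cons_val_one, Matrix.cons_val]
  rw [e0, show L.stride 3 = 1 from rfl, Nat.div_one, show L.stride 2 = L.n₃ + 1 from rfl]
  ring

theorem monP_rep {L : Lay} {M : ℕ} (hB : 0 < L.B) (hM : M < 2 ^ (L.B - 1)) {p : P4} {P : ℤ}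
    (h : monP L M p = some P) :
    ∃ c, Packs L.B L.size M P c ∧
      ∀ x : Fin 4 → ℝ, value L.size (L.Wg (powW x)) c = ev4 x p := by
  have hsp := L.stride_pos
  have h23 : (L.n₂ + 1) * L.stride 2 = L.stride 1 := rfl
  have h12 : (L.n₁ + 1) * L.stride 1 = L.stride 0 := (Nat.mul_assoc _ _ _).symm
  set W3 := fun (x : Fin 4 → ℝ) j => x 3 ^ j
  set W2 := fun (x : Fin 4 → ℝ) j => x 2 ^ (j / L.stride 2) * W3 x (j % L.stride 2)
  set W1 := fun (x : Fin 4 → ℝ) j => x 1 ^ (j / L.stride 1) * W2 x (j % L.stride 1)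
  have key : ∀ x : Fin 4 → ℝ, MonV L.B ((L.n₀ + 1) * L.stride 0)
      (fun j => x 0 ^ (j / L.stride 0) * W1 x (j % L.stride 0)) M P (ev4 x p) := fun x => by
    have r2 : ∀ r Q, rowN L.B (L.stride 2) L.n₂ (monRow L M) (pad L.n₂ r) = some Q →
        MonV L.B (L.stride 1) (W2 x) M Q (monE (monE (fun a : ℤ => (a : ℝ)) (x 3)) (x 2) r) :=
      fun r Q hQ => by
        have := monV_rows (hsp 2) (Five.isLin_int.mon _)
          (fun s Q hQ => monRow_rep (L := L) (M := M) (x 3) hQ) (x 2) hQ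
        rwa [h23] at this
    have r1 : ∀ q Q, rowN L.B (L.stride 1) L.n₁ (fun r =>
        rowN L.B (L.stride 2) L.n₂ (monRow L M) (pad L.n₂ r)) (pad L.n₁ q) = some Q →
        MonV L.B (L.stride 0) (W1 x) M Q
          (monE (monE (monE (fun a : ℤ => (a : ℝ)) (x 3)) (x 2)) (x 1) q) := fun q Q hQ => by
      have := monV_rows (hsp 1) ((Five.isLin_int.mon _).mon _) r2 (x 1) hQ
      rwa [h12] at this
    exact monV_rows (hsp 0) (((Five.isLin_int.mon _).mon _).mon _) r1 (x 0) h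
  obtain ⟨c, hc, -⟩ := key 0
  have hsize : (L.n₀ + 1) * L.stride 0 = L.size := by
    simp only [Lay.size, Lay.stride, Matrix.cons_val_zero]; ring
  rw [hsize] at hc
  refine ⟨c, hc, fun x => ?_⟩
  obtain ⟨c', hc', hv⟩ := key x
  rw [hsize] at hc' hv
  rw [← hv]
  refine sum_congr rfl fun j hj => ?_
  rw [pack_inj hB hM hc hc' j (mem_range.1 hj), Wg_split L _ (mem_range.1 hj)]
  rfl

/-- The transform along an axis. -/
def Lay.axT (L : Lay) (a : Fin 4) (A H : ℤ) (d : ℕ) (P : ℤ) : ℤ :=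
  Six.axT L.B (L.outer a) (L.deg a) (L.stride a) A H d P

/-- One axis changes from powers to Bernstein weights. -/
theorem Lay.axT_sound {L : Lay} {a : Fin 4} {M : ℕ} {P : ℤ} {c : ℕ → ℤ}
    (h : Packs L.B L.size M P c) (hB : 0 < L.B) (hM : M < 2 ^ (L.B - 1)) (A H : ℤ) {d : ℕ}
    (hd : d ≠ 0) :
    ∃ c', Packs L.B L.size (boundT (L.deg a) A H d M) (L.axT a A H d P) c' ∧
      ∀ (f : Fin 4 → ℕ → ℝ) (t : ℝ),
        value L.size (L.Wg (Function.update f a (wB (L.deg a) t (1 - t)))) c' =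
          ((L.deg a).factorial : ℝ) * (d : ℝ) ^ L.deg a *
            value L.size (L.Wg (Function.update f a fun i => ((A + H * t) / d) ^ i)) c := by
  obtain ⟨c', hc', hv⟩ := Six.axT_sound hB (L.stride_pos a) (L.size_eq a ▸ h) hM A H hd
  rw [← L.size_eq a] at hc'
  refine ⟨c', hc', fun f t => ?_⟩
  set m := L.deg a + 1 with hm
  have hg : ∀ (g : ℕ → ℝ) (o i r : ℕ), i < m → r < L.stride a →
      L.Wg (Function.update f a g) (ix m (L.stride a) o i r) =
        g i * ∏ b ∈ univ.erase a, f b (L.digit b (ix m (L.stride a) o 0 r)) := by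
    intro g o i r hi hr
    rw [Lay.Wg, ← Finset.mul_prod_erase univ _ (mem_univ a), Function.update_self,
      Lay.digit, (ix_digit hi hr).1]
    refine congrArg _ (Finset.prod_congr rfl fun b hb => ?_)
    rw [Function.update_of_ne (Finset.ne_of_mem_erase hb),
      L.digit_indep (Ne.symm (Finset.ne_of_mem_erase hb)) hi (Nat.succ_pos _) hr]
  simp only [value, L.size_eq a, sum_axis]
  rw [sum_comm]
  conv_rhs => rw [sum_comm]
  rw [mul_sum]
  refine sum_congr rfl fun o ho => ?_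
  rw [sum_comm]
  conv_rhs => rw [sum_comm]
  rw [mul_sum]
  refine sum_congr rfl fun r hr => ?_
  have key := hv o (mem_range.1 ho) r (mem_range.1 hr) t
  set g := ∏ b ∈ univ.erase a, f b (L.digit b (ix m (L.stride a) o 0 r))
  have e : ∀ (w : ℕ → ℝ) (c : ℕ → ℤ),
      ∑ i ∈ range m, L.Wg (Function.update f a w) ((o * m + i) * L.stride a + r) *
          (c ((o * m + i) * L.stride a + r) : ℝ) =
        g * ∑ i ∈ range m, w i * (c (ix m (L.stride a) o i r) : ℝ) := fun w c => by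
    rw [mul_sum]
    refine sum_congr rfl fun i hi => ?_
    have := hg w o i r (mem_range.1 hi) (mem_range.1 hr)
    simp only [ix] at this ⊢
    rw [this]; simp only [g, ix]; ring
  rw [e, e, key]
  ring

end Vale.Agent.P098.Six
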