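import Vale.Agent.P098.Six.Run

/-!
# P098, six dimensions: the test of a box at the ends of the strips

The packed polynomials of an interval of the eigenvalue are, in this order, `s`, the slack of the
profile, the entries `pp`, `pπ`, the coefficient `Z`, `b1` at the lower and upper end of the range
of the cubic invariant, `pν`, `νπ`, and the products of `s` with `pp`, `pπ`, `ππ`, `pν`, `νπ`.
All carry the factor `K`.
-/

namespace Vale.Agent.P098.Six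

/-- Data of one end of a strip: a congruence, the entry `νν` over `2 ^ ob`, six multipliers. -/
structure NodeD where
  r00 : ℤ
  r01 : ℤ
  r02 : ℤ
  r11 : ℤ
  r12 : ℤ
  r22 : ℤ
  o : ℕ
  m0 : ℕ
  n0 : ℕ
  m1 : ℕ
  n1 : ℕ
  m2 : ℕ
  n2 : ℕ

/-- A leaf: empty, or the data at both ends of the three strips. -/
inductive LeafX where
  | skip (a b : ℕ)
  | box (k0 k1 k2 k3 k4 k5 : NodeD)

/-- Constants of an interval: bits of the entry `νν`, the scale and, for the six strip ends, upper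
bounds of the residual at the two ends of the interval, scaled. -/
structure SegC where
  ob : ℕ
  K : ℕ
  S0 : ℕ × ℕ
  S1 : ℕ × ℕ
  S2 : ℕ × ℕ
  S3 : ℕ × ℕ
  S4 : ℕ × ℕ
  S5 : ℕ × ℕ

/-- Coefficients of `pp, pν, pπ, νν, νπ`. -/
structure C5 where
  pp : ℤ
  pn : ℤ
  pz : ℤ
  om : ℤ
  nz : ℤ

/-- The sum of two coefficient vectors, the second with a sign. -/
def C5.add (x y : C5) (e : ℤ) : C5 :=
  ⟨x.pp + e * y.pp, x.pn + e * y.pn, x.pz + e * y.pz, x.om + e * y.om, x.nz + e * y.nz⟩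

def NodeD.u00 (N : NodeD) : C5 := ⟨N.r00 * N.r00, 0, 0, 0, 0⟩

def NodeD.u01 (N : NodeD) : C5 := ⟨N.r00 * N.r01, N.r00 * N.r11, 0, 0, 0⟩

def NodeD.u02 (N : NodeD) : C5 := ⟨N.r00 * N.r02, N.r00 * N.r12, N.r00 * N.r22, 0, 0⟩

def NodeD.u11 (N : NodeD) : C5 := ⟨N.r01 * N.r01, 2 * N.r01 * N.r11, 0, N.r11 * N.r11, 0⟩

def NodeD.u12 (N : NodeD) : C5 :=
  ⟨N.r01 * N.r02, N.r01 * N.r12 + N.r11 * N.r02, N.r01 * N.r22, N.r11 * N.r12, N.r11 * N.r22⟩

def NodeD.u22 (N : NodeD) : C5 :=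
  ⟨N.r02 * N.r02, 2 * N.r02 * N.r12, 2 * N.r02 * N.r22, N.r12 * N.r12, 2 * N.r12 * N.r22⟩

/-- The combination of a row without `s`; `a`, `b` are the weights of the ends of the range. -/
def plainC (C : SegC) (a b : ℤ) (o m n : ℕ) (c : C5) : List ℤ :=
  let E : ℤ := Int.ofNat (2 ^ C.ob)
  [3 * C.K * o * c.om, -m, -n, E * a * c.pp, E * b * c.pp, E * a * c.pz, E * b * c.pz, 0, 0, 0, 0,
    3 * E * c.pn, 3 * E * c.nz, 0, 0, 0, 0, 0, 0, 0, 0]

/-- The combination of a row with the factor `s`; `zz` is the coefficient of `ππ`. -/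
def scaledC (C : SegC) (a b : ℤ) (o m n : ℕ) (c : C5) (zz : ℤ) : List ℤ :=
  let E : ℤ := Int.ofNat (2 ^ C.ob)
  [0, 3 * o * c.om - m, -n, 0, 0, 0, 0, E * a * zz, E * b * zz, 0, 0, 0, 0,
    E * a * c.pp, E * b * c.pp, E * a * c.pz, E * b * c.pz, E * a * zz, E * b * zz,
    3 * E * c.pn, 3 * E * c.nz]

/-- The twelve tests of one end. -/
def NodeD.chk (C : SegC) (a b : ℤ) (test : List ℤ → Bool) (N : NodeD) : Bool :=
  let r0 := fun e f => test (plainC C a b N.o N.m0 N.n0 ((N.u00.add N.u01 e).add N.u02 f))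
  let r1 := fun e f => test (plainC C a b N.o N.m1 N.n1 ((N.u11.add N.u01 e).add N.u12 f))
  let r2 := fun e f =>
    test (scaledC C a b N.o N.m2 N.n2 ((N.u22.add N.u02 e).add N.u12 f) (N.r22 * N.r22))
  (N.o != 0 && N.r00 != 0 && N.r11 != 0 && N.r22 != 0)
    && (r0 1 1 && r0 1 (-1) && r0 (-1) 1 && r0 (-1) (-1))
    && (r1 1 1 && r1 1 (-1) && r1 (-1) 1 && r1 (-1) (-1))
    && (r2 1 1 && r2 1 (-1) && r2 (-1) 1 && r2 (-1) (-1))

/-- A bound for the residual on the piece `[i / 2 ^ d, (i + 1) / 2 ^ d]`, times `2 ^ d`. -/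
def sigB (S : ℕ × ℕ) (i d : ℕ) : ℕ :=
  Nat.max ((2 ^ d - i) * S.1 + i * S.2) ((2 ^ d - (i + 1)) * S.1 + (i + 1) * S.2)

/-- The combination of the values of `b1` at the two ends. -/
def b1C (k : ℤ) (a b : ℤ) (e : ℤ) : List ℤ :=
  [k, 0, 0, 0, 0, 0, 0, 0, 0, e * a, e * b, 0, 0, 0, 0, 0, 0, 0, 0, 0, 0]

/-- The checks of one strip with weights `(a, b)` and `(a - 1, b + 1)` at its ends. -/
def stripC (C : SegC) (test : List ℤ → Bool) (i d : ℕ) (a b : ℤ) (S T : ℕ × ℕ) (N M : NodeD) :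
    Bool :=
  Nat.ble (i + 1) (2 ^ d) && N.chk C a b test && M.chk C (a - 1) (b + 1) test
    && test (b1C (-Int.ofNat (3 * N.o * sigB S i d)) a b (Int.ofNat (2 ^ (d + C.ob))))
    && test (b1C (-Int.ofNat (3 * M.o * sigB T i d)) (a - 1) (b + 1) (Int.ofNat (2 ^ (d + C.ob))))
    && test (b1C (-Int.ofNat (3 * (N.o * M.o * (sigB S i d + sigB T i d))))
      (N.o * a + M.o * (a - 1)) (N.o * b + M.o * (b + 1)) (Int.ofNat (2 ^ (d + C.ob))))

/-- The check of a leaf. -/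
def chkX (C : SegC) (test : List ℤ → Bool) (i d : ℕ) : LeafX → Bool
  | .skip a b => test [-1, -a, -b, 0, 0, 0, 0, 0, 0, 0, 0, 0, 0, 0, 0, 0, 0, 0, 0, 0, 0]
  | .box k0 k1 k2 k3 k4 k5 => stripC C test i d 3 0 C.S0 C.S1 k0 k1
      && stripC C test i d 2 1 C.S2 C.S3 k2 k3 && stripC C test i d 1 2 C.S4 C.S5 k4 k5

/-- The values of the twenty polynomials. -/
structure Vals where
  s : ℝ
  dom : ℝ
  pp : ℝ × ℝ
  pz : ℝ × ℝ
  z : ℝ × ℝ
  b1 : ℝ × ℝ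
  pn : ℝ
  nz : ℝ
  zz : ℝ × ℝ

/-- The list of the scaled values. -/
def Vals.list (V : Vals) (K : ℝ) : List ℝ :=
  [K * V.s, K * V.dom, K * V.pp.1, K * V.pp.2, K * V.pz.1, K * V.pz.2, K * V.z.1, K * V.z.2,
    K * V.b1.1, K * V.b1.2, K * V.pn, K * V.nz, K * (V.s * V.pp.1), K * (V.s * V.pp.2),
    K * (V.s * V.pz.1), K * (V.s * V.pz.2), K * (V.s * V.zz.1), K * (V.s * V.zz.2),
    K * (V.s * V.pn), K * (V.s * V.nz)]

/-- The value at the end with weights `(3 - b, b) / 3`. -/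
noncomputable def mix (b : ℝ) (x : ℝ × ℝ) : ℝ := ((3 - b) * x.1 + b * x.2) / 3

/-- The form is nonnegative at the end with weights `(3 - b, b) / 3`. -/
def NodeOK (V : Vals) (b kap : ℝ) : Prop :=
  ∀ p ν π, 0 ≤ V.s * (mix b V.pp * p ^ 2 + 2 * V.pn * p * ν + 2 * mix b V.pz * p * π + ν ^ 2 / kap
    + 2 * V.nz * ν * π + mix b V.zz * π ^ 2) + mix b V.z * π ^ 2

/-- What a strip gives: bounds `σ₀`, `σ₁` on the residual at its ends are below `kap · b1`. -/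
def StripOK (V : Vals) (b σ₀ σ₁ : ℝ) : Prop :=
  ∃ k₀ k₁ : ℝ, 0 < k₀ ∧ 0 < k₁ ∧ σ₀ ≤ k₀ * mix b V.b1 ∧ σ₁ ≤ k₁ * mix (b + 1) V.b1 ∧
    σ₀ + σ₁ ≤ k₀ * mix (b + 1) V.b1 + k₁ * mix b V.b1 ∧ NodeOK V b k₀ ∧ NodeOK V (b + 1) k₁

/-- The affine bound of the residual at `r` in the interval. -/
noncomputable def sigAt (C : SegC) (S : ℕ × ℕ) (r : ℝ) : ℝ := ((1 - r) * S.1 + r * S.2) / C.K

/-- The property proved at every point of an interval. -/
def GoodX (C : SegC) (v : List ℝ) (r : ℝ) : Prop :=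
  ∀ V : Vals, v = V.list C.K → 0 ≤ V.s → 0 ≤ V.dom →
    StripOK V 0 (sigAt C C.S0 r) (sigAt C C.S1 r) ∧ StripOK V 1 (sigAt C C.S2 r) (sigAt C C.S3 r) ∧
      StripOK V 2 (sigAt C C.S4 r) (sigAt C C.S5 r)

theorem rows_sound {s z A a B om b C r00 r01 r02 r11 r12 r22 : ℝ} (h00 : r00 ≠ 0) (h11 : r11 ≠ 0)
    (h22 : r22 ≠ 0) (hs : 0 ≤ s)
    (h0 : |r00 * r01 * A + r00 * r11 * a| + |r00 * r02 * A + r00 * r12 * a + r00 * r22 * B|
      ≤ r00 * r00 * A)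
    (h1 : |r00 * r01 * A + r00 * r11 * a| + |r01 * r02 * A + (r01 * r12 + r11 * r02) * a
        + r01 * r22 * B + r11 * r12 * om + r11 * r22 * b|
      ≤ r01 * r01 * A + 2 * r01 * r11 * a + r11 * r11 * om)
    (h2 : |s * (r00 * r02 * A + r00 * r12 * a + r00 * r22 * B)| + |s * (r01 * r02 * A
        + (r01 * r12 + r11 * r02) * a + r01 * r22 * B + r11 * r12 * om + r11 * r22 * b)|
      ≤ s * (r02 * r02 * A + 2 * r02 * r12 * a + 2 * r02 * r22 * B + r12 * r12 * om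
          + 2 * r12 * r22 * b + r22 * r22 * C) + r22 * r22 * z)
    (p ν π : ℝ) :
    0 ≤ s * (A * p ^ 2 + 2 * a * p * ν + 2 * B * p * π + om * ν ^ 2 + 2 * b * ν * π + C * π ^ 2)
      + z * π ^ 2 := by
  obtain ⟨y2, rfl⟩ : ∃ y, π = r22 * y := ⟨π / r22, (mul_div_cancel₀ _ h22).symm⟩
  obtain ⟨y1, rfl⟩ : ∃ y, ν = r11 * y + r12 * y2 := ⟨(ν - r12 * y2) / r11, by field_simp; ring⟩
  obtain ⟨y0, rfl⟩ : ∃ y, p = r00 * y + r01 * y1 + r02 * y2 :=
    ⟨(p - r01 * y1 - r02 * y2) / r00, by field_simp; ring⟩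
  set u01 := r00 * r01 * A + r00 * r11 * a
  set u02 := r00 * r02 * A + r00 * r12 * a + r00 * r22 * B
  set u12 := r01 * r02 * A + (r01 * r12 + r11 * r02) * a + r01 * r22 * B + r11 * r12 * om
    + r11 * r22 * b
  set u00 := r00 * r00 * A
  set u11 := r01 * r01 * A + 2 * r01 * r11 * a + r11 * r11 * om
  set u22 := r02 * r02 * A + 2 * r02 * r12 * a + 2 * r02 * r22 * B + r12 * r12 * om
    + 2 * r12 * r22 * b + r22 * r22 * C
  have e : s * (A * (r00 * y0 + r01 * y1 + r02 * y2) ^ 2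
      + 2 * a * (r00 * y0 + r01 * y1 + r02 * y2) * (r11 * y1 + r12 * y2)
      + 2 * B * (r00 * y0 + r01 * y1 + r02 * y2) * (r22 * y2) + om * (r11 * y1 + r12 * y2) ^ 2
      + 2 * b * (r11 * y1 + r12 * y2) * (r22 * y2) + C * (r22 * y2) ^ 2) + z * (r22 * y2) ^ 2
      = s * u00 * y0 ^ 2 + s * u11 * y1 ^ 2 + (s * u22 + r22 * r22 * z) * y2 ^ 2
        + 2 * (s * u01) * y0 * y1 + 2 * (s * u02) * y0 * y2 + 2 * (s * u12) * y1 * y2 := by
    simp only [u00, u01, u02, u11, u12, u22]; ring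
  rw [e]
  have key : ∀ x y w : ℝ, -(|x| * (y ^ 2 + w ^ 2)) ≤ 2 * x * y * w := fun x y w => by
    nlinarith [mul_nonneg (sub_nonneg.2 (le_abs_self x)) (sq_nonneg (y - w)),
      mul_nonneg (sub_nonneg.2 (neg_abs_le x)) (sq_nonneg (y + w))]
  have k0 := mul_le_mul_of_nonneg_right (mul_le_mul_of_nonneg_left h0 hs) (sq_nonneg y0)
  have k1 := mul_le_mul_of_nonneg_right (mul_le_mul_of_nonneg_left h1 hs) (sq_nonneg y1)
  have k2 := mul_le_mul_of_nonneg_right h2 (sq_nonneg y2)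
  have a01 := key (s * u01) y0 y1
  have a02 := key (s * u02) y0 y2
  have a12 := key (s * u12) y1 y2
  simp only [abs_mul, abs_of_nonneg hs] at a01 a02 a12 k2
  linarith

theorem signed_le {x y c k : ℝ} (hk : 0 < k) (h1 : 0 ≤ k * (c + x + y)) (h2 : 0 ≤ k * (c + x - y))
    (h3 : 0 ≤ k * (c - x + y)) (h4 : 0 ≤ k * (c - x - y)) : |x| + |y| ≤ c := by
  replace h1 := nonneg_of_mul_nonneg_right h1 hk
  replace h2 := nonneg_of_mul_nonneg_right h2 hk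
  replace h3 := nonneg_of_mul_nonneg_right h3 hk
  replace h4 := nonneg_of_mul_nonneg_right h4 hk
  rcases abs_cases x with hx | hx <;> rcases abs_cases y with hy | hy <;> linarith [hx.1, hy.1]

variable {C : SegC} {V : Vals} {test : List ℤ → Bool}

theorem NodeD.chk_sound (hK : 0 < C.K) (ht : ∀ cs, test cs = true → 0 ≤ comb cs (1 :: V.list C.K))
    (hs : 0 ≤ V.s) (hd : 0 ≤ V.dom) {N : NodeD} {a b : ℤ} (hab : a + b = 3)
    (h : N.chk C a b test = true) :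
    0 < (N.o : ℝ) ∧ NodeOK V b ((2 : ℝ) ^ C.ob / N.o) := by
  simp only [NodeD.chk, Bool.and_eq_true, bne_iff_ne, ne_eq] at h
  obtain ⟨⟨⟨⟨⟨⟨ho, h00⟩, h11⟩, h22⟩, ⟨⟨a0, b0⟩, c0⟩, d0⟩, ⟨⟨a1, b1⟩, c1⟩, d1⟩, ⟨⟨a2, b2⟩, c2⟩, d2⟩ := h
  have ho' : (0 : ℝ) < N.o := by exact_mod_cast Nat.pos_of_ne_zero ho
  refine ⟨ho', fun p ν π => ?_⟩
  have e : ν ^ 2 / ((2 : ℝ) ^ C.ob / N.o) = (N.o / 2 ^ C.ob : ℝ) * ν ^ 2 := by field_simp
  rw [e]
  have hK' : (0 : ℝ) < C.K := by exact_mod_cast hK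
  have hc : (0 : ℝ) < 3 * C.K * 2 ^ C.ob := by positivity
  have ha : (a : ℝ) = 3 - b := by
    rw [eq_sub_iff_add_eq]; exact_mod_cast hab
  have hm : ∀ (m : ℕ) {x : ℝ}, 0 ≤ x → 0 ≤ (m : ℝ) * ((C.K : ℝ) * x) :=
    fun m _ hx => mul_nonneg (Nat.cast_nonneg _) (mul_nonneg hK'.le hx)
  have s0 := hm N.m0 hs; have t0 := hm N.n0 hd; have s1 := hm N.m1 hs; have t1 := hm N.n1 hd
  have s2 := hm N.m2 hs; have t2 := hm N.n2 hd
  replace a0 := ht _ a0; replace b0 := ht _ b0; replace c0 := ht _ c0; replace d0 := ht _ d0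
  replace a1 := ht _ a1; replace b1 := ht _ b1; replace c1 := ht _ c1; replace d1 := ht _ d1
  replace a2 := ht _ a2; replace b2 := ht _ b2; replace c2 := ht _ c2; replace d2 := ht _ d2
  simp only [plainC, scaledC, C5.add, NodeD.u00, NodeD.u01, NodeD.u02, NodeD.u11, NodeD.u12,
    NodeD.u22, comb, Vals.list, Int.ofNat_eq_natCast] at a0 b0 c0 d0 a1 b1 c1 d1 a2 b2 c2 d2
  push_cast [ha] at a0 b0 c0 d0 a1 b1 c1 d1 a2 b2 c2 d2
  set om := (N.o : ℝ) / 2 ^ C.ob with hom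
  have ho2 : (N.o : ℝ) = 2 ^ C.ob * om := by rw [hom]; field_simp
  rw [ho2] at a0 b0 c0 d0 a1 b1 c1 d1 a2 b2 c2 d2
  refine rows_sound (r00 := N.r00) (r01 := N.r01) (r02 := N.r02) (r11 := N.r11) (r12 := N.r12)
    (r22 := N.r22) (by exact_mod_cast h00) (by exact_mod_cast h11) (by exact_mod_cast h22) hs
    (signed_le hc ?_ ?_ ?_ ?_) (signed_le hc ?_ ?_ ?_ ?_) (signed_le hc ?_ ?_ ?_ ?_) p ν π
  all_goals
    simp only [mix]
    linarith

theorem sigB_le {S : ℕ × ℕ} {i d : ℕ} (hi : i + 1 ≤ 2 ^ d) {r : ℝ} (h0 : 0 ≤ r) (h1 : r ≤ 1) :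
    2 ^ d * sigAt C S ((i + r) / 2 ^ d) ≤ (sigB S i d : ℕ) / C.K := by
  rw [sigAt, mul_div_assoc']
  refine div_le_div_of_nonneg_right ?_ (Nat.cast_nonneg _)
  have e1 : (((2 ^ d - i) * S.1 + i * S.2 : ℕ) : ℝ) ≤ (sigB S i d : ℕ) := by
    exact_mod_cast Nat.le_max_left _ _
  have e2 : (((2 ^ d - (i + 1)) * S.1 + (i + 1) * S.2 : ℕ) : ℝ) ≤ (sigB S i d : ℕ) := by
    exact_mod_cast Nat.le_max_right _ _
  push_cast [Nat.cast_sub (show i ≤ 2 ^ d by omega), Nat.cast_sub hi] at e1 e2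
  field_simp
  linarith [mul_le_mul_of_nonneg_left e1 (sub_nonneg.2 h1), mul_le_mul_of_nonneg_left e2 h0]

theorem stripC_sound (hK : 0 < C.K) (ht : ∀ cs, test cs = true → 0 ≤ comb cs (1 :: V.list C.K))
    (hs : 0 ≤ V.s) (hd : 0 ≤ V.dom) {i d : ℕ} {a b : ℤ} {S T : ℕ × ℕ} {N M : NodeD}
    (hab : a + b = 3) (h : stripC C test i d a b S T N M = true) {r : ℝ} (h0 : 0 ≤ r) (h1 : r ≤ 1) :
    StripOK V b (sigAt C S ((i + r) / 2 ^ d)) (sigAt C T ((i + r) / 2 ^ d)) := by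
  simp only [stripC, Bool.and_eq_true, Nat.ble_eq] at h
  obtain ⟨⟨⟨⟨⟨hi, hN⟩, hM⟩, e0⟩, e1⟩, e2⟩ := h
  obtain ⟨oN, nN⟩ := NodeD.chk_sound hK ht hs hd hab hN
  obtain ⟨oM, nM⟩ := NodeD.chk_sound hK ht hs hd (by omega) hM
  have hK' : (0 : ℝ) < C.K := by exact_mod_cast hK
  have bS := sigB_le (C := C) (S := S) hi h0 h1
  have bT := sigB_le (C := C) (S := T) hi h0 h1
  rw [le_div_iff₀ hK'] at bS bT
  have ha : (a : ℝ) = 3 - b := by
    rw [eq_sub_iff_add_eq]; exact_mod_cast hab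
  replace e0 := ht _ e0; replace e1 := ht _ e1; replace e2 := ht _ e2
  simp only [b1C, comb, Vals.list, Int.ofNat_eq_natCast] at e0 e1 e2
  push_cast [ha, pow_add] at e0 e1 e2
  push_cast at nM
  set kN := (2 : ℝ) ^ C.ob / N.o with hkN
  set kM := (2 : ℝ) ^ C.ob / M.o with hkM
  have qN : (2 : ℝ) ^ C.ob = N.o * kN := by rw [hkN]; field_simp
  have qM : (2 : ℝ) ^ C.ob = M.o * kM := by rw [hkM]; field_simp
  refine ⟨kN, kM, by positivity, by positivity, ?_, ?_, ?_, nN, nM⟩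
  · rw [qN] at e0
    have := mul_le_mul_of_nonneg_left bS (mul_nonneg (show (0 : ℝ) ≤ 3 by norm_num) oN.le)
    refine le_of_mul_le_mul_left ?_ (show (0 : ℝ) < 2 ^ d * C.K * (3 * N.o) by positivity)
    simp only [mix]
    linarith
  · rw [qM] at e1
    have := mul_le_mul_of_nonneg_left bT (mul_nonneg (show (0 : ℝ) ≤ 3 by norm_num) oM.le)
    refine le_of_mul_le_mul_left ?_ (show (0 : ℝ) < 2 ^ d * C.K * (3 * M.o) by positivity)
    simp only [mix]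
    linarith
  · have := mul_le_mul_of_nonneg_left (add_le_add bS bT)
      (mul_nonneg (show (0 : ℝ) ≤ 3 by norm_num) (mul_nonneg oN.le oM.le))
    refine le_of_mul_le_mul_left ?_ (show (0 : ℝ) < 2 ^ d * C.K * (3 * (N.o * M.o)) by positivity)
    simp only [mix]
    linear_combination e2 + this + 2 ^ d * C.K * N.o * ((3 - b) * V.b1.1 + b * V.b1.2) * qM
      + 2 ^ d * C.K * M.o * ((3 - (b + 1)) * V.b1.1 + (b + 1) * V.b1.2) * qN

/-- A checked leaf has the property on its piece of the interval. -/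
theorem chkX_sound (hK : 0 < C.K) (test : List ℤ → Bool) (i d : ℕ) (x : LeafX)
    (h : chkX C test i d x = true) (v : List ℝ) (r : ℝ)
    (ht : ∀ cs, test cs = true → 0 ≤ comb cs (1 :: v)) (h0 : 0 ≤ r) (h1 : r ≤ 1) :
    GoodX C v ((i + r) / 2 ^ d) := by
  intro V hv hs hd
  subst hv
  cases x with
  | skip a b =>
    exfalso
    have := ht _ h
    simp only [comb, Vals.list] at this
    push_cast at this
    have hK' : (0 : ℝ) ≤ C.K := Nat.cast_nonneg _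
    have e1 := mul_nonneg (Nat.cast_nonneg (α := ℝ) a) (mul_nonneg hK' hs)
    have e2 := mul_nonneg (Nat.cast_nonneg (α := ℝ) b) (mul_nonneg hK' hd)
    linarith
  | box k0 k1 k2 k3 k4 k5 =>
    simp only [chkX, Bool.and_eq_true] at h
    obtain ⟨⟨q0, q1⟩, q2⟩ := h
    refine ⟨?_, ?_, ?_⟩
    · simpa using stripC_sound hK ht hs hd (b := 0) (by norm_num) q0 h0 h1
    · simpa using stripC_sound hK ht hs hd (b := 1) (by norm_num) q1 h0 h1
    · simpa using stripC_sound hK ht hs hd (b := 2) (by norm_num) q2 h0 h1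

end Vale.Agent.P098.Six
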