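import Vale.Agent.P098.Six.Fast

/-!
# P098, six dimensions: all polynomials of a run in one packed natural number

The arrays of the `k` polynomials are the blocks of one array with `k` times as many repetitions
along every axis, so one halving of it halves all of them. A leaf reads the blocks off as slices.
An accepted run here is an accepted run of `run`.
-/

namespace Vale.Agent.P098.Six

open Finset

/-! ### Blocks of a packed array -/

/-- The `k` blocks of `J` entries, packed one by one. -/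
def blocks (B J k : ℕ) (c : ℕ → ℤ) : List ℤ :=
  (List.range k).map fun j => pack B J fun t => c (j * J + t)

/-- `P` packs arrays whose packed values are `Ps`. -/
def Sup (B J k M : ℕ) (P : ℤ) (Ps : List ℤ) : Prop :=
  ∃ c, Packs B (k * J) M P c ∧ Ps = blocks B J k c

/-- The entries of the block `j` among those of all blocks. -/
def blockG (O j : ℕ) (a : Ghost) : Ghost := fun o r => a (j * O + o) r

theorem blockG_add (O j : ℕ) (a b : Ghost) : blockG O j (a + b) = blockG O j a + blockG O j b := rfl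

theorem blockG_dblG (O j e : ℕ) (a : Ghost) : blockG O j (dblG e a) = dblG e (blockG O j a) := rfl

theorem block_index (O m S j : ℕ) (o i r : ℕ) :
    j * (O * m * S) + ix m S o i r = ix m S (j * O + o) i r := by
  simp only [ix]; ring

theorem gslices_block (O m S j : ℕ) (c : ℕ → ℤ) :
    gslices m S (fun t => c (j * (O * m * S) + t)) = (gslices m S c).map (blockG O j) := by
  simp only [gslices, List.map_map]
  refine List.map_congr_left fun i _ => ?_
  funext o r
  simp [blockG, block_index]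

theorem glue_block {O m S j : ℕ} (hm : 0 < m) (hS : 0 < S) (q : List Ghost) (t : ℕ) :
    glue m S (q.map (blockG O j)) t = glue m S q (j * (O * m * S) + t) := by
  have e1 : (j * (O * m * S) + t) / S = j * O * m + t / S := by
    rw [show j * (O * m * S) + t = t + S * (j * O * m) by ring, Nat.add_mul_div_left _ _ hS]; ring
  have e2 : (j * (O * m * S) + t) % S = t % S := by
    rw [show j * (O * m * S) + t = t + S * (j * O * m) by ring, Nat.add_mul_mod_self_left]
  have e3 : (j * O * m + t / S) % m = t / S % m := by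
    rw [show j * O * m + t / S = t / S + m * (j * O) by ring, Nat.add_mul_mod_self_left]
  have e4 : (j * O * m + t / S) / m = j * O + t / S / m := by
    rw [show j * O * m + t / S = t / S + m * (j * O) by ring, Nat.add_mul_div_left _ _ hm]; ring
  simp only [glue, e1, e2, e3, e4, List.getD_eq_getElem?_getD, List.getElem?_map]
  cases q[t / S % m]? <;> rfl

theorem block_part {B J k M : ℕ} {P : ℤ} {c : ℕ → ℤ} (h : Packs B (k * J) M P c) {j : ℕ} (hj : j < k) :
    Packs B J M (pack B J fun t => c (j * J + t)) fun t => c (j * J + t) := by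
  refine ⟨rfl, fun t ht => h.bound _ ?_⟩
  have : (j + 1) * J ≤ k * J := Nat.mul_le_mul_right _ hj
  rw [Nat.add_mul, Nat.one_mul] at this
  omega

/-- Rounded blocks are rounded from the blocks. -/
theorem round_block {B O m S k n : ℕ} {H R : ℤ} {c' h h' : ℕ → ℤ} {j : ℕ}
    (hR : R = pack B (O * m * S) h') (hH : H = pack B (O * m * S) fun t => c' (j * (O * m * S) + t))
    (e1 : ∀ t < k * (O * m * S), 2 ^ n * c' t ≤ h t ∧ h t < 2 ^ n * c' t + 2 ^ n)
    (e2 : ∀ t < O * m * S, 2 ^ n * h' t ≤ h (j * (O * m * S) + t) ∧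
      h (j * (O * m * S) + t) < 2 ^ n * h' t + 2 ^ n)
    (hj : j < k) : R = H := by
  rw [hR, hH]
  refine pack_congr fun t ht => ?_
  have h2 : (0 : ℤ) < 2 ^ n := by positivity
  have hb : j * (O * m * S) + t < k * (O * m * S) := by
    have : (j + 1) * (O * m * S) ≤ k * (O * m * S) := Nat.mul_le_mul_right _ hj
    rw [Nat.add_mul, Nat.one_mul] at this
    omega
  have a := e1 _ hb
  have b := e2 t ht
  have l1 : (2 : ℤ) ^ n * c' (j * (O * m * S) + t) < 2 ^ n * (h' t + 1) := by linarith [a.1, b.2]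
  have l2 : (2 : ℤ) ^ n * h' t < 2 ^ n * (c' (j * (O * m * S) + t) + 1) := by linarith [b.1, a.2]
  have := lt_of_mul_lt_mul_left l1 h2.le
  have := lt_of_mul_lt_mul_left l2 h2.le
  omega

/-- The left or right half of slices, and its rounding, act block by block. -/
theorem half_block {B O n S k M : ℕ} {P : ℤ} {c : ℕ → ℤ}
    (h : Packs B (k * (O * (n + 1) * S)) M P c) (hn : n < B) (hS : 0 < S)
    (hM : 2 ^ n * M < 2 ^ (B - 1))
    (dz : List ℤ → List ℤ) (dg : List Ghost → List Ghost)
    (hlen : ∀ g, g.length = n + 1 → (dg g).length = n + 1)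
    (hbd : ∀ (O' : ℕ) (g : List Ghost), (∀ a ∈ g, ∀ o < O', ∀ r < S, |a o r| ≤ (M : ℤ)) →
      ∀ a ∈ dg g, ∀ o < O', ∀ r < S, |a o r| ≤ 2 ^ n * (M : ℤ))
    (hpk : ∀ (O' : ℕ) (g : List Ghost),
      dz (g.map (pk B O' (n + 1) S)) = (dg g).map (pk B O' (n + 1) S))
    (hblk : ∀ (j : ℕ) (g : List Ghost), dg (g.map (blockG O j)) = (dg g).map (blockG O j))
    (f : ℤ → ℤ)
    (hf : ∀ Q, f Q = roundP n (biasC B (O * (n + 1) * S)) (lowC B (O * (n + 1) * S) n)
      (biasR B (O * (n + 1) * S) n) (joinP (B * S) (dz (slices (axC B O n S) Q)))) :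
    Sup B (O * (n + 1) * S) k (M + 1)
      (roundP n (biasC B (k * (O * (n + 1) * S))) (lowC B (k * (O * (n + 1) * S)) n)
        (biasR B (k * (O * (n + 1) * S)) n) (joinP (B * S) (dz (slices (axC B (k * O) n S) P))))
      ((blocks B (O * (n + 1) * S) k c).map f) := by
  have hB : 0 < B := by omega
  have hM0 : M < 2 ^ (B - 1) :=
    lt_of_le_of_lt (Nat.le_mul_of_pos_left _ (by positivity)) hM
  have assoc : k * (O * (n + 1) * S) = k * O * (n + 1) * S := by ring
  have hcst : ((2 ^ n * M : ℕ) : ℤ) = 2 ^ n * (M : ℤ) := by push_cast; rfl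
  have h' : Packs B (k * O * (n + 1) * S) M P c := assoc ▸ h
  have hg : Packs B (k * (O * (n + 1) * S)) (2 ^ n * M)
      (joinP (B * S) (dz (slices (axC B (k * O) n S) P)))
      (glue (n + 1) S (dg (gslices (n + 1) S c))) := by
    rw [slices_eq h' hB hS hM0, hpk, assoc]
    exact packs_glue (hlen _ (by simp [gslices])) fun a ha o ho r hr => by
      rw [hcst]; exact hbd _ _ (gslices_bound h') a ha o ho r hr
  obtain ⟨c', hc', ec⟩ := round_sound hg hn hM
  rw [Nat.mul_div_cancel_left _ (by positivity)] at hc'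
  refine ⟨c', hc', ?_⟩
  simp only [blocks, List.map_map]
  refine List.map_congr_left fun j hj => ?_
  have hj' := List.mem_range.1 hj
  have hp := block_part h hj'
  have hq : Packs B (O * (n + 1) * S) (2 ^ n * M)
      (joinP (B * S) (dz (slices (axC B O n S)
        (pack B (O * (n + 1) * S) fun t => c (j * (O * (n + 1) * S) + t)))))
      (glue (n + 1) S (dg (gslices (n + 1) S fun t => c (j * (O * (n + 1) * S) + t)))) := by
    rw [slices_eq hp hB hS hM0, hpk]
    exact packs_glue (hlen _ (by simp [gslices])) fun a ha o ho r hr => by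
      rw [hcst]; exact hbd _ _ (gslices_bound hp) a ha o ho r hr
  obtain ⟨d', hd', ed⟩ := round_sound hq hn hM
  simp only [Function.comp_apply, hf]
  refine round_block (h := glue (n + 1) S (dg (gslices (n + 1) S c))) hd'.eq rfl ec
    (fun t ht => ?_) hj'
  have := ed t ht
  rwa [gslices_block, hblk, glue_block (Nat.succ_pos _) hS] at this

theorem sup_halved (L : Lay) (a : Fin 4) {k M : ℕ} {P : ℤ} {Ps : List ℤ}
    (h : Sup L.B L.size k M P Ps) (hn : L.deg a < L.B) (hM : 2 ^ L.deg a * M < 2 ^ (L.B - 1)) :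
    let A : Ax := axC L.B (k * L.outer a) (L.deg a) (L.stride a)
    let rd := roundP (L.deg a) (biasC L.B (k * L.size)) (lowC L.B (k * L.size) (L.deg a))
      (biasR L.B (k * L.size) (L.deg a))
    Sup L.B L.size k (M + 1) (rd (halfLo A P)) (Ps.map ((L.axK a).lo)) ∧
      Sup L.B L.size k (M + 1) (rd (halfHi A P)) (Ps.map ((L.axK a).hi)) := by
  obtain ⟨c, hc, rfl⟩ := h
  rw [L.size_eq a] at hc
  intro A rd
  constructor
  · have := half_block hc hn (L.stride_pos a) hM (dL dblZ (L.deg a)) (dL dblG (L.deg a))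
      (fun g hg => length_dL _ _ _ hg) (fun O' g hg => dL_bound _ g hg)
      (fun O' g => (map_dL pk_add pk_dblG _ g).symm)
      (fun j g => (map_dL (blockG_add _ j) (blockG_dblG _ j) _ g).symm) ((L.axK a).lo)
      (fun Q => by rw [← L.size_eq a]; rfl)
    rw [← L.size_eq a] at this
    exact this
  · have := half_block hc hn (L.stride_pos a) hM (dR dblZ (L.deg a)) (dR dblG (L.deg a))
      (fun g hg => by rw [dR, List.length_reverse, length_dL _ _ _ (by simpa using hg)])
      (fun O' g hg a ha o ho r hr => dL_bound _ g.reverse (fun x hx => hg x (List.mem_reverse.1 hx)) a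
        (List.mem_reverse.1 ha) o ho r hr)
      (fun O' g => (map_dR pk_add pk_dblG _ g).symm)
      (fun j g => (map_dR (blockG_add _ j) (blockG_dblG _ j) _ g).symm) ((L.axK a).hi)
      (fun Q => by rw [← L.size_eq a]; rfl)
    rw [← L.size_eq a] at this
    exact this

/-- The blocks are the slices along the axis of all blocks. -/
theorem sup_slices {B J k M : ℕ} {P : ℤ} {Ps : List ℤ} (h : Sup B J (k + 1) M P Ps) (hB : 0 < B)
    (hJ : 0 < J) (hM : M < 2 ^ (B - 1)) : slices (axC B 1 k J) P = Ps := by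
  obtain ⟨c, hc, rfl⟩ := h
  have hc' : Packs B (1 * (k + 1) * J) M P c := by rwa [Nat.one_mul]
  rw [slices_eq hc' hB hJ hM, gslices, List.map_map, blocks]
  refine List.map_congr_left fun i _ => ?_
  simp [pk, pack, ix]

theorem sup_bound {B J k M : ℕ} {P : ℤ} {Ps : List ℤ} (h : Sup B J k M P Ps) :
    ∀ Q ∈ Ps, ∃ c, Packs B J M Q c := by
  obtain ⟨c, hc, rfl⟩ := h
  intro Q hQ
  obtain ⟨j, hj, rfl⟩ := List.mem_map.1 hQ
  exact ⟨_, block_part hc (List.mem_range.1 hj)⟩

theorem sup_root {B J M : ℕ} : ∀ (Ps : List ℤ), (∀ Q ∈ Ps, ∃ c, Packs B J M Q c) →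
    Sup B J Ps.length M (joinP (B * J) Ps) Ps
  | [], _ => ⟨0, ⟨by simp [joinP, pack], by simp⟩, by simp [blocks]⟩
  | Q :: Ps, h => by
    obtain ⟨d, hd⟩ := h Q (by simp)
    obtain ⟨c, hc, e⟩ := sup_root Ps fun x hx => h x (List.mem_cons_of_mem _ hx)
    refine ⟨fun t => if t < J then d t else c (t - J), ⟨?_, fun t ht => ?_⟩, ?_⟩
    · rw [joinP, shlZ_eq, hc.eq, hd.eq, pack, pack, pack, List.length_cons,
        show (Ps.length + 1) * J = J + Ps.length * J by ring, sum_range_add, mul_sum]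
      refine congrArg₂ _ (sum_congr rfl fun t ht => by rw [if_pos (mem_range.1 ht)]) ?_
      refine sum_congr rfl fun t _ => ?_
      rw [if_neg (by omega), Nat.add_sub_cancel_left, Nat.mul_add, pow_add]
      push_cast
      ring
    · rw [List.length_cons, Nat.add_mul, Nat.one_mul] at ht
      by_cases ht' : t < J
      · rw [if_pos ht']; exact hd.bound t ht'
      · rw [if_neg ht']; exact hc.bound _ (by omega)
    · rw [blocks, List.length_cons, List.range_succ_eq_map, List.map_cons, List.map_map, hd.eq]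
      refine congrArg₂ _ (pack_congr fun t ht => by simp [ht]) (e.trans ?_)
      refine List.map_congr_left fun j _ => ?_
      refine pack_congr fun t _ => ?_
      show c (j * J + t) = if (j + 1) * J + t < J then _ else c ((j + 1) * J + t - J)
      rw [if_neg (by rw [Nat.add_mul]; omega)]
      congr 1
      rw [Nat.add_mul]; omega

/-! ### Evaluation first, without substituting the value -/

/-- Evaluate the argument first; the continuation keeps the term, whose value is remembered. -/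
def forceB (k : ℕ → Bool) (a : ℕ) : Bool := bif Nat.ble 0 a then k a else false

theorem forceB_eq (k : ℕ → Bool) (a : ℕ) : forceB k a = k a := by
  rw [forceB, show Nat.ble 0 a = true from Nat.ble_eq ▸ Nat.zero_le a, cond_true]

/-- All entries evaluated first. -/
def allS : List ℕ → (List ℕ → Bool) → Bool
  | [], k => k []
  | a :: p, k => forceB (fun b => allS p fun q => k (b :: q)) a

theorem allS_eq : ∀ (p : List ℕ) (k : List ℕ → Bool), allS p k = k p
  | [], _ => rfl
  | a :: p, k => by rw [allS, forceB_eq, allS_eq p]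

/-- A half of the packed number by masked rounds. -/
def halfS (A : AxQ) (up : Bool) (Q : ℕ) (k : ℕ → Bool) : Bool :=
  forceB k (roundQ A (bif up then stepsR A.BS A.right (Q - A.D) else stepsL A.BS A.left (Q - A.D)))

theorem halfS_eq (A : AxQ) (up : Bool) (Q : ℕ) (k : ℕ → Bool) : halfS A up Q k = halfF A up Q k := by
  rw [halfS, forceB_eq, halfF, forceS_eq]

/-- The packed value of a list of biased values. -/
def joinS (BS : ℕ) : List ℕ → ℕ
  | [] => 0
  | a :: p => a + joinS BS p <<< BS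

theorem cast_joinS (BS : ℕ) : ∀ p : List ℕ,
    ((joinS BS p : ℕ) : ℤ) = joinP BS (p.map fun a : ℕ => (a : ℤ))
  | [] => rfl
  | a :: p => by
    rw [joinS, List.map_cons, joinP, shlZ_eq, ← cast_joinS BS p, Nat.shiftLeft_eq]; push_cast; ring

theorem joinP_shift' (BS : ℕ) (k : ℤ) : ∀ p : List ℤ,
    joinP BS (p.map (· + k)) = joinP BS p + joinP BS (List.replicate p.length k)
  | [] => rfl
  | a :: p => by
    simp only [List.map_cons, joinP, List.length_cons, List.replicate_succ, shlZ_eq,
      joinP_shift' BS k p]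
    ring

/-! ### The run -/

/-- Constants of a packed run: the four axes, and shift and mask of the blocks. -/
structure SupQ where
  k0 : AxQ
  k1 : AxQ
  k2 : AxQ
  k3 : AxQ
  last : ℕ
  BJ : ℕ
  X : ℕ

/-- The blocks of a packed number. -/
def SupQ.parts (S : SupQ) (Q : ℕ) : List ℕ :=
  (List.range (S.last + 1)).map fun i => Q >>> (i * S.BJ) &&& S.X

/-- The constants agree with a layout and a number `k + 1` of blocks. -/
def SupQ.good (S : SupQ) (L : Lay) (k : ℕ) : Bool :=
  Nat.blt L.n₀ L.B && Nat.blt L.n₁ L.B && Nat.blt L.n₂ L.B && Nat.blt L.n₃ L.B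
    && S.k0.good L.B ((k + 1) * L.outer 0) L.n₀ (L.stride 0)
    && S.k1.good L.B ((k + 1) * L.outer 1) L.n₁ (L.stride 1)
    && S.k2.good L.B ((k + 1) * L.outer 2) L.n₂ (L.stride 2)
    && S.k3.good L.B ((k + 1) * L.outer 3) L.n₃ (L.stride 3)
    && S.last == k && S.BJ == L.B * L.size && S.X == maskC L.B 1 (k + 1) L.size
    && biasA L.B 1 (k + 1) L.size == biasC L.B L.size
    && joinS (L.B * L.size) (List.replicate (k + 1) (biasC L.B L.size)) ==
      biasC L.B ((k + 1) * L.size)

variable {α : Type}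

/-- The run on one packed natural number. -/
def runS (K : ConQ) (S : SupQ) (lf : ℕ → List ℕ → ℕ → ℕ → α → Bool) :
    Tree α → ℕ → ℕ → ℕ → ℕ → Bool
  | .leaf x, n, i, d, Q => Nat.blt (K.M + n) K.cap &&
      allS (S.parts Q) fun Qs => lf n Qs i d x
  | .s0 l r, n, i, d, Q => halveQ K S.k0 n && (halfS S.k0 false Q (runS K S lf l (n + 1) i d) &&
      halfS S.k0 true Q (runS K S lf r (n + 1) i d))
  | .s1 l r, n, i, d, Q => halveQ K S.k1 n && (halfS S.k1 false Q (runS K S lf l (n + 1) i d) &&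
      halfS S.k1 true Q (runS K S lf r (n + 1) i d))
  | .s2 l r, n, i, d, Q => halveQ K S.k2 n && (halfS S.k2 false Q (runS K S lf l (n + 1) i d) &&
      halfS S.k2 true Q (runS K S lf r (n + 1) i d))
  | .s3 l r, n, i, d, Q => halveQ K S.k3 n &&
      (halfS S.k3 false Q (runS K S lf l (n + 1) (2 * i) (d + 1)) &&
        halfS S.k3 true Q (runS K S lf r (n + 1) (2 * i + 1) (d + 1)))

/-- The axis of a step. -/
def Dir.axS (S : SupQ) : Dir → AxQ
  | .d0 _ => S.k0
  | .d1 _ => S.k1
  | .d2 _ => S.k2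
  | .d3 _ => S.k3

/-- The packed run at the end of a path. -/
def runPathS (K : ConQ) (S : SupQ) (lf : ℕ → List ℕ → ℕ → ℕ → α → Bool) :
    List Dir → Tree α → ℕ → ℕ → ℕ → ℕ → Bool
  | [], T, n, i, d, Q => runS K S lf T n i d Q
  | s :: p, T, n, i, d, Q => halveQ K (s.axS S) n &&
      halfS (s.axS S) s.up Q (runPathS K S lf p T (n + 1) (s.pos i d).1 (s.pos i d).2)

variable {L : Lay} {M E k : ℕ} {Q : ConQ} {S : SupQ}

theorem sup_axis {a : Fin 4} {A : AxQ}
    (gA : A.good L.B ((k + 1) * L.outer a) (L.deg a) (L.stride a) = true) (hd : L.deg a < L.B)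
    {N : ℕ} (hN : 2 ^ L.deg a * N < 2 ^ (L.B - 1)) (up : Bool) {P : ℤ} {Ps : List ℤ}
    (h : Sup L.B L.size (k + 1) N P Ps) :
    ∃ P' : ℤ, (∀ g : ℕ → Bool, halfS A up (biased (biasC L.B ((k + 1) * L.size)) P) g =
        g (biased (biasC L.B ((k + 1) * L.size)) P')) ∧
      Sup L.B L.size (k + 1) (N + 1) P' (Ps.map (bif up then (L.axK a).hi else (L.axK a).lo)) := by
  obtain ⟨s1, s2⟩ := sup_halved L a h hd hN
  have e : (k + 1) * L.size = (k + 1) * L.outer a * (L.deg a + 1) * L.stride a := by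
    rw [L.size_eq a]; ring
  obtain ⟨c, hc, -⟩ := h
  rw [e] at hc
  refine ⟨roundP (L.deg a) (biasC L.B ((k + 1) * L.size)) (lowC L.B ((k + 1) * L.size) (L.deg a))
    (biasR L.B ((k + 1) * L.size) (L.deg a))
    (bif up then halfHi (axC L.B ((k + 1) * L.outer a) (L.deg a) (L.stride a)) P
      else halfLo (axC L.B ((k + 1) * L.outer a) (L.deg a) (L.stride a)) P), fun g => ?_, ?_⟩
  · rw [halfS_eq, e, halfF_eq gA hc (L.stride_pos a) hd hN up g]
  · cases up
    · exact s1
    · exact s2

/-- The facts in `good`. -/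
theorem SupQ.good_facts (hS : S.good L k = true) :
    (∀ s : Dir, ∃ a : Fin 4, L.deg a < L.B ∧
      (s.axS S).good L.B ((k + 1) * L.outer a) (L.deg a) (L.stride a) = true ∧
      s.axK (L.con M E) = L.axK a) ∧
      S.last = k ∧ S.BJ = L.B * L.size ∧
      S.X = maskC L.B 1 (k + 1) L.size ∧ biasA L.B 1 (k + 1) L.size = biasC L.B L.size ∧
      joinS (L.B * L.size) (List.replicate (k + 1) (biasC L.B L.size)) =
        biasC L.B ((k + 1) * L.size) ∧ 0 < L.B := by
  simp only [SupQ.good, Bool.and_eq_true, beq_iff_eq, Nat.blt_eq] at hS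
  obtain ⟨⟨⟨⟨⟨⟨⟨⟨⟨⟨⟨⟨q0, q1⟩, q2⟩, q3⟩, g0⟩, g1⟩, g2⟩, g3⟩, u0⟩, u1⟩, u2⟩, u3⟩, u4⟩ := hS
  refine ⟨fun s => ?_, u0, u1, u2, u3, u4, by omega⟩
  cases s
  · exact ⟨0, q0, g0, rfl⟩
  · exact ⟨1, q1, g1, rfl⟩
  · exact ⟨2, q2, g2, rfl⟩
  · exact ⟨3, q3, g3, rfl⟩

theorem leaf_parts (hS : S.good L k = true) {n : ℕ} {P : ℤ} {Ps : List ℤ}
    (h : Sup L.B L.size (k + 1) (M + n) P Ps) (hcap : M + n < 2 ^ (L.B - 1)) :
    S.parts (biased (biasC L.B ((k + 1) * L.size)) P) = Ps.map (biased (biasC L.B L.size)) ∧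
      AboveH (biasC L.B L.size) Ps := by
  obtain ⟨-, u0, u1, u2, u3, -, hB⟩ := SupQ.good_facts (M := M) (E := 0) hS
  have hsz : 0 < L.size := by rw [Lay.size]; positivity
  have e : (S.parts (biased (biasC L.B ((k + 1) * L.size)) P)).map (fun a : ℕ => (a : ℤ)) =
      (slices (axC L.B 1 k L.size) P).map (· + (biasC L.B L.size : ℤ)) := by
    rw [SupQ.parts, slices, List.map_map, List.map_map, u0, u1, u2]
    refine List.map_congr_left fun i _ => ?_
    simp [sliceP, axC, u3, Int.subNatNat_eq_coe]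
  rw [sup_slices h hB hsz hcap] at e
  have above : AboveH (biasC L.B L.size) Ps := by
    intro x hx
    have hm : x + (biasC L.B L.size : ℤ) ∈ Ps.map (· + (biasC L.B L.size : ℤ)) :=
      List.mem_map.2 ⟨x, hx, rfl⟩
    rw [← e] at hm
    obtain ⟨q, -, hq⟩ := List.mem_map.1 hm
    rw [← hq]; exact Int.natCast_nonneg _
  refine ⟨?_, above⟩
  apply List.map_injective_iff.2 (fun x y h => Int.ofNat.inj h : Function.Injective fun a : ℕ => (a : ℤ))
  rw [e, List.map_map]
  refine List.map_congr_left fun x hx => ?_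
  simp [biased, Int.toNat_of_nonneg (above x hx)]

/-- A check on biased values implies the check `chk`. -/
def LeafImp (L : Lay) (M E : ℕ) (chk : (List ℤ → Bool) → ℕ → ℕ → α → Bool)
    (lf : ℕ → List ℕ → ℕ → ℕ → α → Bool) : Prop :=
  ∀ (n i d : ℕ) (x : α) (Ps : List ℤ), Packed L (M + n) Ps → AboveH (biasC L.B L.size) Ps →
    lf n (Ps.map (biased (biasC L.B L.size))) i d x = true → chk (testC (L.con M E) n Ps) i d x = true

/-- The check through `testQ`. -/
def leafQ (K : ConQ) (chk : (List ℤ → Bool) → ℕ → ℕ → α → Bool) (n : ℕ) (Qs : List ℕ) (i d : ℕ)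
    (x : α) : Bool := chk (testQ K n Qs) i d x

theorem leafQ_imp (hQ : Q.good L M E = true) (chk : (List ℤ → Bool) → ℕ → ℕ → α → Bool) :
    LeafImp L M E chk (leafQ Q chk) := by
  obtain ⟨⟨h1, h2, h3, h4, h5, -, -⟩, -⟩ := good_parts hQ
  intro n i d x Ps _ ha h
  rw [leafQ, show testQ Q n (Ps.map (biased (biasC L.B L.size))) = testC (L.con M E) n Ps from
    funext fun cs => testQ_eq (K := L.con M E) h1 h2 h3 h4 (by simp [Lay.con, h5]) n Ps cs ha] at h
  exact h

/-- An accepted packed run is an accepted run. -/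
theorem run_of_runS (hS : S.good L k = true) (hQ : Q.good L M E = true)
    {chk : (List ℤ → Bool) → ℕ → ℕ → α → Bool} {lf : ℕ → List ℕ → ℕ → ℕ → α → Bool}
    (hlf : LeafImp L M E chk lf) :
    ∀ (T : Tree α) (n i d : ℕ) (P : ℤ) (Ps : List ℤ), Sup L.B L.size (k + 1) (M + n) P Ps →
      runS Q S lf T n i d (biased (biasC L.B ((k + 1) * L.size)) P) = true →
        run (L.con M E) chk T n i d Ps = true := by
  obtain ⟨⟨h1, -, h3, -, -, -, hd⟩, -⟩ := good_parts hQ
  simp only [SupQ.good, Bool.and_eq_true] at hS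
  have hS' := hS
  obtain ⟨⟨⟨⟨⟨⟨⟨⟨⟨-, g0⟩, g1⟩, g2⟩, g3⟩, -⟩, -⟩, -⟩, -⟩, -⟩ := hS'
  have step : ∀ {a : Fin 4} {A : AxQ},
      A.good L.B ((k + 1) * L.outer a) (L.deg a) (L.stride a) = true → ∀ {n : ℕ} {P : ℤ} {Ps : List ℤ}
      {f : ℕ → Bool} {g : List ℤ → Bool} (up : Bool), Sup L.B L.size (k + 1) (M + n) P Ps →
      (∀ P' Ps', Sup L.B L.size (k + 1) (M + (n + 1)) P' Ps' →
        f (biased (biasC L.B ((k + 1) * L.size)) P') = true → g Ps' = true) →
      halveQ Q A n = true → halfS A up (biased (biasC L.B ((k + 1) * L.size)) P) f = true →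
      halveOK (L.con M E) (L.axK a) n = true ∧
        g (Ps.map (bif up then (L.axK a).hi else (L.axK a).lo)) = true := by
    intro a A gA n P Ps f g up h hf hh hr
    have gn : A.n = L.deg a := by
      simp only [AxQ.good, Bool.and_eq_true, beq_iff_eq] at gA; exact gA.1.1.1.1.1
    simp only [halveQ, gn, h1, h3, Nat.blt_eq] at hh
    obtain ⟨P', e, s⟩ := sup_axis gA (hd a) hh up h
    rw [e] at hr
    exact ⟨by simp only [halveOK, Lay.con, Lay.axK, Nat.blt_eq]; exact hh, hf _ _ s hr⟩
  intro T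
  induction T with
  | leaf x =>
    intro n i d P Ps h hr
    simp only [runS, Bool.and_eq_true, h1, h3, Nat.blt_eq, allS_eq] at hr
    obtain ⟨e, ha⟩ := leaf_parts (by simpa [SupQ.good, Bool.and_eq_true] using hS) h hr.1
    rw [e] at hr
    exact hlf n i d x Ps (sup_bound h) ha hr.2
  | s0 l r ihl ihr =>
    intro n i d P Ps h hr
    simp only [runS, Bool.and_eq_true] at hr
    obtain ⟨e, x⟩ := step (a := 0) g0 false h (ihl _ _ _) hr.1 hr.2.1
    obtain ⟨-, y⟩ := step (a := 0) g0 true h (ihr _ _ _) hr.1 hr.2.2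
    simp only [run, mapF_eq, Bool.and_eq_true]
    exact ⟨e, x, y⟩
  | s1 l r ihl ihr =>
    intro n i d P Ps h hr
    simp only [runS, Bool.and_eq_true] at hr
    obtain ⟨e, x⟩ := step (a := 1) g1 false h (ihl _ _ _) hr.1 hr.2.1
    obtain ⟨-, y⟩ := step (a := 1) g1 true h (ihr _ _ _) hr.1 hr.2.2
    simp only [run, mapF_eq, Bool.and_eq_true]
    exact ⟨e, x, y⟩
  | s2 l r ihl ihr =>
    intro n i d P Ps h hr
    simp only [runS, Bool.and_eq_true] at hr
    obtain ⟨e, x⟩ := step (a := 2) g2 false h (ihl _ _ _) hr.1 hr.2.1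
    obtain ⟨-, y⟩ := step (a := 2) g2 true h (ihr _ _ _) hr.1 hr.2.2
    simp only [run, mapF_eq, Bool.and_eq_true]
    exact ⟨e, x, y⟩
  | s3 l r ihl ihr =>
    intro n i d P Ps h hr
    simp only [runS, Bool.and_eq_true] at hr
    obtain ⟨e, x⟩ := step (a := 3) g3 false h (ihl _ _ _) hr.1 hr.2.1
    obtain ⟨-, y⟩ := step (a := 3) g3 true h (ihr _ _ _) hr.1 hr.2.2
    simp only [run, mapF_eq, Bool.and_eq_true]
    exact ⟨e, x, y⟩

theorem runPath_of_runPathS (hS : S.good L k = true) (hQ : Q.good L M E = true)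
    {chk : (List ℤ → Bool) → ℕ → ℕ → α → Bool} {lf : ℕ → List ℕ → ℕ → ℕ → α → Bool}
    (hlf : LeafImp L M E chk lf) (T : Tree α) :
    ∀ (p : List Dir) (n i d : ℕ) (P : ℤ) (Ps : List ℤ), Sup L.B L.size (k + 1) (M + n) P Ps →
      runPathS Q S lf p T n i d (biased (biasC L.B ((k + 1) * L.size)) P) = true →
        runPath (L.con M E) chk p T n i d Ps = true := by
  obtain ⟨⟨h1, -, h3, -, -, -, -⟩, -⟩ := good_parts hQ
  obtain ⟨gs, -⟩ := SupQ.good_facts (M := M) (E := E) hS
  intro p
  induction p with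
  | nil => intro n i d P Ps h hr; exact run_of_runS hS hQ hlf T n i d P Ps h hr
  | cons s p ih =>
    intro n i d P Ps h hr
    simp only [runPathS, Bool.and_eq_true] at hr
    obtain ⟨a, hd, gA, eA⟩ := gs s
    have gn : (s.axS S).n = L.deg a := by
      simp only [AxQ.good, Bool.and_eq_true, beq_iff_eq] at gA; exact gA.1.1.1.1.1
    have hh := hr.1
    simp only [halveQ, gn, h1, h3, Nat.blt_eq] at hh
    obtain ⟨P', e, s'⟩ := sup_axis gA hd hh s.up h
    have x := ih _ _ _ _ _ s' (e _ ▸ hr.2)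
    simp only [runPath, mapF_eq, Bool.and_eq_true, eA]
    refine ⟨by simp only [halveOK, Lay.con, Lay.axK, Nat.blt_eq]; exact hh, ?_⟩
    cases s with
    | d0 b => cases b <;> (simp only [Dir.axK] at eA; simpa [Dir.half, Dir.up, eA] using x)
    | d1 b => cases b <;> (simp only [Dir.axK] at eA; simpa [Dir.half, Dir.up, eA] using x)
    | d2 b => cases b <;> (simp only [Dir.axK] at eA; simpa [Dir.half, Dir.up, eA] using x)
    | d3 b => cases b <;> (simp only [Dir.axK] at eA; simpa [Dir.half, Dir.up, eA] using x)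

/-- An accepted packed run from the biased roots is an accepted path. -/
theorem runPath_of_packed (hS : S.good L k = true) (hQ : Q.good L M E = true)
    {chk : (List ℤ → Bool) → ℕ → ℕ → α → Bool} {lf : ℕ → List ℕ → ℕ → ℕ → α → Bool}
    (hlf : LeafImp L M E chk lf) {p : List Dir} {T : Tree α} {Qs : List ℕ}
    (hl : Qs.length = k + 1) (hP : Packed L M (unbias (biasC L.B L.size) Qs))
    (h : runPathS Q S lf p T 0 0 0 (joinS (L.B * L.size) Qs) = true) :
    runPath (L.con M E) chk p T 0 0 0 (unbias (biasC L.B L.size) Qs) = true := by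
  set H := biasC L.B L.size
  obtain ⟨-, -, -, -, -, u4, -⟩ := SupQ.good_facts (M := M) (E := E) hS
  have hsup := sup_root _ hP
  have hlen : (unbias H Qs).length = k + 1 := by simp [unbias, hl]
  rw [hlen] at hsup
  refine runPath_of_runPathS hS hQ hlf T p 0 0 0 _ _ hsup ?_
  have ha : AboveH H (unbias H Qs) := fun x hx => by
    obtain ⟨q, -, rfl⟩ := List.mem_map.1 hx
    rw [Int.subNatNat_eq_coe]; omega
  have e1 : Qs.map (fun a : ℕ => (a : ℤ)) = (unbias H Qs).map (· + (H : ℤ)) := by
    rw [unbias, List.map_map]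
    exact List.map_congr_left fun q _ => by simp [Int.subNatNat_eq_coe]
  have e : ((joinS (L.B * L.size) Qs : ℕ) : ℤ) = joinP (L.B * L.size) (unbias H Qs) +
      joinP (L.B * L.size) (List.replicate (k + 1) (H : ℤ)) := by
    rw [cast_joinS, e1, joinP_shift', hlen]
  have u4' := congrArg (fun x : ℕ => (x : ℤ)) u4
  simp only [cast_joinS, List.map_replicate] at u4'
  have hb : biased (biasC L.B ((k + 1) * L.size)) (joinP (L.B * L.size) (unbias H Qs)) =
      joinS (L.B * L.size) Qs := by
    rw [biased, Int.ofNat_eq_natCast, ← u4', ← e, Int.toNat_natCast]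
  rw [hb]; exact h

end Vale.Agent.P098.Six
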