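import Mathlib
import Vale.Agent.P098.Div.Elim

/-!
# P098, five tangential eigenvalues: checked upper bounds for the residual

On an interval of `a = l k` the residual of `Elim` is bounded by an affine function of `a`. With
`d = tdev a t` the two bounds on the fourth moment and `d ^ 2 ≤ xres a ^ 3 / 3` turn this into the
nonnegativity of a quadratic in `d`, hence of a discriminant that is a polynomial in `a` alone.
-/

namespace Vale.Agent.P098.Six

open Vale.Agent.P098.Div

/-- A polynomial in one variable, constant term first. -/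
abbrev Pol := List ℚ

/-- Its value. -/
def ev : Pol → ℝ → ℝ
  | [], _ => 0
  | c :: p, a => (c : ℝ) + a * ev p a

/-- Sum. -/
def padd : Pol → Pol → Pol
  | [], q => q
  | p, [] => p
  | a :: p, b :: q => (a + b) :: padd p q

/-- Multiple. -/
def psm (c : ℚ) : Pol → Pol
  | [] => []
  | a :: p => (c * a) :: psm c p

/-- Product. -/
def pmul : Pol → Pol → Pol
  | [], _ => []
  | a :: p, q => padd (psm a q) (0 :: pmul p q)

theorem ev_padd (a : ℝ) : ∀ p q, ev (padd p q) a = ev p a + ev q a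
  | [], q => by simp [padd, ev]
  | c :: p, [] => by simp [padd, ev]
  | c :: p, d :: q => by simp only [padd, ev, ev_padd a p q]; push_cast; ring

theorem ev_psm (a : ℝ) (c : ℚ) : ∀ p, ev (psm c p) a = c * ev p a
  | [] => by simp [psm, ev]
  | d :: p => by simp only [psm, ev, ev_psm a c p]; push_cast; ring

theorem ev_pmul (a : ℝ) : ∀ p q, ev (pmul p q) a = ev p a * ev q a
  | [], q => by simp [pmul, ev]
  | c :: p, q => by simp only [pmul, ev, ev_padd, ev_psm, ev_pmul a p q]; push_cast; ring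

/-- The numerator of the polynomial after `a = (u + v τ) / (1 + τ)`, with the power of `1 + τ`. -/
def subst (u v : ℚ) : Pol → Pol × Pol
  | [] => ([], [1])
  | c :: p =>
    ((padd (psm c (pmul [1, 1] (subst u v p).2)) (pmul [u, v] (subst u v p).1)),
      pmul [1, 1] (subst u v p).2)

theorem ev_subst (u v : ℚ) {a τ : ℝ} (h : a * (1 + τ) = u + v * τ) :
    ∀ p, ev (subst u v p).1 τ = ev p a * ev (subst u v p).2 τ
  | [] => by simp [subst, ev]
  | c :: p => by
    simp only [subst, ev_padd, ev_psm, ev_pmul, ev_subst u v h p, ev]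
    push_cast
    linear_combination (-(ev p a * ev (subst u v p).2 τ)) * h

theorem ev_pow_pos (u v : ℚ) {τ : ℝ} (h : 0 ≤ τ) : ∀ p, 0 < ev (subst u v p).2 τ
  | [] => by simp [subst, ev]
  | c :: p => by
    simp only [subst, ev_pmul, ev]
    push_cast
    exact mul_pos (by linarith) (ev_pow_pos u v h p)

theorem ev_nonneg {τ : ℝ} (h : 0 ≤ τ) : ∀ p : Pol, (p.all fun c => decide (0 ≤ c)) = true → 0 ≤ ev p τ
  | [], _ => by simp [ev]
  | c :: p, hp => by
    simp only [List.all_cons, Bool.and_eq_true, decide_eq_true_eq] at hp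
    have h1 : (0 : ℝ) ≤ c := by exact_mod_cast hp.1
    simp only [ev]
    nlinarith [mul_nonneg h (ev_nonneg h p hp.2)]

/-- The value at a rational point. -/
def evQ : Pol → ℚ → ℚ
  | [], _ => 0
  | c :: p, a => c + a * evQ p a

theorem ev_cast (v : ℚ) : ∀ p, ev p (v : ℝ) = ((evQ p v : ℚ) : ℝ)
  | [] => by simp [ev, evQ]
  | c :: p => by simp only [ev, evQ, ev_cast v p]; push_cast; ring

/-- Nonnegativity on `[u, v]`, by coefficients. -/
def nonnegOn (u v : ℚ) (p : Pol) : Bool :=
  ((subst u v p).1.all fun c => decide (0 ≤ c)) && decide (0 ≤ evQ p v)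

theorem nonnegOn_sound {u v : ℚ} {p : Pol} (h : nonnegOn u v p = true) {a : ℝ} (hu : (u : ℝ) ≤ a)
    (hv : a ≤ v) : 0 ≤ ev p a := by
  simp only [nonnegOn, Bool.and_eq_true, decide_eq_true_eq] at h
  rcases eq_or_lt_of_le hv with e | e
  · rw [e, ev_cast]; exact_mod_cast h.2
  · have hd : (0 : ℝ) < v - a := sub_pos.2 e
    have hτ : 0 ≤ (a - u) / (v - a) := div_nonneg (sub_nonneg.2 hu) hd.le
    have he : a * (1 + (a - u) / (v - a)) = (u : ℝ) + v * ((a - u) / (v - a)) := by
      field_simp; ring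
    have h2 := ev_nonneg hτ _ h.1
    rw [ev_subst u v he] at h2
    exact nonneg_of_mul_nonneg_left h2 (ev_pow_pos u v hτ p)

/-! ### The quadratic in `d` -/

/-- `g11`. -/
def gP : Pol := [1/3, 0, 10/21]
/-- `xres`. -/
def xP : Pol := [1, 0, -5/4]
/-- `g12` at `d = 0`. -/
def cP : Pol := [0, -29/84, 0, 185/168]
/-- The square in `g22`. -/
def kP : Pol := pmul [-1/7, 0, 5/7] [-1/7, 0, 5/7]
/-- The part of `g22` before the bound on the fourth moment, at `d = 0`. -/
def qP : Pol :=
  padd (padd [0, 0, 0, 0, 1/64] (pmul [0, 0, 3/8] xP))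
    (padd (psm (-2) (pmul [1/7, 0, 2/7] [1, 0, -1])) (psm 4 (pmul [1/7, 0, 2/7] [1/7, 0, 2/7])))

/-- Coefficient of `d ^ 2`. -/
def coef2 (m : Bool) (lam : ℚ) : Pol :=
  if m then padd (padd (psm (-1/3) gP) (psm (4/9) xP)) [lam] else [1/9 + lam]

/-- Coefficient of `d`. -/
def coef1 (m : Bool) (nu : ℚ) : Pol :=
  if m then padd (padd (pmul (psm (4/3) xP) (pmul gP [0, 1])) (psm (8/3) (pmul xP cP))) [-nu]
  else padd (padd (psm (1/3) (pmul gP [0, 1])) (psm (2/3) cP)) [-nu]

/-- Coefficient of one; `s` is the bound. -/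
def coef0 (m : Bool) (lam : ℚ) (s : Pol) : Pol :=
  padd
    (if m then
      padd (padd (psm 4 (pmul xP (pmul gP (padd s (psm (-1) kP)))))
          (psm (-4/3) (pmul xP (pmul gP qP))))
        (padd (psm (-2/3) (pmul gP (pmul xP (pmul xP xP)))) (psm 4 (pmul xP (pmul cP cP))))
    else
      padd (padd (pmul gP (padd s (psm (-1) kP)))
          (psm (-1/3) (pmul gP (padd qP (psm (7/12) (pmul xP xP))))))
        (pmul cP cP))
    (psm (-lam/3) (pmul xP (pmul xP xP)))

/-- A bound on `[u, v]`: `m` chooses the bound on the fourth moment, `lam` is the multiplier of the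
range of `d`, `nu` that of its sign. -/
structure Piece where
  u : ℚ
  v : ℚ
  m : Bool
  lam : ℚ
  nu : ℚ

/-- The check for one piece. -/
def Piece.check (P : Piece) (s : Pol) : Bool :=
  decide (0 ≤ P.lam) && (nonnegOn P.u P.v (padd (coef2 P.m P.lam) [-1/1000000])
    && (nonnegOn P.u P.v (padd xP (if P.m then [-1/1000000] else psm (-1) xP))
    && nonnegOn P.u P.v (padd (psm 4 (pmul (coef2 P.m P.lam) (coef0 P.m P.lam s)))
        (psm (-1) (pmul (coef1 P.m P.nu) (coef1 P.m P.nu))))))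

theorem quad_nonneg {A B C d : ℝ} (hA : 0 < A) (h : 0 ≤ 4 * A * C - B ^ 2) :
    0 ≤ A * d ^ 2 + B * d + C := by
  nlinarith [sq_nonneg (2 * A * d + B)]

theorem Piece.resid_le {P : Piece} {s : Pol} (hc : P.check s = true) {a t A : ℝ}
    (hu : (P.u : ℝ) ≤ a) (hv : a ≤ P.v) (hd : 3 * tdev a t ^ 2 ≤ xres a ^ 3)
    (hn : 0 ≤ (P.nu : ℝ) * tdev a t)
    (h1 : 4 * xres a * A ≤ 2 * xres a ^ 3 + tdev a t ^ 2) (h2 : 12 * A ≤ 7 * xres a ^ 2) :
    resid a t (a ^ 4 / 64 + 3 / 8 * a ^ 2 * xres a - a * tdev a t + A) ≤ ev s a := by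
  obtain ⟨d, rfl⟩ : ∃ d, t = 15 / 8 * a ^ 3 - 3 / 4 * a + d := ⟨t - (15 / 8 * a ^ 3 - 3 / 4 * a), by ring⟩
  simp only [tdev, add_sub_cancel_left] at *
  simp only [Piece.check, Bool.and_eq_true, decide_eq_true_eq] at hc
  obtain ⟨hl, e2, ex, e0⟩ := hc
  have hl' : (0 : ℝ) ≤ P.lam := by exact_mod_cast hl
  have g2 := nonnegOn_sound e2 hu hv
  have gx := nonnegOn_sound ex hu hv
  have g0 := nonnegOn_sound e0 hu hv
  have hG := g11_pos a
  have hmul := mul_nonneg hl' (sub_nonneg.2 hd)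
  simp only [ev_padd, ev_psm, ev_pmul] at g2 g0
  simp only [ev] at g2
  push_cast at g2 g0
  have := quad_nonneg (d := d) (A := ev (coef2 P.m P.lam) a) (B := ev (coef1 P.m P.nu) a)
    (C := ev (coef0 P.m P.lam s) a) (by linarith) (le_of_le_of_eq g0 (by ring))
  rw [resid, sub_le_iff_le_add, ← sub_le_iff_le_add', le_div_iff₀ hG]
  cases hm : P.m
  · simp only [hm, coef2, coef1, coef0, Bool.false_eq_true, if_false, ev_padd, ev_psm, ev_pmul, ev,
      gP, xP, cP, kP, qP] at this
    push_cast at this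
    simp only [g11, g12, g22, xres] at *
    linear_combination this + hn + (1 / 3) * hmul + ((1 / 3 + 10 / 21 * a ^ 2) / 36) * h2
  · simp only [hm, coef2, coef1, coef0, if_true, ev_padd, ev_psm, ev_pmul, ev,
      gP, xP, cP, kP, qP] at this gx
    push_cast at this gx
    have hx : 0 < xres a := by rw [xres]; linarith
    refine le_of_mul_le_mul_left ?_ (mul_pos (by norm_num : (0 : ℝ) < 4) hx)
    simp only [g11, g12, g22, xres] at *
    linear_combination this + hn + (1 / 3) * hmul + ((1 / 3 + 10 / 21 * a ^ 2) / 3) * h1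

/-- Pieces that cover `[u, v]` in order, each checked. -/
def chain (s : Pol) (u v : ℚ) : List Piece → Bool
  | [] => decide (v ≤ u)
  | P :: L => P.check s && (decide (P.u ≤ u) && chain s P.v v L)

theorem chain_sound {s : Pol} {v : ℚ} : ∀ {L : List Piece} {u : ℚ}, chain s u v L = true →
    ∀ {a : ℝ}, (u : ℝ) < a → a ≤ v → ∃ P ∈ L, P.check s = true ∧ (P.u : ℝ) ≤ a ∧ a ≤ P.v
  | [], u, h, a, hu, hv => by
    simp only [chain, decide_eq_true_eq] at h
    have h' : (v : ℝ) ≤ u := by exact_mod_cast h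
    linarith
  | P :: L, u, h, a, hu, hv => by
    simp only [chain, Bool.and_eq_true, decide_eq_true_eq] at h
    rcases le_or_gt a (P.v : ℝ) with e | e
    · have h' : (P.u : ℝ) ≤ u := by exact_mod_cast h.2.1
      exact ⟨P, List.mem_cons_self, h.1, by linarith, e⟩
    · obtain ⟨Q, hQ, r⟩ := chain_sound h.2.2 e hv
      exact ⟨Q, List.mem_cons_of_mem _ hQ, r⟩

/-- The residual of a spectrum below a checked bound. -/
theorem resid_le_of_chain {s : Pol} {u v : ℚ} {L : List Piece} (hc : chain s u v L = true)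
    {l : Fin 5 → ℝ} (h : Spectrum l) (k : Fin 5) (hu : (u : ℝ) < l k) (hv : l k ≤ v)
    (hn : ∀ P ∈ L, 0 ≤ (P.nu : ℝ) * tdev (l k) (cubic l)) :
    resid (l k) (cubic l) (sumFour l k) ≤ ev s (l k) := by
  obtain ⟨P, hP, hk, hu', hv'⟩ := chain_sound hc hu hv
  obtain ⟨_, hd, A, hq, h1, h2⟩ := h.range5 k
  rw [hq]
  exact P.resid_le hk hu' hv' hd (hn P hP) h1 h2

end Vale.Agent.P098.Six
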