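import Mathlib
import Vale.Agent.P098.Six.Sigma

/-!
# P098, five tangential eigenvalues: affine strips for the cubic invariant and the residual on them

On an interval of `a = l k` the cubic invariant lies between two checked polynomials (affine in the
data). On a strip between two such polynomials the residual is bounded by `p(a) + q(a) t`, checked
by the discriminant of a quadratic in `d = tdev a t` with a multiplier for the strip.
-/

namespace Vale.Agent.P098.Six

open Vale.Agent.P098.Div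

/-- The middle of the range of the cubic invariant. -/
def midP : Pol := [0, -3/4, 0, 15/8]

/-- The difference of two polynomials. -/
def psub (p q : Pol) : Pol := padd p (psm (-1) q)

/-- `hi` is above the range on `[u, v]`, and `lo` below. -/
def rangeOK (u v : ℚ) (lo hi : Pol) : Bool :=
  (nonnegOn u v (psub hi midP)
      && nonnegOn u v (psub (psm 3 (pmul (psub hi midP) (psub hi midP))) (pmul xP (pmul xP xP))))
    && (nonnegOn u v (psub midP lo)
      && nonnegOn u v (psub (psm 3 (pmul (psub midP lo) (psub midP lo))) (pmul xP (pmul xP xP))))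

theorem ev_psub (a : ℝ) (p q : Pol) : ev (psub p q) a = ev p a - ev q a := by
  rw [psub, ev_padd, ev_psm]; push_cast; ring

theorem ev_midP (a : ℝ) : ev midP a = 15 / 8 * a ^ 3 - 3 / 4 * a := by
  simp only [midP, ev]; push_cast; ring

theorem ev_xP (a : ℝ) : ev xP a = xres a := by
  simp only [xP, ev, xres]; push_cast; ring

/-- The cubic invariant between the two polynomials. -/
theorem range_sound {u v : ℚ} {lo hi : Pol} (h : rangeOK u v lo hi = true) {a t : ℝ}
    (hu : (u : ℝ) ≤ a) (hv : a ≤ v) (hd : 3 * tdev a t ^ 2 ≤ xres a ^ 3) :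
    ev lo a ≤ t ∧ t ≤ ev hi a := by
  simp only [rangeOK, Bool.and_eq_true] at h
  obtain ⟨⟨h1, h2⟩, h3, h4⟩ := h
  have g1 := nonnegOn_sound h1 hu hv
  have g2 := nonnegOn_sound h2 hu hv
  have g3 := nonnegOn_sound h3 hu hv
  have g4 := nonnegOn_sound h4 hu hv
  simp only [ev_psub, ev_psm, ev_pmul, ev_midP, ev_xP] at g1 g2 g3 g4
  push_cast at g1 g2 g3 g4
  have b1 : tdev a t ^ 2 ≤ (ev hi a - (15 / 8 * a ^ 3 - 3 / 4 * a)) ^ 2 := by linarith
  have b2 : tdev a t ^ 2 ≤ (15 / 8 * a ^ 3 - 3 / 4 * a - ev lo a) ^ 2 := by linarith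
  have k1 := abs_le_of_sq_le_sq' b1 g1
  have k2 := abs_le_of_sq_le_sq' b2 g3
  simp only [tdev] at k1 k2
  exact ⟨by linarith [k2.1], by linarith [k1.2]⟩

/-! ### The residual on a strip -/

/-- A strip `e0 ≤ t ≤ e1` and the bound `p + q t` on it. -/
structure Strip where
  e0 : Pol
  e1 : Pol
  p : Pol
  q : Pol

/-- An interval of `a`: `m` chooses the bound on the fourth moment, `lam` is the multiplier of the
range of `d`, `mu` that of the strip. -/
structure SPiece where
  u : ℚ
  v : ℚ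
  m : Bool
  lam : ℚ
  mu : ℚ

/-- Coefficient of `d ^ 2`. -/
def scoef2 (P : SPiece) : Pol := padd (coef2 P.m P.lam) [P.mu]

/-- Coefficient of `d`. -/
def scoef1 (P : SPiece) (T : Strip) : Pol :=
  padd (coef1 P.m 0)
    (padd (if P.m then psm 4 (pmul xP (pmul gP T.q)) else pmul gP T.q)
      (psm (-P.mu) (padd (psub T.e0 midP) (psub T.e1 midP))))

/-- Coefficient of one. -/
def scoef0 (P : SPiece) (T : Strip) : Pol :=
  padd (coef0 P.m P.lam (padd T.p (pmul T.q midP)))
    (psm P.mu (pmul (psub T.e0 midP) (psub T.e1 midP)))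

/-- The check for one piece. -/
def SPiece.check (P : SPiece) (T : Strip) : Bool :=
  decide (0 ≤ P.lam) && (decide (0 ≤ P.mu) && (nonnegOn P.u P.v (padd (scoef2 P) [-1/1000000])
    && (nonnegOn P.u P.v (padd xP (if P.m then [-1/1000000] else psm (-1) xP))
    && nonnegOn P.u P.v (psub (psm 4 (pmul (scoef2 P) (scoef0 P T)))
        (pmul (scoef1 P T) (scoef1 P T))))))

theorem SPiece.resid_le {P : SPiece} {T : Strip} (hc : P.check T = true) {a t A : ℝ}
    (hu : (P.u : ℝ) ≤ a) (hv : a ≤ P.v) (hd : 3 * tdev a t ^ 2 ≤ xres a ^ 3)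
    (h0 : ev T.e0 a ≤ t) (h0' : t ≤ ev T.e1 a)
    (h1 : 4 * xres a * A ≤ 2 * xres a ^ 3 + tdev a t ^ 2) (h2 : 12 * A ≤ 7 * xres a ^ 2) :
    resid a t (a ^ 4 / 64 + 3 / 8 * a ^ 2 * xres a - a * tdev a t + A)
      ≤ ev T.p a + ev T.q a * t := by
  obtain ⟨d, rfl⟩ : ∃ d, t = 15 / 8 * a ^ 3 - 3 / 4 * a + d := ⟨t - (15 / 8 * a ^ 3 - 3 / 4 * a), by ring⟩
  simp only [tdev, add_sub_cancel_left] at *
  simp only [SPiece.check, Bool.and_eq_true, decide_eq_true_eq] at hc
  obtain ⟨hl, hm', e2, ex, e0⟩ := hc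
  have hl' : (0 : ℝ) ≤ P.lam := by exact_mod_cast hl
  have hmu : (0 : ℝ) ≤ P.mu := by exact_mod_cast hm'
  have g2 := nonnegOn_sound e2 hu hv
  have gx := nonnegOn_sound ex hu hv
  have g0 := nonnegOn_sound e0 hu hv
  have hG := g11_pos a
  have hmul := mul_nonneg hl' (sub_nonneg.2 hd)
  have hstrip := mul_nonneg hmu (mul_nonneg (sub_nonneg.2 h0) (sub_nonneg.2 h0'))
  simp only [ev_psub, ev_psm, ev_pmul] at g0
  simp only [ev_padd, ev] at g2
  push_cast at g2 g0
  have := quad_nonneg (d := d) (A := ev (scoef2 P) a) (B := ev (scoef1 P T) a)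
    (C := ev (scoef0 P T) a) (by linarith) (le_of_le_of_eq g0 (by ring))
  rw [resid, sub_le_iff_le_add, ← sub_le_iff_le_add', le_div_iff₀ hG]
  cases hm : P.m
  · simp only [scoef2, scoef1, scoef0, hm, coef2, coef1, coef0, Bool.false_eq_true, if_false,
      ev_padd, ev_psub, ev_psm, ev_pmul, ev, gP, xP, cP, kP, qP, midP] at this
    push_cast at this
    simp only [g11, g12, g22, xres] at *
    linear_combination this + hstrip + (1 / 3) * hmul + ((1 / 3 + 10 / 21 * a ^ 2) / 36) * h2
  · simp only [scoef2, scoef1, scoef0, hm, coef2, coef1, coef0, if_true, ev_padd, ev_psub, ev_psm,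
      ev_pmul, ev, gP, xP, cP, kP, qP, midP] at this gx
    push_cast at this gx
    have hx : 0 < xres a := by rw [xres]; linarith
    refine le_of_mul_le_mul_left ?_ (mul_pos (by norm_num : (0 : ℝ) < 4) hx)
    simp only [g11, g12, g22, xres] at *
    linear_combination this + hstrip + (1 / 3) * hmul + ((1 / 3 + 10 / 21 * a ^ 2) / 3) * h1

/-- Pieces that cover `[u, v]` in order, each checked. -/
def schain (T : Strip) (u v : ℚ) : List SPiece → Bool
  | [] => decide (v ≤ u)
  | P :: L => P.check T && (decide (P.u ≤ u) && schain T P.v v L)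

theorem schain_sound {T : Strip} {v : ℚ} : ∀ {L : List SPiece} {u : ℚ}, schain T u v L = true →
    ∀ {a : ℝ}, (u : ℝ) < a → a ≤ v →
      ∃ P : SPiece, P.check T = true ∧ (P.u : ℝ) ≤ a ∧ a ≤ P.v
  | [], u, h, a, hu, hv => by
    simp only [schain, decide_eq_true_eq] at h
    have h' : (v : ℝ) ≤ u := by exact_mod_cast h
    linarith
  | P :: L, u, h, a, hu, hv => by
    simp only [schain, Bool.and_eq_true, decide_eq_true_eq] at h
    rcases le_or_gt a (P.v : ℝ) with e | e
    · have h' : (P.u : ℝ) ≤ u := by exact_mod_cast h.2.1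
      exact ⟨P, h.1, by linarith, e⟩
    · exact schain_sound h.2.2 e hv

/-- The cubic invariant of a spectrum between checked polynomials. -/
theorem cubic_range {u v : ℚ} {lo hi : Pol} (hc : rangeOK u v lo hi = true) {l : Fin 5 → ℝ}
    (h : Spectrum l) (k : Fin 5) (hu : (u : ℝ) ≤ l k) (hv : l k ≤ v) :
    ev lo (l k) ≤ cubic l ∧ cubic l ≤ ev hi (l k) :=
  range_sound hc hu hv (h.range5 k).2.1

/-- The residual of a spectrum on a checked strip. -/
theorem resid_le_of_schain {T : Strip} {u v : ℚ} {L : List SPiece} (hc : schain T u v L = true)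
    {l : Fin 5 → ℝ} (h : Spectrum l) (k : Fin 5) (hu : (u : ℝ) < l k) (hv : l k ≤ v)
    (h0 : ev T.e0 (l k) ≤ cubic l) (h1 : cubic l ≤ ev T.e1 (l k)) :
    resid (l k) (cubic l) (sumFour l k) ≤ ev T.p (l k) + ev T.q (l k) * cubic l := by
  obtain ⟨P, hk, hu', hv'⟩ := schain_sound hc hu hv
  obtain ⟨_, hd, A, hq, g1, g2⟩ := h.range5 k
  rw [hq]
  exact P.resid_le hk hu' hv' hd h0 h1 g1 g2

end Vale.Agent.P098.Six
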