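import Mathlib
import Vale.Agent.P098.Six.Strip

/-!
# P098, five tangential eigenvalues: sets of checked strips covering every spectrum
-/

namespace Vale.Agent.P098.Six

open Vale.Agent.P098.Div

/-- An interval of `l k` with the range of the cubic invariant and its strips. -/
structure SSeg where
  u : ℚ
  v : ℚ
  lo : Pol
  hi : Pol
  strips : List (Strip × List SPiece)

/-- The strips are checked and follow one another from the lower polynomial to `hi`. -/
def stripsOK (u v : ℚ) (hi : Pol) : List (Strip × List SPiece) → Pol → Bool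
  | [], p => decide (p = hi)
  | T :: L, p => schain T.1 u v T.2 && (decide (T.1.e0 = p) && stripsOK u v hi L T.1.e1)

theorem stripsOK_sound {u v : ℚ} {hi : Pol} {a t : ℝ} (h1 : t ≤ ev hi a) :
    ∀ {L : List (Strip × List SPiece)} {p : Pol}, stripsOK u v hi L p = true → L ≠ [] → ev p a ≤ t →
      ∃ T ∈ L, schain T.1 u v T.2 = true ∧ ev T.1.e0 a ≤ t ∧ t ≤ ev T.1.e1 a
  | [], _, _, hne, _ => absurd rfl hne
  | T :: L, p, h, _, h0 => by
    simp only [stripsOK, Bool.and_eq_true, decide_eq_true_eq] at h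
    obtain ⟨hc, he, hL⟩ := h
    rcases le_or_gt t (ev T.1.e1 a) with e | e
    · exact ⟨T, List.mem_cons_self, hc, he ▸ h0, e⟩
    · by_cases hne : L = []
      · subst hne
        simp only [stripsOK, decide_eq_true_eq] at hL
        rw [hL] at e
        linarith
      · obtain ⟨U, hU, r⟩ := stripsOK_sound h1 hL hne e.le
        exact ⟨U, List.mem_cons_of_mem _ hU, r⟩

/-- The check of one interval. -/
def SSeg.ok (S : SSeg) : Bool :=
  rangeOK S.u S.v S.lo S.hi && (!S.strips.isEmpty && stripsOK S.u S.v S.hi S.strips S.lo)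

/-- The checks of all intervals, and their covering up to `1789 / 2000`. -/
def setOK : List SSeg → ℚ → Bool
  | [], u => decide (1789/2000 ≤ u)
  | S :: L, u => S.ok && (decide (S.u ≤ u) && setOK L S.v)

theorem setOK_sound : ∀ {L : List SSeg} {u : ℚ}, setOK L u = true → ∀ {a : ℝ}, (u : ℝ) < a →
    a < 1789 / 2000 → ∃ S ∈ L, S.ok = true ∧ (S.u : ℝ) < a ∧ a ≤ S.v
  | [], u, h, a, hu, hv => by
    simp only [setOK, decide_eq_true_eq] at h
    have h2 : ((1789 / 2000 : ℚ) : ℝ) ≤ u := by exact_mod_cast h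
    push_cast at h2
    linarith
  | S :: L, u, h, a, hu, hv => by
    simp only [setOK, Bool.and_eq_true, decide_eq_true_eq] at h
    obtain ⟨hc, h0, hL⟩ := h
    rcases le_or_gt a (S.v : ℝ) with e | e
    · exact ⟨S, List.mem_cons_self, hc, lt_of_le_of_lt (by exact_mod_cast h0) hu, e⟩
    · obtain ⟨T, hT, r⟩ := setOK_sound hL e hv
      exact ⟨T, List.mem_cons_of_mem _ hT, r⟩

/-- Every eigen-direction lies in an interval and a strip, with the residual below its bound. -/
theorem exists_strip {L : List SSeg} (hL : setOK L (-1789/2000) = true) {l : Fin 5 → ℝ}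
    (h : Spectrum l) (k : Fin 5) :
    ∃ S ∈ L, (S.u : ℝ) < l k ∧ l k ≤ S.v ∧ ∃ T ∈ S.strips,
      ev T.1.e0 (l k) ≤ cubic l ∧ cubic l ≤ ev T.1.e1 (l k) ∧
        resid (l k) (cubic l) (sumFour l k) ≤ ev T.1.p (l k) + ev T.1.q (l k) * cubic l := by
  have hx := (h.range5 k).1
  rw [xres] at hx
  have hu : ((-1789 / 2000 : ℚ) : ℝ) < l k := by push_cast; nlinarith
  have hv : l k < 1789 / 2000 := by nlinarith
  obtain ⟨S, hS, hc, a, b⟩ := setOK_sound hL hu hv
  simp only [SSeg.ok, Bool.and_eq_true, Bool.not_eq_true'] at hc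
  obtain ⟨hr, hne, hst⟩ := hc
  obtain ⟨c0, c1⟩ := cubic_range hr h k a.le b
  obtain ⟨T, hT, hsc, t0, t1⟩ := stripsOK_sound c1 hst (fun e => by simp [e] at hne) c0
  exact ⟨S, hS, a, b, T, hT, t0, t1, resid_le_of_schain hsc h k a b t0 t1⟩

end Vale.Agent.P098.Six
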