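import Vale.Agent.P098.Six.Roots
import Vale.Agent.P098.Six.Lin
import Vale.Agent.P098.Six.StripSet

/-!
# P098, six dimensions: what the checked tree of an interval gives

The box of an interval is `w ≤ 3021 / 5000`, `D, ξ` in the unit interval and `l` in the interval.
-/

namespace Vale.Agent.P098.Six

open Vale.Agent.P098.Div

/-- The box of an interval. -/
def SSeg.box (S : SSeg) : Box :=
  ⟨3021, 5000, S.u.num * Int.ofNat S.v.den,
    S.v.num * Int.ofNat S.u.den - S.u.num * Int.ofNat S.v.den, S.u.den * S.v.den⟩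

/-- The line of a polynomial with two coefficients. -/
def lineOf : Pol → TL
  | [c, d] => ⟨c.num * Int.ofNat d.den, d.num * Int.ofNat c.den, c.den * d.den⟩
  | _ => ⟨0, 0, 0⟩

/-- The roots of an interval. -/
def SSeg.roots (S : SSeg) (C : Coef8) : List Ent := Six.roots C (lineOf S.lo) (lineOf S.hi)

/-- The end number `q` of four. -/
def endP (lo hi : Pol) (q : ℕ) : Pol :=
  padd (psm ((3 - (q : ℚ)) / 3) lo) (psm ((q : ℚ) / 3) hi)

/-- The constants of one end bound the affine bound of the residual there. -/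
def sigOK (K : ℕ) (u v : ℚ) (T : Strip) (e : Pol) (s : ℕ × ℕ) : Bool :=
  let g := padd T.p (pmul T.q e)
  decide (g.length ≤ 2) && (decide ((K : ℚ) * evQ g u ≤ (s.1 : ℚ)) &&
    (decide ((K : ℚ) * evQ g v ≤ (s.2 : ℚ)) && (Nat.blt 0 s.1 && Nat.blt 0 s.2)))

/-- The constants of one strip. -/
def stripK (C : SegC) (S : SSeg) (T : Strip) (q : ℕ) (s t : ℕ × ℕ) : Bool :=
  decide (T.e0 = endP S.lo S.hi q) && (decide (T.e1 = endP S.lo S.hi (q + 1)) &&
    (sigOK C.K S.u S.v T T.e0 s && sigOK C.K S.u S.v T T.e1 t))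

/-- The constants of an interval. -/
def segOK (C : SegC) (S : SSeg) : Bool :=
  decide (S.u < S.v) && ((lineOf S.lo).den != 0 && ((lineOf S.hi).den != 0 && (Nat.blt 0 C.K &&
    match S.strips with
    | [A, B, D] => stripK C S A.1 0 C.S0 C.S1 && (stripK C S B.1 1 C.S2 C.S3 &&
        stripK C S D.1 2 C.S4 C.S5)
    | _ => false)))

/-- The layout of a run fits the bound. -/
def layOK (L : Lay) (M : ℕ) : Bool :=
  Nat.blt L.n₀ L.B && (Nat.blt L.n₁ L.B && (Nat.blt L.n₂ L.B && (Nat.blt L.n₃ L.B &&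
    Nat.blt M (2 ^ (L.B - 1)))))

noncomputable section

/-- The interior inequality on an interval of the eigenvalue. -/
def SegQuad (C : Coef8) (S : SSeg) : Prop :=
  ∀ l : Fin 5 → ℝ, Spectrum l → ∀ w D, InDom phiSix w D → ∀ ξ, InX w D ξ →
    ∀ (k : Fin 5) (x : Fin 5 → ℝ) (π : ℝ), ∑ i, x i = 0 → (S.u : ℝ) < l k → l k ≤ S.v →
      ∀ T ∈ S.strips, ev T.1.e0 (l k) ≤ cubic l → cubic l ≤ ev T.1.e1 (l k) →
        resid (l k) (cubic l) (sumFour l k) ≤ ev T.1.p (l k) + ev T.1.q (l k) * cubic l →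
          0 ≤ ((1 - ξ) * (1 - D) - ξ * w ^ 2) * quadX C.fields l w D ξ k x π
            + ((1 - ξ) * constX C.fields l w D ξ + ξ * endX C.gam C.fields l w D ξ) * π ^ 2

/-- What the run of an interval gives at the points of its box. -/
def SegGood (C : Coef8) (K : SegC) (S : SSeg) : Prop :=
  ∀ u : Fin 4 → ℝ, (∀ a, 0 ≤ u a ∧ u a ≤ 1) →
    GoodX K ((S.roots C).map fun e => e.fn K.K S.box u) (u 3)

theorem box_ok (S : SSeg) : S.box.e ≠ 0 ∧ S.box.d ≠ 0 :=
  ⟨by simp [SSeg.box], Nat.mul_ne_zero S.u.den_nz S.v.den_nz⟩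

/-- A checked tree over packed polynomials that represent the roots. -/
theorem segGood_of_reps {C : Coef8} {K : SegC} {S : SSeg} {L : Lay} {M : ℕ} {Ps : List ℤ}
    (hK : 0 < K.K) (hL : layOK L M = true)
    (hreps : Reps L M 1 Ps ((S.roots C).map fun e => e.fn K.K S.box))
    (hT : ∃ T, run (L.con M 1) (chkL K) T 0 0 0 Ps = true) : SegGood C K S := by
  simp only [layOK, Bool.and_eq_true, Nat.blt_eq] at hL
  obtain ⟨d0, d1, d2, d3, hM⟩ := hL
  obtain ⟨T, hT⟩ := hT
  have hB : 0 < L.B := by omega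
  have hdeg : ∀ a, L.deg a < L.B := fun a => by fin_cases a <;> simpa [Lay.deg]
  intro u hu
  have := run_sound hB hdeg (Good := GoodX K)
    (fun test i d x h v r ht h0 h1 => chkL_sound hK test i d x h v r ht h0 h1)
    T 0 0 0 Ps _ hT hreps u hu
  simpa [List.map_map, Function.comp_def] using this

theorem ev_lineOf {p : Pol} (h : (lineOf p).den ≠ 0) (a : ℝ) : (lineOf p).t a = ev p a := by
  match p, h with
  | [c, d], _ =>
    have hc : (c.den : ℝ) ≠ 0 := Nat.cast_ne_zero.2 c.den_nz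
    have hd : (d.den : ℝ) ≠ 0 := Nat.cast_ne_zero.2 d.den_nz
    simp only [TL.t, lineOf, ev, Int.ofNat_eq_natCast, Rat.cast_def c, Rat.cast_def d]
    push_cast
    field_simp
    ring
  | [], h => simp [lineOf] at h
  | [_], h => simp [lineOf] at h
  | _ :: _ :: _ :: _, h => simp [lineOf] at h

theorem ev_endP (lo hi : Pol) (q : ℕ) (a : ℝ) :
    ev (endP lo hi q) a = mix q (ev lo a, ev hi a) := by
  simp only [endP, ev_padd, ev_psm, mix]; push_cast; ring

/-- The position in an interval. -/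
theorem exists_between {a b t : ℝ} (h₀ : a ≤ t) (h₁ : t ≤ b) :
    ∃ th : ℝ, 0 ≤ th ∧ th ≤ 1 ∧ t = (1 - th) * a + th * b := by
  rcases eq_or_lt_of_le (h₀.trans h₁) with e | e
  · exact ⟨0, le_rfl, zero_le_one, by linarith⟩
  · have hd : 0 < b - a := sub_pos.2 e
    exact ⟨(t - a) / (b - a), div_nonneg (by linarith) hd.le, (div_le_one hd).2 (by linarith),
      by field_simp; ring⟩

/-- A polynomial with two coefficients is affine. -/
theorem ev_affine : ∀ {g : Pol}, g.length ≤ 2 → ∀ r a b : ℝ,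
    ev g ((1 - r) * a + r * b) = (1 - r) * ev g a + r * ev g b
  | [], _, r, a, b => by simp [ev]
  | [c], _, r, a, b => by simp only [ev]; ring
  | [c, d], _, r, a, b => by simp only [ev]; ring
  | _ :: _ :: _ :: _, h, _, _, _ => by simp at h

theorem sigOK_sound {C : SegC} {u v : ℚ} {T : Strip} {e : Pol} {s : ℕ × ℕ} (hK : 0 < C.K)
    (h : sigOK C.K u v T e s = true) {r : ℝ} (h0 : 0 ≤ r) (h1 : r ≤ 1) :
    ev T.p ((1 - r) * u + r * v) + ev T.q ((1 - r) * u + r * v) * ev e ((1 - r) * u + r * v)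
        ≤ sigAt C s r ∧ 0 < sigAt C s r := by
  simp only [sigOK, Bool.and_eq_true, decide_eq_true_eq, Nat.blt_eq] at h
  obtain ⟨hg, hu, hv, p0, p1⟩ := h
  have hK' : (0 : ℝ) < C.K := by exact_mod_cast hK
  have hu' : (C.K : ℝ) * ev (padd T.p (pmul T.q e)) u ≤ s.1 := by
    rw [ev_cast]; exact_mod_cast hu
  have hv' : (C.K : ℝ) * ev (padd T.p (pmul T.q e)) v ≤ s.2 := by
    rw [ev_cast]; exact_mod_cast hv
  have k0 := mul_le_mul_of_nonneg_left hu' (sub_nonneg.2 h1)
  have k1 := mul_le_mul_of_nonneg_left hv' h0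
  have e' := ev_affine hg r u v
  constructor
  · rw [sigAt, le_div_iff₀ hK', ← ev_pmul, ← ev_padd, e']
    linarith
  · refine div_pos ?_ hK'
    rcases eq_or_lt_of_le h1 with e1 | e1
    · subst e1; simpa using (show (0 : ℝ) < s.2 by exact_mod_cast p1)
    · exact add_pos_of_pos_of_nonneg (mul_pos (by linarith) (by exact_mod_cast p0))
        (mul_nonneg h0 (Nat.cast_nonneg _))

/-- The width of the box in `w`. -/
theorem w_le {w D : ℝ} (h : InDom phiSix w D) : w ≤ 3021 / 5000 := by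
  obtain ⟨hw, hD, hD1, h2⟩ := h
  rw [phiSix] at h2
  have : w ^ 2 ≤ (3021 / 5000 : ℝ) ^ 2 := by nlinarith [sq_nonneg (D - 1)]
  exact (abs_le_of_sq_le_sq' this (by norm_num)).2

end

end Vale.Agent.P098.Six
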