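import Vale.Agent.P098.Six.Axis

/-!
# P098, six dimensions: the blocks of a packed array moved to wider blocks

A packed array with `B` bits per block is rewritten with `B2` bits per block. The recursion follows
the extents of the array, so that only a few shifts of large numbers are needed on every level.
-/

namespace Vale.Agent.P098.Six

open Finset

/-- The chunks of `W` bits of a list, one above the other. -/
def joinN (W : ℕ) : List ℕ → ℕ
  | [] => 0
  | a :: p => a + joinN W p <<< W

/-- The chunk `i` of `W` bits. -/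
def chunkN (W Q i : ℕ) : ℕ := (Q >>> (i * W)) % 2 ^ W

/-- Blocks of `B` bits of an array with extents `ms`, moved to blocks of `B2` bits. -/
def spreadQ (B B2 : ℕ) : List ℕ → ℕ → ℕ
  | [], Q => Q
  | m :: ms, Q => joinN (B2 * ms.prod)
      ((List.range m).map fun i => spreadQ B B2 ms (chunkN (B * ms.prod) Q i))

theorem packN_append (B a b : ℕ) (d : ℕ → ℕ) :
    packN B (a + b) d = packN B a d + 2 ^ (B * a) * packN B b fun j => d (a + j) := by
  rw [packN, packN, packN, sum_range_add, mul_sum]
  refine congrArg _ (sum_congr rfl fun j _ => ?_)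
  rw [Nat.mul_add, pow_add]; ring

theorem packN_lt_pow {B : ℕ} : ∀ (J : ℕ) (d : ℕ → ℕ), (∀ j < J, d j < 2 ^ B) →
    packN B J d < 2 ^ (B * J)
  | 0, _, _ => by simp [packN]
  | J + 1, d, hd => by
    have h0 := hd 0 (by omega)
    have ih : packN B J (fun j => d (j + 1)) + 1 ≤ 2 ^ (B * J) :=
      packN_lt_pow J (fun j => d (j + 1)) fun j hj => hd _ (by omega)
    have h1 := Nat.mul_le_mul_left (2 ^ B) ih
    rw [packN_succ, Nat.mul_add B J 1, Nat.mul_one, Nat.add_comm (B * J), pow_add]
    linarith

theorem chunkN_packN {B J : ℕ} : ∀ (i m : ℕ) (d : ℕ → ℕ), i < m → (∀ j < m * J, d j < 2 ^ B) →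
    chunkN (B * J) (packN B (m * J) d) i = packN B J fun r => d (i * J + r)
  | i, 0, _, hi, _ => absurd hi (Nat.not_lt_zero i)
  | 0, m + 1, d, _, hd => by
    have h : packN B J d < 2 ^ (B * J) :=
      packN_lt_pow J d fun j hj => hd j (by rw [Nat.succ_mul]; omega)
    rw [show (m + 1) * J = J + m * J by ring, packN_append]
    simp [chunkN, Nat.mod_eq_of_lt h]
  | i + 1, m + 1, d, hi, hd => by
    have h : packN B J d < 2 ^ (B * J) :=
      packN_lt_pow J d fun j hj => hd j (by rw [Nat.succ_mul]; omega)
    have ih := chunkN_packN (B := B) (J := J) i m (fun j => d (J + j)) (by omega)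
      fun j hj => hd _ (by rw [Nat.succ_mul]; omega)
    rw [chunkN] at ih
    rw [show (m + 1) * J = J + m * J by ring, packN_append, chunkN,
      show (i + 1) * (B * J) = B * J + i * (B * J) by ring, Nat.shiftRight_add,
      Nat.shiftRight_eq_div_pow (_ + _), Nat.add_mul_div_left _ _ (Nat.two_pow_pos _),
      Nat.div_eq_of_lt h, Nat.zero_add, ih]
    exact packN_congr fun r _ => congrArg d (by ring)

theorem joinN_packN (B J : ℕ) : ∀ (m : ℕ) (d : ℕ → ℕ),
    joinN (B * J) ((List.range m).map fun i => packN B J fun r => d (i * J + r)) =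
      packN B (m * J) d
  | 0, d => by simp [joinN, packN]
  | m + 1, d => by
    have e : ((List.range m).map fun i => packN B J fun r => d ((i + 1) * J + r)) =
        (List.range m).map fun i => packN B J fun r => d (J + (i * J + r)) :=
      List.map_congr_left fun i _ => packN_congr fun r _ => congrArg d (by ring)
    rw [List.range_succ_eq_map, List.map_cons, List.map_map, joinN, Nat.shiftLeft_eq,
      show (m + 1) * J = J + m * J by ring, packN_append, ← joinN_packN B J m fun j => d (J + j),
      ← e]
    simp [Function.comp_def, Nat.mul_comm]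

/-- Spreading keeps the entries. -/
theorem spreadQ_packN (B B2 : ℕ) : ∀ (ms : List ℕ) (d : ℕ → ℕ), (∀ j < ms.prod, d j < 2 ^ B) →
    spreadQ B B2 ms (packN B ms.prod d) = packN B2 ms.prod d
  | [], d, _ => by simp [spreadQ, packN]
  | m :: ms, d, hd => by
    rw [List.prod_cons] at hd ⊢
    rw [spreadQ, ← joinN_packN B2 ms.prod m d]
    refine congrArg _ (List.map_congr_left fun i hi => ?_)
    have hi' := List.mem_range.1 hi
    rw [chunkN_packN i m d hi' hd]
    refine spreadQ_packN B B2 ms _ fun j hj => hd _ ?_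
    calc i * ms.prod + j < i * ms.prod + ms.prod := by omega
      _ = (i + 1) * ms.prod := by ring
      _ ≤ m * ms.prod := Nat.mul_le_mul_right _ hi'

/-- The digit `j` in base `2 ^ B`. -/
def blockN (B Q j : ℕ) : ℕ := chunkN B Q j

theorem blockN_lt (B Q j : ℕ) : blockN B Q j < 2 ^ B := Nat.mod_lt _ (Nat.two_pow_pos _)

theorem packN_blockN (B : ℕ) : ∀ (J Q : ℕ), Q < 2 ^ (B * J) → packN B J (blockN B Q) = Q
  | 0, Q, h => by simp [packN] at h ⊢; omega
  | J + 1, Q, h => by
    have ih := packN_blockN B J (Q >>> B) (by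
      rw [Nat.shiftRight_eq_div_pow, Nat.div_lt_iff_lt_mul (Nat.two_pow_pos _), ← pow_add]
      rwa [Nat.mul_add, Nat.mul_one] at h)
    have e : (fun j => blockN B Q (j + 1)) = blockN B (Q >>> B) := funext fun j => by
      simp only [blockN, chunkN]
      rw [show (j + 1) * B = B + j * B by ring, Nat.shiftRight_add]
    rw [packN_succ, e, ih, Nat.shiftRight_eq_div_pow]
    simp [blockN, chunkN, Nat.mod_add_div]

/-- Every natural number below the bound is a packed array. -/
theorem spreadQ_of_lt {B J Q : ℕ} (h : Q < 2 ^ (B * J)) :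
    ∃ d : ℕ → ℕ, (∀ j < J, d j < 2 ^ B) ∧ Q = packN B J d :=
  ⟨blockN B Q, fun j _ => blockN_lt B Q j, (packN_blockN B J Q h).symm⟩

end Vale.Agent.P098.Six
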