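import Vale.Agent.P098.Six.Mon
import Vale.Agent.P098.Six.Spread
import Vale.Agent.P098.Six.Seg
import Vale.Agent.P098.Six.Fast

/-!
# P098, six dimensions: a fast check of the root polynomials

The integer coefficients of an entry are packed in wide blocks and changed to Bernstein
coefficients of the box axis by axis. The given packed number is accepted when its digits, moved to
wide blocks, are the scaled coefficients rounded down.
-/

namespace Vale.Agent.P098.Six

open Finset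
open Vale.Agent.P098.Five (Mdl)

/-- The exact coefficients of an entry on a box, times a common factor. -/
def boxT (L : Lay) (X : Box) (V : ℤ) : ℤ :=
  L.axT 3 X.A X.H X.d (L.axT 2 0 1 1 (L.axT 1 0 1 1 (L.axT 0 0 X.h X.e V)))

/-- The bounds after one, two, three and four axes. -/
def boxB (L : Lay) (X : Box) (M : ℕ) : ℕ × ℕ × ℕ × ℕ :=
  let m₀ := boundT L.n₀ 0 X.h X.e M
  let m₁ := boundT L.n₁ 0 1 1 m₀
  let m₂ := boundT L.n₂ 0 1 1 m₁
  (m₀, m₁, m₂, boundT L.n₃ X.A X.H X.d m₂)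

/-- The extents. -/
def Lay.ext (L : Lay) : List ℕ := [L.n₀ + 1, L.n₁ + 1, L.n₂ + 1, L.n₃ + 1]

/-- The packed number `Q` gives the entry `e`; `B2` bits a block and `Mv` bound the coefficients. -/
def rootF (L : Lay) (M K : ℕ) (X : Box) (B2 Mv : ℕ) (e : Ent) (Q : ℕ) : Bool :=
  let W : Lay := ⟨B2, L.n₀, L.n₁, L.n₂, L.n₃⟩
  let m := boxB W X Mv
  let D : ℕ := facT L * (X.fac L.n₀ L.n₃ * e.den)
  let cap := 2 ^ (B2 - 1)
  let H := biasC B2 W.size
  let one : ℤ := Int.ofNat (rep B2 1 W.size)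
  (e.den != 0) && ((Nat.blt 0 L.B && (Nat.blt 0 B2 && (Nat.blt Mv cap && (Nat.blt m.1 cap &&
    (Nat.blt m.2.1 cap && (Nat.blt m.2.2.1 cap && (Nat.blt m.2.2.2 cap &&
    (Nat.blt (K * m.2.2.2 + D * 2 ^ (L.B - 1) + D) cap && (Nat.blt (M + 2 ^ (L.B - 1)) cap &&
      Nat.blt Q (2 ^ (L.B * L.size))))))))))) &&
  match monP W Mv e.p with
  | none => false
  | some V =>
    let P2 : ℤ := Int.subNatNat (spreadQ L.B B2 L.ext Q) (2 ^ (L.B - 1) * rep B2 1 W.size)
    let R : ℤ := Int.ofNat K * boxT W X V + Int.negOfNat D * P2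
    nonnegP H R && (nonnegP H (Int.ofNat (D - 1) * one + (-1) * R) &&
      (nonnegP H (Int.ofNat M * one + P2) && nonnegP H (Int.ofNat M * one + (-1) * P2))))

/-- All polynomials give their packed numbers. -/
def rootsF (L : Lay) (M K : ℕ) (X : Box) (B2 Mv : ℕ) : List Ent → List ℕ → Bool
  | [], [] => true
  | e :: es, Q :: Qs => rootF L M K X B2 Mv e Q && rootsF L M K X B2 Mv es Qs
  | _, _ => false

noncomputable section

theorem packs_ones {B : ℕ} (hB : 0 < B) (J : ℕ) :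
    Packs B J 1 (Int.ofNat (rep B 1 J)) fun _ => 1 := by
  refine ⟨?_, fun j _ => by simp⟩
  rw [packN_rep hB, Int.ofNat_eq_natCast, ← pack_cast]
  simp

theorem boxT_sound {L : Lay} {X : Box} {V : ℤ} {M : ℕ} {c : ℕ → ℤ}
    (h : Packs L.B L.size M V c) (hB : 0 < L.B) (he : X.e ≠ 0) (hd : X.d ≠ 0)
    (h0 : M < 2 ^ (L.B - 1)) (h1 : (boxB L X M).1 < 2 ^ (L.B - 1))
    (h2 : (boxB L X M).2.1 < 2 ^ (L.B - 1)) (h3 : (boxB L X M).2.2.1 < 2 ^ (L.B - 1)) :
    ∃ g, Packs L.B L.size (boxB L X M).2.2.2 (boxT L X V) g ∧ ∀ u : Fin 4 → ℝ,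
      value L.size (L.W u) g =
        (facT L : ℝ) * X.fac L.n₀ L.n₃ * value L.size (L.Wg (powW (X.pt u))) c := by
  obtain ⟨c0, p0, v0⟩ := Lay.axT_sound (a := 0) h hB h0 0 X.h he
  obtain ⟨c1, p1, v1⟩ := Lay.axT_sound (a := 1) p0 hB h1 0 1 (d := 1) one_ne_zero
  obtain ⟨c2, p2, v2⟩ := Lay.axT_sound (a := 2) p1 hB h2 0 1 (d := 1) one_ne_zero
  obtain ⟨g, p3, v3⟩ := Lay.axT_sound (a := 3) p2 hB h3 X.A X.H hd
  refine ⟨g, p3, fun u => ?_⟩
  set x := X.pt u with hx
  set f0 : Fin 4 → ℕ → ℝ := powW x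
  set w := fun (a : Fin 4) => wB (L.deg a) (u a) (1 - u a)
  set f1 := Function.update f0 0 (w 0)
  set f2 := Function.update f1 1 (w 1)
  set f3 := Function.update f2 2 (w 2)
  have e4 : Function.update f3 3 (w 3) = w := by
    funext a i; fin_cases a <;> simp [f3, f2, f1, Function.update]
  have q3 : Function.update f3 3 (fun i => ((X.A + X.H * u 3) / X.d : ℝ) ^ i) = f3 := by
    funext a i; fin_cases a <;>
      simp [f3, f2, f1, f0, Function.update, powW, hx, Box.pt]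
  have q2 : Function.update f2 2 (fun i => ((((0 : ℤ) : ℝ) + ((1 : ℤ) : ℝ) * u 2) / ((1 : ℕ) : ℝ)) ^ i) =
      f2 := by
    funext a i; fin_cases a <;> simp [f2, f1, f0, Function.update, powW, hx, Box.pt]
  have q1 : Function.update f1 1 (fun i => ((((0 : ℤ) : ℝ) + ((1 : ℤ) : ℝ) * u 1) / ((1 : ℕ) : ℝ)) ^ i) =
      f1 := by
    funext a i; fin_cases a <;> simp [f1, f0, Function.update, powW, hx, Box.pt]
  have q0 : Function.update f0 0 (fun i => ((((0 : ℤ) : ℝ) + X.h * u 0) / X.e : ℝ) ^ i) = f0 := by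
    funext a i; fin_cases a <;> simp [f0, Function.update, powW, hx, Box.pt]
  have a3 := v3 f3 (u 3)
  have a2 := v2 f2 (u 2)
  have a1 := v1 f1 (u 1)
  have a0 := v0 f0 (u 0)
  rw [q3, e4] at a3
  rw [q2] at a2
  rw [q1] at a1
  rw [q0] at a0
  have eW : L.W u = L.Wg w := rfl
  rw [eW, a3, a2, a1, a0]
  simp only [facT, Box.fac, Lay.deg, Matrix.cons_val_zero, Matrix.cons_val_one, Matrix.cons_val]
  push_cast
  ring

theorem rootF_rep {L : Lay} {M K : ℕ} {X : Box} (he : X.e ≠ 0) (hd : X.d ≠ 0) {B2 Mv : ℕ}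
    {e : Ent} {Q : ℕ} (h : rootF L M K X B2 Mv e Q = true) :
    Rep L M 1 (Int.subNatNat Q (biasC L.B L.size)) (e.fn K X) := by
  simp only [rootF, Bool.and_eq_true, bne_iff_ne, ne_eq, Nat.blt_eq] at h
  obtain ⟨hden, ⟨hB, hB2, c0, c1, c2, c3, c4, c5, c6, hQ⟩, hm⟩ := h
  split at hm
  · simp at hm
  rename_i V hV
  simp only [Bool.and_eq_true] at hm
  obtain ⟨r0, r1, r2, r3⟩ := hm
  set W : Lay := ⟨B2, L.n₀, L.n₁, L.n₂, L.n₃⟩ with hW
  have hsize : W.size = L.size := rfl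
  obtain ⟨cv, pv, vv⟩ := monP_rep (L := W) hB2 c0 hV
  obtain ⟨g, pg, vg⟩ := boxT_sound pv hB2 he hd c0 c1 c2 c3
  obtain ⟨d, hdig, rfl⟩ := spreadQ_of_lt hQ
  set J := L.size
  set c : ℕ → ℤ := fun j => (d j : ℤ) - 2 ^ (L.B - 1)
  have h2B : (2 : ℕ) ^ L.B = 2 * 2 ^ (L.B - 1) := two_pow_B hB
  have hc : ∀ j < J, |c j| ≤ ((2 ^ (L.B - 1) : ℕ) : ℤ) := fun j hj => by
    have := hdig j hj
    rw [h2B] at this
    have h' : (d j : ℤ) < ((2 * 2 ^ (L.B - 1) : ℕ) : ℤ) := by exact_mod_cast this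
    push_cast at h' ⊢
    simp only [c, abs_le]; constructor <;> linarith [(Nat.cast_nonneg (α := ℤ) (d j))]
  have hP : ∀ B', 0 < B' → Int.subNatNat (packN B' J d) (2 ^ (L.B - 1) * rep B' 1 J) = pack B' J c := by
    intro B' hB'
    rw [Int.subNatNat_eq_coe, packN_rep hB', ← pack_cast, Nat.cast_mul, ← pack_cast, ← pack_smul,
      sub_eq_iff_eq_add, ← pack_add]
    exact pack_congr fun j _ => by simp [c]
  have hspread : spreadQ L.B B2 L.ext (packN L.B J d) = packN B2 J d := by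
    have hp : L.ext.prod = J := by simp [Lay.ext, J, Lay.size]; ring
    have := spreadQ_packN L.B B2 L.ext d (by rw [hp]; exact hdig)
    rwa [hp] at this
  rw [hspread, hsize, hP B2 hB2] at r0 r1 r2 r3
  set D := facT L * (X.fac L.n₀ L.n₃ * e.den)
  have hD : 0 < D := Nat.mul_pos (facT_pos L) (Nat.mul_pos
    (Nat.pos_of_ne_zero (Nat.mul_ne_zero (pow_ne_zero _ he) (pow_ne_zero _ hd)))
    (Nat.pos_of_ne_zero hden))
  have pc : Packs B2 J (2 ^ (L.B - 1)) (pack B2 J c) c := ⟨rfl, hc⟩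
  have pR := (pg.smul (Int.ofNat K)).add (pc.smul (Int.negOfNat D))
  have hKn : (Int.ofNat K).natAbs = K := rfl
  simp only [Int.natAbs_negOfNat, hKn] at pR
  have p1 := ((packs_ones hB2 J).smul (Int.ofNat (D - 1))).add (pR.smul (-1))
  have p2 := ((packs_ones hB2 J).smul (Int.ofNat M)).add pc
  have p3 := ((packs_ones hB2 J).smul (Int.ofNat M)).add (pc.smul (-1))
  have hWB : W.B = B2 := rfl
  have n0 := nonnegP_sound pR hB2 (by simp only [hWB, J, D] at *; omega) r0
  have n1 := nonnegP_sound p1 hB2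
    (by simp only [Int.ofNat_eq_natCast, Int.natAbs_natCast, Int.reduceNeg, Int.natAbs_neg,
      Int.natAbs_one, mul_one, one_mul]; omega) r1
  have n2 := nonnegP_sound p2 hB2
    (by simp only [Int.ofNat_eq_natCast, Int.natAbs_natCast, mul_one]; omega) r2
  have n3 := nonnegP_sound p3 hB2
    (by simp only [Int.ofNat_eq_natCast, Int.natAbs_natCast, Int.reduceNeg, Int.natAbs_neg,
      Int.natAbs_one, mul_one, one_mul]; omega) r3
  refine ⟨c, ⟨?_, fun j hj => ?_⟩, fun u hu => ?_⟩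
  · rw [biasC]; exact hP L.B hB
  · have a := n2 j hj
    have b := n3 j hj
    simp only [Pi.add_apply, Pi.smul_apply, smul_eq_mul, Int.ofNat_eq_natCast, mul_one] at a b
    rw [abs_le]; constructor <;> linarith
  have hWu : W.W u = L.W u := rfl
  have eg : value J (L.W u) g =
      (facT L : ℝ) * X.fac L.n₀ L.n₃ * ev4 (X.pt u) e.p := by
    have := vg u
    rw [vv (X.pt u), hWu, hsize] at this
    exact this
  have hbd : ∀ j < J, (0 : ℝ) ≤ (K : ℝ) * g j - D * c j ∧ (K : ℝ) * g j - D * c j ≤ D := fun j hj => by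
    have a := n0 j hj
    have b := n1 j hj
    simp only [Pi.add_apply, Pi.smul_apply, smul_eq_mul, Int.ofNat_eq_natCast, Int.negOfNat_eq,
      mul_one] at a b
    have hD1 : ((D - 1 : ℕ) : ℤ) = (D : ℤ) - 1 := by omega
    have a' : (D : ℤ) * c j ≤ (K : ℤ) * g j := by linarith
    have b' : (K : ℤ) * g j ≤ (D : ℤ) * c j + D := by linarith
    constructor <;> [have := (Int.cast_le (R := ℝ)).2 a'; have := (Int.cast_le (R := ℝ)).2 b'] <;>
      push_cast at this <;> linarith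
  have hs := L.sum_W u
  have hD' : (0 : ℝ) < D := by exact_mod_cast hD
  have hden' : (e.den : ℝ) ≠ 0 := Nat.cast_ne_zero.2 hden
  have ef : e.fn K X u = (K : ℝ) / D * value J (L.W u) g := by
    rw [eg, Ent.fn]
    have h2 : (X.fac L.n₀ L.n₃ : ℝ) ≠ 0 :=
      Nat.cast_ne_zero.2 (Nat.mul_ne_zero (pow_ne_zero _ he) (pow_ne_zero _ hd))
    have h3 : (facT L : ℝ) ≠ 0 := Nat.cast_ne_zero.2 (facT_pos L).ne'
    simp only [D]; push_cast; field_simp
  rw [ef, value, value, mul_sum, ← sum_sub_distrib]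
  refine (abs_sum_le_sum_abs _ _).trans ?_
  calc ∑ j ∈ range J, |L.W u j * (c j : ℝ) - (K : ℝ) / D * (L.W u j * (g j : ℝ))|
      ≤ ∑ j ∈ range J, L.W u j * 1 := by
        refine sum_le_sum fun j hj => ?_
        obtain ⟨a, b⟩ := hbd j (mem_range.1 hj)
        rw [show (L.W u j * (c j : ℝ) - (K : ℝ) / D * (L.W u j * (g j : ℝ))) =
          L.W u j * (-((K : ℝ) * g j - D * c j) / D) by field_simp; ring, abs_mul,
          abs_of_nonneg (L.W_nonneg hu j)]
        refine mul_le_mul_of_nonneg_left ?_ (L.W_nonneg hu j)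
        rw [abs_div, abs_neg, abs_of_nonneg a, abs_of_pos hD', div_le_one hD']
        exact b
    _ = ((1 : ℕ) : ℝ) := by rw [← sum_mul]; simp [J, hs]

theorem rootsF_reps {L : Lay} {M K : ℕ} {X : Box} (he : X.e ≠ 0) (hd : X.d ≠ 0) {B2 Mv : ℕ} :
    ∀ {es : List Ent} {Qs : List ℕ}, rootsF L M K X B2 Mv es Qs = true →
      Reps L M 1 (unbias (biasC L.B L.size) Qs) (es.map fun e => e.fn K X)
  | [], [], _ => .nil
  | [], _ :: _, h => by simp [rootsF] at h
  | _ :: _, [], h => by simp [rootsF] at h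
  | e :: es, Q :: Qs, h => by
    simp only [rootsF, Bool.and_eq_true] at h
    exact .cons (rootF_rep he hd h.1) (rootsF_reps he hd h.2)

theorem rootsF_of {L : Lay} {M K : ℕ} {X : Box} {B2 Mv : ℕ} (n : ℕ) :
    ∀ {es : List Ent} {Qs : List ℕ}, es.length = n → Qs.length = n →
      (∀ i < n, rootF L M K X B2 Mv (es.getD i ⟨[], 0⟩) (Qs.getD i 0) = true) →
        rootsF L M K X B2 Mv es Qs = true := by
  induction n with
  | zero =>
    intro es Qs h h' _
    simp only [List.length_eq_zero_iff] at h h'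
    subst h h'; rfl
  | succ n ih =>
    intro es Qs h h' g
    match es, Qs, h, h' with
    | e :: es, Q :: Qs, h, h' =>
      simp only [rootsF, Bool.and_eq_true]
      exact ⟨by simpa using g 0 (by omega),
        ih (by simpa using h) (by simpa using h') fun i hi => by simpa using g (i + 1) (by omega)⟩

/-- A checked tree over roots checked in this way. -/
theorem segGood_of_runF {C : Coef8} {K : SegC} {S : SSeg} {L : Lay} {M B2 Mv : ℕ} {Qs : List ℕ}
    (hK : 0 < K.K) (hL : layOK L M = true)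
    (hR : rootsF L M K.K S.box B2 Mv (S.roots C) Qs = true)
    (hT : ∃ T, run (L.con M 1) (chkL K) T 0 0 0 (unbias (biasC L.B L.size) Qs) = true) :
    SegGood C K S :=
  segGood_of_reps hK hL (rootsF_reps (box_ok S).1 (box_ok S).2 hR) hT

end

end Vale.Agent.P098.Six
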