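import Vale.Agent.P098.Six.Root
import Vale.Agent.P098.Five.Box

/-!
# P098, six dimensions: polynomials on the box of an interval of the eigenvalue

The first variable is `h w₀ / e` and the last is `(A + H t) / d`, with `w₀` and `t` in the unit
interval; the middle two are left as they are.
-/

namespace Vale.Agent.P098.Six

open Vale.Agent.P098.Five (Mdl IsLin monE affine pad monE_affine monE_pad monE_congr monE_map)

/-- A box: `w = h w₀ / e` and `l = (A + H t) / d`. -/
structure Box where
  h : ℤ
  e : ℕ
  A : ℤ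
  H : ℤ
  d : ℕ

/-- The point of a box. -/
noncomputable def Box.pt (X : Box) (u : Fin 4 → ℝ) : Fin 4 → ℝ :=
  ![X.h * u 0 / X.e, u 1, u 2, (X.A + X.H * u 3) / X.d]

/-- The factor of the substitution. -/
def Box.fac (X : Box) (n₀ n₃ : ℕ) : ℕ := X.e ^ n₀ * X.d ^ n₃

section
variable {α : Type} [Mdl α] {f : α → ℝ}

/-- An affine substitution in exactly `n + 1` coefficients. -/
theorem monE_affine_pad (hf : IsLin f) {n : ℕ} {A H : ℤ} {d : ℕ} (hd : d ≠ 0) (t : ℝ)
    {p : List α} (hp : p.length ≤ n + 1) :
    monE f t (affine A H (Int.ofNat d) (pad n p)) =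
      (d : ℝ) ^ n * monE f ((A + H * t) / d) p := by
  have hd' : (d : ℝ) ≠ 0 := Nat.cast_ne_zero.2 hd
  have hlen : (pad n p).length = n + 1 := by simp [pad]; omega
  have h := monE_affine hf A H (Int.ofNat d) ((A + H * t) / d) t
    (by simp only [Int.ofNat_eq_natCast]; push_cast; field_simp) (pad n p)
  rw [hlen, monE_pad hf, Int.ofNat_eq_natCast, Int.cast_natCast, pow_succ] at h
  rw [Int.ofNat_eq_natCast]
  exact mul_right_cancel₀ hd' (by rw [h]; ring)

end

end Vale.Agent.P098.Six
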