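import Vale.Agent.P098.Six.Values
import Vale.Agent.P098.Six.Sub

/-!
# P098, six dimensions: the twenty root polynomials of an interval

Each is a nested integer list over a denominator.
-/

namespace Vale.Agent.P098.Six

open Vale.Agent.P098.Div

/-- A polynomial over a denominator. -/
structure Ent where
  p : P4
  den : ℕ

/-- Its product with the factor of the form. -/
def Ent.timesS (e : Ent) : Ent := ⟨qm sP e.p, e.den⟩

/-- The entry `p p` on a line. -/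
def ppE (C : Coef8) (T : TL) : Ent := ⟨ppP C T, 1764 * T.den ^ 2 * S0 ^ 2⟩

/-- The entry `p π` on a line. -/
def pzE (C : Coef8) (T : TL) : Ent := ⟨pzP C T, 42 * T.den ^ 2 * S0 ^ 2⟩

/-- The entry `π π` on a line. -/
def zzE (C : Coef8) (T : TL) : Ent := ⟨zzP C T, T.den ^ 2 * S0 ^ 2⟩

/-- The coefficient outside the form on a line. -/
def zE (C : Coef8) (T : TL) : Ent := ⟨zP C T, C.gd * T.den ^ 2 * S0 ^ 2⟩

/-- The field `b1` on a line. -/
def bE1 (C : Coef8) (T : TL) : Ent := ⟨bP C T, T.den * S0⟩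

/-- The twenty polynomials, in the order of `Vals.list`. -/
def roots (C : Coef8) (T₀ T₁ : TL) : List Ent :=
  [⟨sP, 1⟩, ⟨domP, 200⟩, ppE C T₀, ppE C T₁, pzE C T₀, pzE C T₁, zE C T₀, zE C T₁, bE1 C T₀,
    bE1 C T₁, ⟨pnP C, 42 * S0⟩, ⟨nzP C, 2 * S0⟩, (ppE C T₀).timesS, (ppE C T₁).timesS,
    (pzE C T₀).timesS, (pzE C T₁).timesS, (zzE C T₀).timesS, (zzE C T₁).timesS,
    Ent.timesS ⟨pnP C, 42 * S0⟩, Ent.timesS ⟨nzP C, 2 * S0⟩]

noncomputable section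

/-- The scaled value of an entry on a box. -/
def Ent.fn (e : Ent) (K : ℕ) (X : Box) (u : Fin 4 → ℝ) : ℝ := (K : ℝ) / e.den * ev4 (X.pt u) e.p

theorem facT_pos (L : Lay) : 0 < facT L :=
  Nat.mul_pos (Nat.mul_pos (Nat.mul_pos (Nat.factorial_pos _) (Nat.factorial_pos _))
    (Nat.factorial_pos _)) (Nat.factorial_pos _)

/-- The scaled values of the twenty polynomials are the entries at the two ends. -/
theorem roots_values (C : Coef8) (T₀ T₁ : TL) (h₀ : T₀.den ≠ 0) (h₁ : T₁.den ≠ 0)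
    (hg : C.gd ≠ 0) (K : ℕ) (v : Fin 4 → ℝ) :
    ((roots C T₀ T₁).map fun e => (K : ℝ) / e.den * ev4 v e.p) =
      (valsAt C v (T₀.t (v 3)) (T₁.t (v 3))).list K := by
  simp only [roots, Ent.timesS, ppE, pzE, zzE, zE, bE1, Vals.list, valsAt, ends, List.map_cons,
    List.map_nil, eS_eq, dom_eq, ePP_eq _ _ _ h₀, ePP_eq _ _ _ h₁, ePZ_eq _ _ _ h₀,
    ePZ_eq _ _ _ h₁, eZZ_eq _ _ _ h₀, eZZ_eq _ _ _ h₁, eZ_eq _ _ _ h₀ hg, eZ_eq _ _ _ h₁ hg,
    b1_eq _ _ _ h₀, b1_eq _ _ _ h₁, ePN_eq, eNZ_eq, ev4_qm, List.cons.injEq, and_true]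
  push_cast
  refine ⟨?_, ?_, ?_, ?_, ?_, ?_, ?_, ?_, ?_, ?_, ?_, ?_, ?_, ?_, ?_, ?_, ?_, ?_, ?_, ?_⟩ <;> ring

end

end Vale.Agent.P098.Six
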