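import Vale.Agent.P098.Six.Halve

/-!
# P098, six dimensions: division of all entries by a power of two, rounded down
-/

namespace Vale.Agent.P098.Six

open Finset

/-- The low `B - k` bits of every block. -/
def lowC (B J k : ℕ) : ℕ := (2 ^ (B - k) - 1) * rep B 1 J

/-- The shifted bias. -/
def biasR (B J k : ℕ) : ℕ := 2 ^ (B - 1 - k) * rep B 1 J

/-- All entries divided by `2 ^ k`, rounded down; `H`, `X`, `H'` are the constants. -/
def roundP (k H X H' : ℕ) (P : ℤ) : ℤ := Int.subNatNat (biased H P >>> k &&& X) H'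

theorem rep_mul_eq {B : ℕ} (hB : 0 < B) (a J : ℕ) : a * rep B 1 J = packN B J fun _ => a := by
  rw [packN_rep hB, packN, packN, mul_sum]
  exact sum_congr rfl fun j _ => by ring

/-- A short shift, followed by the low mask, divides every digit. -/
theorem shift_low {B k : ℕ} (hk : k < B) : ∀ (J : ℕ) (d : ℕ → ℕ), (∀ j < J, d j < 2 ^ B) →
    packN B J d >>> k &&& packN B J (fun _ => 2 ^ (B - k) - 1) = packN B J fun j => d j / 2 ^ k
  | 0, _, _ => by simp [packN]
  | J + 1, d, hd => by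
    have hX : 0 < 2 ^ B := by positivity
    have hs : 2 ^ B = 2 ^ k * 2 ^ (B - k) := by rw [← pow_add]; congr 1; omega
    have h0 := hd 0 (by omega)
    have ih := shift_low hk J (fun j => d (j + 1)) fun j hj => hd _ (by omega)
    have hlt : d 0 / 2 ^ k < 2 ^ (B - k) := by
      rw [Nat.div_lt_iff_lt_mul (by positivity), mul_comm]; omega
    have e : packN B (J + 1) d >>> k =
        d 0 / 2 ^ k + 2 ^ (B - k) * packN B J (fun j => d (j + 1)) := by
      rw [Nat.shiftRight_eq_div_pow, packN_succ, hs, mul_assoc,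
        Nat.add_mul_div_left _ _ (by positivity)]
    have hlow : 2 ^ (B - k) - 1 < 2 ^ B := by
      have : 2 ^ (B - k) ≤ 2 ^ B := Nat.pow_le_pow_right (by norm_num) (by omega)
      have := Nat.two_pow_pos (B - k)
      omega
    rw [e, packN_succ B J (fun _ => _), packN_succ B J (fun j => d j / 2 ^ k),
      ← Nat.mod_add_div (_ &&& _) (2 ^ B), Nat.and_mod_two_pow, Nat.and_div_two_pow,
      Nat.add_mul_mod_self_left, Nat.mod_eq_of_lt hlow, Nat.add_mul_div_left _ _ hX,
      Nat.div_eq_of_lt hlow, Nat.zero_add]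
    refine congrArg₂ (fun x y => x + 2 ^ B * y) ?_ ?_
    · rw [Nat.and_two_pow_sub_one_eq_mod, Nat.mod_mod_of_dvd _ ⟨2 ^ k, by rw [hs]; ring⟩,
        Nat.add_mul_mod_self_left, Nat.mod_eq_of_lt hlt]
    · refine Eq.trans (congrArg (· &&& _) ?_) ih
      rw [Nat.shiftRight_eq_div_pow, hs, mul_comm (2 ^ k), ← Nat.div_div_eq_div_mul,
        Nat.add_mul_div_left _ _ (by positivity), Nat.div_eq_of_lt hlt, Nat.zero_add]

/-- Rounding: the entries `c' = ⌊c / 2 ^ k⌋`. -/
theorem round_sound {B J M k : ℕ} {P : ℤ} {c : ℕ → ℤ} (h : Packs B J M P c) (hk : k < B)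
    (hM : M < 2 ^ (B - 1)) :
    ∃ c', Packs B J (M / 2 ^ k + 1) (roundP k (biasC B J) (lowC B J k) (biasR B J k) P) c' ∧
      ∀ j < J, 2 ^ k * c' j ≤ c j ∧ c j < 2 ^ k * c' j + 2 ^ k := by
  have hB : 0 < B := by omega
  have hk' : k ≤ B - 1 := by omega
  have hH : (2 : ℤ) ^ (B - 1) = 2 ^ k * 2 ^ (B - 1 - k) := by rw [← pow_add]; congr 1; omega
  refine ⟨fun j => c j / 2 ^ k, ⟨?_, fun j hj => ?_⟩, fun j _ => ⟨Int.mul_ediv_self_le (by positivity),
    by
      have := Int.lt_mul_ediv_self_add (x := c j) (k := (2 : ℤ) ^ k) (by positivity)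
      linarith⟩⟩
  · rw [roundP, lowC, biasR, Int.subNatNat_eq_coe, biased_eq h hB hM, rep_mul_eq hB, rep_mul_eq hB,
      shift_low hk J _ (dig_lt h hB hM), ← pack_cast, ← pack_cast, sub_eq_iff_eq_add, ← pack_add]
    refine pack_congr fun j hj => ?_
    simp only [Pi.add_apply]
    push_cast
    rw [dig_spec h hM hj, hH, Int.add_mul_ediv_left _ _ (by positivity)]
  · push_cast
    have hb := abs_le.1 (h.bound j hj)
    have h1 : (-(M : ℤ)) / 2 ^ k ≤ c j / 2 ^ k := Int.ediv_le_ediv (by positivity) hb.1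
    have h2 : c j / 2 ^ k ≤ (M : ℤ) / 2 ^ k := Int.ediv_le_ediv (by positivity) hb.2
    have h3 : -((M : ℤ) / 2 ^ k) - 1 ≤ (-(M : ℤ)) / 2 ^ k := by
      rw [Int.le_ediv_iff_mul_le (by positivity)]
      have := Int.lt_mul_ediv_self_add (x := (M : ℤ)) (k := (2 : ℤ) ^ k) (by positivity)
      linarith
    rw [abs_le]; constructor <;> linarith

/-- The value after rounding differs by less than the sum of the weights. -/
theorem round_value {J k : ℕ} {c c' : ℕ → ℤ} {W : ℕ → ℝ} (hW : ∀ j < J, 0 ≤ W j)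
    (hs : ∑ j ∈ range J, W j = 1) (h : ∀ j < J, 2 ^ k * c' j ≤ c j ∧ c j < 2 ^ k * c' j + 2 ^ k) :
    |2 ^ k * value J W c' - value J W c| ≤ 2 ^ k := by
  rw [value, value, mul_sum, ← sum_sub_distrib]
  refine (abs_sum_le_sum_abs _ _).trans ?_
  calc ∑ j ∈ range J, |2 ^ k * (W j * (c' j : ℝ)) - W j * c j|
      ≤ ∑ j ∈ range J, W j * (2 : ℝ) ^ k := by
        refine sum_le_sum fun j hj => ?_
        obtain ⟨h1, h2⟩ := h j (mem_range.1 hj)
        have h1' : (2 : ℝ) ^ k * c' j ≤ c j := by exact_mod_cast h1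
        have h2' : (c j : ℝ) < 2 ^ k * c' j + 2 ^ k := by exact_mod_cast h2
        rw [show (2 : ℝ) ^ k * (W j * c' j) - W j * c j = W j * (2 ^ k * c' j - c j) by ring,
          abs_mul, abs_of_nonneg (hW j (mem_range.1 hj))]
        refine mul_le_mul_of_nonneg_left ?_ (hW j (mem_range.1 hj))
        rw [abs_le]; constructor <;> linarith
    _ = 2 ^ k := by rw [← sum_mul, hs, one_mul]

end Vale.Agent.P098.Six
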