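import Vale.Agent.P098.Six.Lay

/-!
# P098, six dimensions: bisection trees over packed polynomials

A tree bisects the unit box. At a leaf a test may ask whether an integer combination of the
constant one and the packed polynomials is nonnegative. The position along the last axis is
tracked as `(i, d)`, the interval `[i / 2 ^ d, (i + 1) / 2 ^ d]`.
-/

namespace Vale.Agent.P098.Six

open Finset

/-- A bisection tree with data at the leaves. -/
inductive Tree (α : Type) where
  | leaf (x : α)
  | s0 (l r : Tree α)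
  | s1 (l r : Tree α)
  | s2 (l r : Tree α)
  | s3 (l r : Tree α)

/-- The constants of the halving along an axis. -/
structure AxK where
  n : ℕ
  H : ℕ
  low : ℕ
  R : ℕ
  A : Ax

/-- The left half. -/
def AxK.lo (K : AxK) (P : ℤ) : ℤ := roundP K.n K.H K.low K.R (halfLo K.A P)

/-- The right half. -/
def AxK.hi (K : AxK) (P : ℤ) : ℤ := roundP K.n K.H K.low K.R (halfHi K.A P)

/-- All constants of a run. -/
structure Con where
  B : ℕ
  M : ℕ
  E : ℕ
  cap : ℕ
  H : ℕ
  one : ℤ
  k0 : AxK
  k1 : AxK
  k2 : AxK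
  k3 : AxK

/-- Evaluate the argument before the continuation. -/
def forceZ (k : ℤ → Bool) : ℤ → Bool
  | Int.ofNat n => k (Int.ofNat n)
  | Int.negSucc n => k (Int.negSucc n)

/-- The same for natural numbers. -/
def forceN (k : ℕ → Bool) : ℕ → Bool
  | 0 => k 0
  | n + 1 => k (n + 1)

theorem forceZ_eq (k : ℤ → Bool) (a : ℤ) : forceZ k a = k a := by cases a <;> rfl

theorem forceN_eq (k : ℕ → Bool) (a : ℕ) : forceN k a = k a := by cases a <;> rfl

/-- Map, evaluating every value first. -/
def mapF (f : ℤ → ℤ) : List ℤ → (List ℤ → Bool) → Bool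
  | [], k => k []
  | P :: Ps, k => forceZ (fun Q => mapF f Ps fun Qs => k (Q :: Qs)) (f P)

theorem mapF_eq (f : ℤ → ℤ) : ∀ (Ps : List ℤ) (k : List ℤ → Bool), mapF f Ps k = k (Ps.map f)
  | [], _ => rfl
  | P :: Ps, k => by rw [mapF, forceZ_eq, mapF_eq f Ps]; rfl

/-- The combination with coefficients `cs`. -/
def dot : List ℤ → List ℤ → ℤ
  | c :: cs, P :: Ps => bif c == 0 then dot cs Ps else c * P + dot cs Ps
  | _, _ => 0

/-- The sum of the absolute values. -/
def sumAbs : List ℤ → ℕ
  | [] => 0
  | c :: cs => c.natAbs + sumAbs cs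

/-- The test of a combination after `n` halvings; the coefficient of one carries no error. -/
def testC (K : Con) (n : ℕ) (Ps : List ℤ) : List ℤ → Bool
  | [] => true
  | c :: cs => forceN (fun A => Nat.blt (c.natAbs + A * (K.M + n + (K.E + n))) K.cap &&
      nonnegP K.H (c * K.one + dot cs Ps + Int.negOfNat (A * (K.E + n)) * K.one)) (sumAbs cs)

/-- Bounds allow one more halving. -/
def halveOK (K : Con) (A : AxK) (n : ℕ) : Bool := Nat.blt (2 ^ A.n * (K.M + n)) K.cap

variable {α : Type}

/-- The run of a tree: `chk` is given the test, the position and the data of the leaf. -/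
def run (K : Con) (chk : (List ℤ → Bool) → ℕ → ℕ → α → Bool) :
    Tree α → ℕ → ℕ → ℕ → List ℤ → Bool
  | .leaf x, n, i, d, Ps => chk (testC K n Ps) i d x
  | .s0 l r, n, i, d, Ps => halveOK K K.k0 n &&
      (mapF K.k0.lo Ps (run K chk l (n + 1) i d) && mapF K.k0.hi Ps (run K chk r (n + 1) i d))
  | .s1 l r, n, i, d, Ps => halveOK K K.k1 n &&
      (mapF K.k1.lo Ps (run K chk l (n + 1) i d) && mapF K.k1.hi Ps (run K chk r (n + 1) i d))
  | .s2 l r, n, i, d, Ps => halveOK K K.k2 n &&
      (mapF K.k2.lo Ps (run K chk l (n + 1) i d) && mapF K.k2.hi Ps (run K chk r (n + 1) i d))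
  | .s3 l r, n, i, d, Ps => halveOK K K.k3 n &&
      (mapF K.k3.lo Ps (run K chk l (n + 1) (2 * i) (d + 1)) &&
        mapF K.k3.hi Ps (run K chk r (n + 1) (2 * i + 1) (d + 1)))

/-- The constants of an axis of a layout. -/
def Lay.axK (L : Lay) (a : Fin 4) : AxK :=
  ⟨L.deg a, biasC L.B L.size, lowC L.B L.size (L.deg a), biasR L.B L.size (L.deg a), L.ax a⟩

/-- The constants of a run in a layout. -/
def Lay.con (L : Lay) (M E : ℕ) : Con :=
  ⟨L.B, M, E, 2 ^ (L.B - 1), biasC L.B L.size, Int.ofNat (rep L.B 1 L.size), L.axK 0, L.axK 1,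
    L.axK 2, L.axK 3⟩

/-- The packed polynomials represent the functions. -/
def Reps (L : Lay) (M E : ℕ) (Ps : List ℤ) (F : List ((Fin 4 → ℝ) → ℝ)) : Prop :=
  List.Forall₂ (Rep L M E) Ps F

/-- The value of a combination of one and a list of numbers. -/
def comb : List ℤ → List ℝ → ℝ
  | c :: cs, x :: xs => c * x + comb cs xs
  | _, _ => 0

theorem Rep.mono {L : Lay} {M E M' E' : ℕ} {P : ℤ} {f : (Fin 4 → ℝ) → ℝ} (h : Rep L M E P f)
    (hM : M ≤ M') (hE : E ≤ E') : Rep L M' E' P f := by
  obtain ⟨c, hc, hf⟩ := h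
  exact ⟨c, ⟨hc.eq, fun j hj => (hc.bound j hj).trans (by exact_mod_cast hM)⟩,
    fun u hu => (hf u hu).trans (by exact_mod_cast hE)⟩

theorem Rep.zero (L : Lay) (M E : ℕ) : Rep L M E 0 fun _ => 0 :=
  ⟨0, ⟨by simp [pack], fun j _ => by simp⟩, fun u _ => by simp [value]⟩

theorem rep_dot {L : Lay} {M E : ℕ} : ∀ (cs Ps : List ℤ) (F : List ((Fin 4 → ℝ) → ℝ)),
    Reps L M E Ps F → Rep L (sumAbs cs * M) (sumAbs cs * E) (dot cs Ps)
      fun u => comb cs (F.map fun f => f u)
  | [], Ps, F, _ => by
    cases Ps <;> cases F <;> exact Rep.zero L _ _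
  | c :: cs, [], F, h => by
    cases h
    simpa [dot, comb] using Rep.zero L _ _
  | c :: cs, P :: Ps, F, h => by
    cases h with
    | cons hP hPs =>
      rename_i f F
      have ih := rep_dot cs Ps F hPs
      by_cases hc : c = 0
      · subst hc
        simpa [dot, comb, sumAbs] using ih
      · have := (hP.smul c).add ih
        simp only [dot, beq_eq_false_iff_ne.2 hc, cond_false, comb, sumAbs, List.map_cons, Nat.add_mul]
        exact this

/-- A passed test makes the combination nonnegative. -/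
theorem testC_sound {L : Lay} {M E n : ℕ} {Ps cs : List ℤ} {F : List ((Fin 4 → ℝ) → ℝ)}
    (hB : 0 < L.B) (h : Reps L (M + n) (E + n) Ps F)
    (ht : testC (L.con M E) n Ps cs = true) {u : Fin 4 → ℝ} (hu : ∀ a, 0 ≤ u a ∧ u a ≤ 1) :
    0 ≤ comb cs (1 :: F.map fun f => f u) := by
  cases cs with
  | nil => simp [comb]
  | cons c cs =>
    simp only [testC, forceN_eq, Lay.con, Bool.and_eq_true, Nat.blt_eq] at ht
    obtain ⟨hcap, hn⟩ := ht
    set A := sumAbs cs
    have h2 := (((Rep.ones (L := L) hB).smul c).add (rep_dot cs _ _ h)).add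
      ((Rep.ones (L := L) hB).smul (Int.negOfNat (A * (E + n))))
    have h3 := h2.nonneg hB (by
      simp only [Int.natAbs_negOfNat, mul_one]
      rw [Nat.add_assoc, ← Nat.mul_add]
      exact hcap) hn hu
    simp only [comb, mul_zero, add_zero, zero_add, mul_one, Int.negOfNat_eq, Int.ofNat_eq_natCast] at h3 ⊢
    push_cast at h3
    linarith

theorem reps_map {L : Lay} {M E : ℕ} {g : ℤ → ℤ} {T : (Fin 4 → ℝ) → Fin 4 → ℝ}
    {Ps : List ℤ} {F : List ((Fin 4 → ℝ) → ℝ)} (h : Reps L M E Ps F)
    (hg : ∀ P f, Rep L M E P f → Rep L (M + 1) (E + 1) (g P) fun u => f (T u)) :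
    Reps L (M + 1) (E + 1) (Ps.map g) (F.map fun f u => f (T u)) := by
  induction h with
  | nil => exact .nil
  | cons hP _ ih => exact .cons (hg _ _ hP) ih

/-- Every point is in one of the two halves. -/
theorem split_point (a : Fin 4) {u : Fin 4 → ℝ} (hu : ∀ b, 0 ≤ u b ∧ u b ≤ 1) :
    ∃ v : Fin 4 → ℝ, (∀ b, 0 ≤ v b ∧ v b ≤ 1) ∧ (loPt a v = u ∨ hiPt a v = u) := by
  rcases le_or_gt (u a) (1 / 2) with h | h
  · refine ⟨Function.update u a (2 * u a), fun b => ?_, .inl ?_⟩
    · rcases eq_or_ne b a with rfl | hb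
      · rw [Function.update_self]; constructor <;> linarith [(hu b).1]
      · rw [Function.update_of_ne hb]; exact hu b
    · unfold loPt
      rw [Function.update_self, Function.update_idem, mul_div_cancel_left₀ _ (two_ne_zero' ℝ),
        Function.update_eq_self]
  · refine ⟨Function.update u a (2 * u a - 1), fun b => ?_, .inr ?_⟩
    · rcases eq_or_ne b a with rfl | hb
      · rw [Function.update_self]; constructor <;> linarith [(hu b).2]
      · rw [Function.update_of_ne hb]; exact hu b
    · unfold hiPt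
      rw [Function.update_self, Function.update_idem,
        show 1 / 2 + (2 * u a - 1) / 2 = u a by ring, Function.update_eq_self]

/-- A property of the values at a point and of the position along the last axis. -/
theorem run_sound {L : Lay} {M E : ℕ} (hB : 0 < L.B) (hdeg : ∀ a, L.deg a < L.B)
    {chk : (List ℤ → Bool) → ℕ → ℕ → α → Bool} {Good : List ℝ → ℝ → Prop}
    (hchk : ∀ (test : List ℤ → Bool) (i d : ℕ) (x : α), chk test i d x = true →
      ∀ (v : List ℝ) (r : ℝ), (∀ cs, test cs = true → 0 ≤ comb cs (1 :: v)) → 0 ≤ r → r ≤ 1 →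
        Good v ((i + r) / 2 ^ d)) :
    ∀ (T : Tree α) (n i d : ℕ) (Ps : List ℤ) (F : List ((Fin 4 → ℝ) → ℝ)),
      run (L.con M E) chk T n i d Ps = true → Reps L (M + n) (E + n) Ps F →
        ∀ u : Fin 4 → ℝ, (∀ a, 0 ≤ u a ∧ u a ≤ 1) →
          Good (F.map fun f => f u) ((i + u 3) / 2 ^ d) := by
  intro T
  induction T with
  | leaf x =>
    intro n i d Ps F h hR u hu
    exact hchk _ i d x h _ _ (fun cs hc => testC_sound hB hR hc hu) (hu 3).1 (hu 3).2
  | s0 l r ihl ihr =>
    intro n i d Ps F h hR u hu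
    simp only [run, Bool.and_eq_true, mapF_eq, halveOK, Lay.con, Nat.blt_eq] at h
    obtain ⟨hg, hl, hr⟩ := h
    have step := fun P f (hP : Rep L (M + n) (E + n) P f) => halved 0 hP (hdeg 0) hg
    obtain ⟨v, hv, rfl | rfl⟩ := split_point 0 hu
    · have := ihl _ _ _ _ _ hl (reps_map hR fun P f hP => (step P f hP).1) v hv
      simpa [List.map_map, Function.comp_def, loPt] using this
    · have := ihr _ _ _ _ _ hr (reps_map hR fun P f hP => (step P f hP).2) v hv
      simpa [List.map_map, Function.comp_def, hiPt] using this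
  | s1 l r ihl ihr =>
    intro n i d Ps F h hR u hu
    simp only [run, Bool.and_eq_true, mapF_eq, halveOK, Lay.con, Nat.blt_eq] at h
    obtain ⟨hg, hl, hr⟩ := h
    have step := fun P f (hP : Rep L (M + n) (E + n) P f) => halved 1 hP (hdeg 1) hg
    obtain ⟨v, hv, rfl | rfl⟩ := split_point 1 hu
    · have := ihl _ _ _ _ _ hl (reps_map hR fun P f hP => (step P f hP).1) v hv
      simpa [List.map_map, Function.comp_def, loPt] using this
    · have := ihr _ _ _ _ _ hr (reps_map hR fun P f hP => (step P f hP).2) v hv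
      simpa [List.map_map, Function.comp_def, hiPt] using this
  | s2 l r ihl ihr =>
    intro n i d Ps F h hR u hu
    simp only [run, Bool.and_eq_true, mapF_eq, halveOK, Lay.con, Nat.blt_eq] at h
    obtain ⟨hg, hl, hr⟩ := h
    have step := fun P f (hP : Rep L (M + n) (E + n) P f) => halved 2 hP (hdeg 2) hg
    obtain ⟨v, hv, rfl | rfl⟩ := split_point 2 hu
    · have := ihl _ _ _ _ _ hl (reps_map hR fun P f hP => (step P f hP).1) v hv
      simpa [List.map_map, Function.comp_def, loPt] using this
    · have := ihr _ _ _ _ _ hr (reps_map hR fun P f hP => (step P f hP).2) v hv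
      simpa [List.map_map, Function.comp_def, hiPt] using this
  | s3 l r ihl ihr =>
    intro n i d Ps F h hR u hu
    simp only [run, Bool.and_eq_true, mapF_eq, halveOK, Lay.con, Nat.blt_eq] at h
    obtain ⟨hg, hl, hr⟩ := h
    have step := fun P f (hP : Rep L (M + n) (E + n) P f) => halved 3 hP (hdeg 3) hg
    obtain ⟨v, hv, rfl | rfl⟩ := split_point 3 hu
    · have := ihl _ _ _ _ _ hl (reps_map hR fun P f hP => (step P f hP).1) v hv
      simp only [List.map_map, Function.comp_def] at this
      convert this using 1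
      simp [loPt, pow_succ]; field_simp
    · have := ihr _ _ _ _ _ hr (reps_map hR fun P f hP => (step P f hP).2) v hv
      simp only [List.map_map, Function.comp_def] at this
      convert this using 1
      simp [hiPt, pow_succ]; field_simp; ring

end Vale.Agent.P098.Six
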