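import Vale.Agent.P098.Six.Seg
import Vale.Agent.P098.Six.Between

/-!
# P098, six dimensions: the interior inequality from the checked trees
-/

namespace Vale.Agent.P098.Six

open Vale.Agent.P098.Div

noncomputable section

theorem stripK_sound {C : Coef8} {K : SegC} {S : SSeg} {T : Strip} {q : ℕ} {s t : ℕ × ℕ}
    (hK : 0 < K.K) (hd₀ : (lineOf S.lo).den ≠ 0) (hd₁ : (lineOf S.hi).den ≠ 0)
    (h : stripK K S T q s t = true) {l : Fin 5 → ℝ} (hl : Spectrum l) (k : Fin 5) {x : Fin 5 → ℝ}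
    (hx : ∑ i, x i = 0) {w D ξ : ℝ} (hξ : InX w D ξ) (π : ℝ) {r : ℝ} (h0 : 0 ≤ r) (h1 : r ≤ 1)
    (ha : l k = (1 - r) * S.u + r * S.v)
    (c0 : ev T.e0 (l k) ≤ cubic l) (c1 : cubic l ≤ ev T.e1 (l k))
    (hres : resid (l k) (cubic l) (sumFour l k) ≤ ev T.p (l k) + ev T.q (l k) * cubic l)
    (hS : StripOK (valsAt C ![w, D, ξ, l k] ((lineOf S.lo).t (l k)) ((lineOf S.hi).t (l k))) q
      (sigAt K s r) (sigAt K t r)) :
    0 ≤ ((1 - ξ) * (1 - D) - ξ * w ^ 2) * quadX C.fields l w D ξ k x π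
      + ((1 - ξ) * constX C.fields l w D ξ + ξ * endX C.gam C.fields l w D ξ) * π ^ 2 := by
  simp only [stripK, Bool.and_eq_true, decide_eq_true_eq] at h
  obtain ⟨e0, e1, hs, ht⟩ := h
  obtain ⟨th, t0, t1, hth⟩ := exists_between c0 c1
  obtain ⟨bs, ps⟩ := sigOK_sound hK hs h0 h1
  obtain ⟨bt, pt⟩ := sigOK_sound hK ht h0 h1
  rw [← ha] at bs bt
  refine quad_between C hl k hx hξ π t0 t1 ?_ ?_ ps pt hS
  · rw [hth, e0, e1, ev_endP, ev_endP, ev_lineOf hd₀, ev_lineOf hd₁]; push_cast; ring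
  · refine hres.trans (le_trans (le_of_eq ?_) (add_le_add
      (mul_le_mul_of_nonneg_left bs (sub_nonneg.2 t1)) (mul_le_mul_of_nonneg_left bt t0)))
    rw [hth]; ring

/-- A good interval has the interior inequality. -/
theorem segQuad_of_good {C : Coef8} {K : SegC} {S : SSeg} (hgd : C.gd ≠ 0)
    (hS : segOK K S = true) (hG : SegGood C K S) : SegQuad C S := by
  intro l hl w D hdom ξ hξ k x π hx hu hv T hT c0 c1 hres
  simp only [segOK, Bool.and_eq_true, decide_eq_true_eq, bne_iff_ne, ne_eq, Nat.blt_eq] at hS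
  obtain ⟨huv, hd₀, hd₁, hK, hm⟩ := hS
  split at hm
  case h_2 => simp at hm
  rename_i A B E hst
  simp only [Bool.and_eq_true] at hm
  obtain ⟨hA, hB, hE⟩ := hm
  have huv' : (S.u : ℝ) < S.v := by exact_mod_cast huv
  have hd : (0 : ℝ) < S.v - S.u := sub_pos.2 huv'
  set r := (l k - S.u) / (S.v - S.u) with hr
  have h0 : 0 ≤ r := div_nonneg (by linarith) hd.le
  have h1 : r ≤ 1 := (div_le_one hd).2 (by linarith)
  have ha : l k = (1 - r) * S.u + r * S.v := by rw [hr]; field_simp; ring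
  set u : Fin 4 → ℝ := ![5000 / 3021 * w, D, ξ, r] with hu'
  have hw := w_le hdom
  have hcube : ∀ a, 0 ≤ u a ∧ u a ≤ 1 := by
    intro a
    fin_cases a <;> simp [hu'] <;> constructor <;>
      linarith [hdom.1, hdom.2.1, hdom.2.2.1, hξ.1, hξ.2.1]
  have hpt : S.box.pt u = ![w, D, ξ, l k] := by
    funext a
    fin_cases a <;> simp [Box.pt, SSeg.box, hu']
    · ring
    · conv_rhs => rw [ha, Rat.cast_def S.u, Rat.cast_def S.v]
      field_simp
      ring
  set v : Fin 4 → ℝ := ![w, D, ξ, l k] with hv'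
  have hlist : ((S.roots C).map fun e => e.fn K.K S.box u) =
      (valsAt C v ((lineOf S.lo).t (l k)) ((lineOf S.hi).t (l k))).list K.K := by
    simp only [Ent.fn, hpt]
    exact roots_values C _ _ hd₀ hd₁ hgd K.K v
  have hs : 0 ≤ eS (pt4 v ((lineOf S.lo).t (l k))) := by
    simp only [eS, pt4, hv', Matrix.cons_val_zero, Matrix.cons_val_one, Matrix.cons_val]
    linarith [hξ.2.2]
  have hdm : 0 ≤ phiSix (v 1) - v 0 ^ 2 := by
    simp only [hv', Matrix.cons_val_zero, Matrix.cons_val_one]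
    linarith [hdom.2.2.2]
  obtain ⟨gA, gB, gE⟩ := hG u hcube _ hlist hs hdm
  rw [show u 3 = r from rfl] at gA gB gE
  simp only [hst, List.mem_cons, List.not_mem_nil, or_false] at hT
  rcases hT with rfl | rfl | rfl
  · exact stripK_sound hK hd₀ hd₁ hA hl k hx hξ π h0 h1 ha c0 c1 hres (by simpa using gA)
  · exact stripK_sound hK hd₀ hd₁ hB hl k hx hξ π h0 h1 ha c0 c1 hres (by simpa using gB)
  · exact stripK_sound hK hd₀ hd₁ hE hl k hx hξ π h0 h1 ha c0 c1 hres (by simpa using gE)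

/-- The interior inequality from all intervals. -/
theorem quadX_of_segs {C : Coef8} {L : List SSeg} (hL : setOK L (-1789 / 2000) = true)
    (h : ∀ S ∈ L, SegQuad C S) : QuadX 5 C.gam C.fields phiSix := by
  intro l hl w D hdom ξ hξ k x π hx
  obtain ⟨S, hS, hu, hv, T, hT, c0, c1, hres⟩ := exists_strip hL hl k
  exact h S hS l hl w D hdom ξ hξ k x π hx hu hv T hT c0 c1 hres

end

end Vale.Agent.P098.Six
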