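import Mathlib
import Vale.Agent.P098.Six.Sigma

/-!
# P098, five tangential eigenvalues: a bound on the residual, affine on each of 24 intervals

The intervals cut `[-1789/2000, 1789/2000]` equally; each bound is within `0.003` relative plus
`3e-5` of the largest value seen in floating point.
-/

namespace Vale.Agent.P098.Six

open Vale.Agent.P098.Div

/-- An interval, its affine bound and the pieces that check it. -/
structure Seg where
  u : ℚ
  v : ℚ
  s : Pol
  pieces : List Piece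

/-- The data. -/
def segs : List Seg := [
  ⟨(-1789/2000), (-19679/24000), [57169/65536, 890625/915968],
    [⟨(-1789/2000), (-33991/38400), false, 474345/1024, 0⟩,
      ⟨(-33991/38400), (-84083/96000), false, 86661/1024, 0⟩,
      ⟨(-84083/96000), (-55459/64000), false, 39201/1024, 0⟩,
      ⟨(-55459/64000), (-41147/48000), false, 39721/2048, 0⟩,
      ⟨(-41147/48000), (-5367/6400), true, 20391/4096, 0⟩,
      ⟨(-5367/6400), (-19679/24000), false, 3581/512, 0⟩]⟩,
  ⟨(-19679/24000), (-1789/2400), [36155/65536, 530625/915968],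
    [⟨(-19679/24000), (-1789/2400), true, 10331/4096, 0⟩]⟩,
  ⟨(-1789/2400), (-5367/8000), [1937/8192, 1125/7156],
    [⟨(-1789/2400), (-33991/48000), true, 2931/2048, 0⟩,
      ⟨(-33991/48000), (-5367/8000), true, 2617/2048, 0⟩]⟩,
  ⟨(-5367/8000), (-1789/3000), [1051/65536, (-310875/1831936)],
    [⟨(-5367/8000), (-12523/19200), true, 3725/4096, 0⟩,
      ⟨(-12523/19200), (-30413/48000), true, 1485/2048, 0⟩,
      ⟨(-30413/48000), (-1789/3000), true, 663/1024, 0⟩]⟩,
  ⟨(-1789/3000), (-12523/24000), [(-3411/32768), (-676125/1831936)],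
    [⟨(-1789/3000), (-55459/96000), true, 1685/4096, 0⟩,
      ⟨(-55459/96000), (-1789/3200), false, 275/4096, 0⟩,
      ⟨(-1789/3200), (-51881/96000), true, 1071/4096, 0⟩,
      ⟨(-51881/96000), (-12523/24000), true, 681/4096, 0⟩]⟩,
  ⟨(-12523/24000), (-1789/4000), [(-3679/32768), (-175125/457984)],
    [⟨(-12523/24000), (-16101/32000), true, 121/1024, 0⟩,
      ⟨(-16101/32000), (-23257/48000), true, 175/4096, 0⟩,
      ⟨(-23257/48000), (-1789/4000), true, 0, 0⟩]⟩,
  ⟨(-1789/4000), (-1789/4800), [401/8192, (-40125/1831936)],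
    [⟨(-1789/4000), (-1789/4800), true, 0, 0⟩]⟩,
  ⟨(-1789/4800), (-1789/6000), [8083/65536, 81375/457984],
    [⟨(-1789/4800), (-1789/6000), true, 0, 0⟩]⟩,
  ⟨(-1789/6000), (-1789/8000), [9259/65536, 217875/915968],
    [⟨(-1789/6000), (-1789/8000), true, 0, 0⟩]⟩,
  ⟨(-1789/8000), (-1789/12000), [8995/65536, 49875/228992],
    [⟨(-1789/8000), (-1789/12000), true, 0, 0⟩]⟩,
  ⟨(-1789/12000), (-1789/24000), [8343/65536, 272625/1831936],
    [⟨(-1789/12000), (-1789/24000), true, 0, 0⟩]⟩,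
  ⟨(-1789/24000), 0, [7883/65536, 96375/1831936],
    [⟨(-1789/24000), 0, true, 0, 0⟩]⟩,
  ⟨0, 1789/24000, [7883/65536, (-96375/1831936)],
    [⟨0, 1789/24000, true, 0, 0⟩]⟩,
  ⟨1789/24000, 1789/12000, [8343/65536, (-272625/1831936)],
    [⟨1789/24000, 1789/12000, true, 0, 0⟩]⟩,
  ⟨1789/12000, 1789/8000, [8995/65536, (-49875/228992)],
    [⟨1789/12000, 1789/8000, true, 0, 0⟩]⟩,
  ⟨1789/8000, 1789/6000, [9259/65536, (-217875/915968)],
    [⟨1789/8000, 1789/6000, true, 0, 0⟩]⟩,
  ⟨1789/6000, 1789/4800, [8083/65536, (-81375/457984)],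
    [⟨1789/6000, 1789/4800, true, 0, 0⟩]⟩,
  ⟨1789/4800, 1789/4000, [401/8192, 40125/1831936],
    [⟨1789/4800, 1789/4000, true, 0, 0⟩]⟩,
  ⟨1789/4000, 12523/24000, [(-3679/32768), 175125/457984],
    [⟨1789/4000, 23257/48000, true, 0, 0⟩,
      ⟨23257/48000, 16101/32000, true, 175/4096, 0⟩,
      ⟨16101/32000, 12523/24000, true, 121/1024, 0⟩]⟩,
  ⟨12523/24000, 1789/3000, [(-3411/32768), 676125/1831936],
    [⟨12523/24000, 51881/96000, true, 681/4096, 0⟩,
      ⟨51881/96000, 1789/3200, true, 1071/4096, 0⟩,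
      ⟨1789/3200, 55459/96000, false, 275/4096, 0⟩,
      ⟨55459/96000, 1789/3000, true, 1685/4096, 0⟩]⟩,
  ⟨1789/3000, 5367/8000, [1051/65536, 310875/1831936],
    [⟨1789/3000, 30413/48000, true, 663/1024, 0⟩,
      ⟨30413/48000, 12523/19200, true, 1485/2048, 0⟩,
      ⟨12523/19200, 5367/8000, true, 3725/4096, 0⟩]⟩,
  ⟨5367/8000, 1789/2400, [1937/8192, (-1125/7156)],
    [⟨5367/8000, 33991/48000, true, 2617/2048, 0⟩,
      ⟨33991/48000, 1789/2400, true, 2931/2048, 0⟩]⟩,
  ⟨1789/2400, 19679/24000, [36155/65536, (-530625/915968)],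
    [⟨1789/2400, 19679/24000, true, 10331/4096, 0⟩]⟩,
  ⟨19679/24000, 1789/2000, [57169/65536, (-890625/915968)],
    [⟨19679/24000, 5367/6400, false, 3581/512, 0⟩,
      ⟨5367/6400, 41147/48000, true, 20391/4096, 0⟩,
      ⟨41147/48000, 55459/64000, false, 39721/2048, 0⟩,
      ⟨55459/64000, 84083/96000, false, 39201/1024, 0⟩,
      ⟨84083/96000, 33991/38400, false, 86661/1024, 0⟩,
      ⟨33991/38400, 1789/2000, false, 474345/1024, 0⟩]⟩]

/-- The checks of all intervals, and their covering of the range. -/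
def segsOK : List Seg → ℚ → Bool
  | [], u => decide (1789/2000 ≤ u)
  | S :: L, u => chain S.s S.u S.v S.pieces && (S.pieces.all (fun P => P.nu == 0)
      && (decide (S.u ≤ u) && segsOK L S.v))

theorem segs_ok : segsOK segs (-1789/2000) = true := by decide +kernel

theorem segsOK_sound : ∀ {L : List Seg} {u : ℚ}, segsOK L u = true → ∀ {a : ℝ}, (u : ℝ) < a →
    a < 1789 / 2000 → ∃ S ∈ L, chain S.s S.u S.v S.pieces = true ∧ (∀ P ∈ S.pieces, P.nu = 0)
      ∧ (S.u : ℝ) < a ∧ a ≤ S.v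
  | [], u, h, a, hu, hv => by
    simp only [segsOK, decide_eq_true_eq] at h
    have h2 : ((1789 / 2000 : ℚ) : ℝ) ≤ u := by exact_mod_cast h
    push_cast at h2
    linarith
  | S :: L, u, h, a, hu, hv => by
    simp only [segsOK, Bool.and_eq_true, decide_eq_true_eq, List.all_eq_true, beq_iff_eq] at h
    obtain ⟨hc, hn, h0, hL⟩ := h
    rcases le_or_gt a (S.v : ℝ) with e | e
    · exact ⟨S, List.mem_cons_self, hc, hn, lt_of_le_of_lt (by exact_mod_cast h0) hu, e⟩
    · obtain ⟨T, hT, r⟩ := segsOK_sound hL e hv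
      exact ⟨T, List.mem_cons_of_mem _ hT, r⟩

/-- Every eigen-direction lies in an interval, with the residual below its bound. -/
theorem exists_seg {l : Fin 5 → ℝ} (h : Spectrum l) (k : Fin 5) :
    ∃ S ∈ segs, (S.u : ℝ) < l k ∧ l k ≤ S.v ∧
      resid (l k) (cubic l) (sumFour l k) ≤ ev S.s (l k) := by
  have hx := (h.range5 k).1
  rw [xres] at hx
  have hu : ((-1789 / 2000 : ℚ) : ℝ) < l k := by push_cast; nlinarith
  have hv : l k < 1789 / 2000 := by nlinarith
  obtain ⟨S, hS, hc, hn, a, b⟩ := segsOK_sound segs_ok hu hv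
  exact ⟨S, hS, a, b, resid_le_of_chain hc h k a b fun P hP => by simp [hn P hP]⟩

end Vale.Agent.P098.Six
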