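import Vale.Agent.P098.Six.Node
import Vale.Agent.P098.Six.Entries

/-!
# P098, six dimensions: the entries at the two ends of the range of the cubic invariant

The point `u` is `(w, D, ξ, l)`.
-/

namespace Vale.Agent.P098.Six

open Vale.Agent.P098.Div

noncomputable section

/-- An entry at the two ends `t₀`, `t₁`. -/
def ends (u : Fin 4 → ℝ) (t₀ t₁ : ℝ) (f : (Fin 4 → ℝ) → ℝ) : ℝ × ℝ :=
  (f (pt4 u t₀), f (pt4 u t₁))

/-- The values of a certificate at a point and the two ends. -/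
def valsAt (C : Coef8) (u : Fin 4 → ℝ) (t₀ t₁ : ℝ) : Vals where
  s := eS (pt4 u t₀)
  dom := phiSix (u 1) - u 0 ^ 2
  pp := ends u t₀ t₁ fun v => ePP C.fields v (u 3)
  pz := ends u t₀ t₁ fun v => ePZ C.fields v (u 3)
  z := ends u t₀ t₁ fun v => eZ C.gam C.fields v
  b1 := ends u t₀ t₁ C.fields.b1
  pn := ePN C.fields (pt4 u t₀) (u 3)
  nz := eNZ C.fields (pt4 u t₀) (u 3)
  zz := ends u t₀ t₁ fun v => eZZ C.fields v (u 3)

end

end Vale.Agent.P098.Six
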